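import Vale.Agent.P218E.Zm

/-!
# P218E: tangent measures are invariant under the translations of a plane (BLOW)
-/

open MeasureTheory Metric Filter Topology Set
open scoped ContDiff ENNReal RealInnerProductSpace NNReal
open Vale.Agent.P218 (limitSet WeakTendsto LocBdd fnl)
open Vale.Agent.P218R

noncomputable section

namespace Vale.Agent.P218E

namespace Bl

theorem ex_rad {F : Type*} [Zero F] [TopologicalSpace F] {f : E3 → F} (hc : HasCompactSupport f) :
    ∃ R > (0 : ℝ), tsupport f ⊆ ball (0 : E3) R := by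
  obtain ⟨R, hR⟩ := hc.isCompact.isBounded.subset_ball (0 : E3)
  exact ⟨max R 1, by positivity, hR.trans (ball_subset_ball (le_max_left _ _))⟩

/-- `C¹` functions with compact support determine a Radon measure -/
theorem ext_c1 {μ ν : Measure E3} [IsLocallyFiniteMeasure μ] [IsLocallyFiniteMeasure ν]
    (h : ∀ g : E3 → ℝ, ContDiff ℝ 1 g → HasCompactSupport g → ∫ x, g x ∂μ = ∫ x, g x ∂ν) :
    μ = ν := by
  refine Measure.ext_of_integral_eq_on_compactlySupported fun φ => ?_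
  obtain ⟨R, -, hR⟩ := ex_rad φ.hasCompactSupport
  have hz : ∀ x : E3, R < ‖x‖ → φ x = 0 := fun x hx => image_eq_zero_of_notMem_tsupport fun h => by
    have := mem_ball_zero_iff.1 (hR h)
    linarith
  have fin : ∀ (m : Measure E3) [IsLocallyFiniteMeasure m],
      m (closedBall 0 R) ≤ (m (closedBall 0 R)).toNNReal := fun m _ =>
    (ENNReal.coe_toNNReal (isCompact_closedBall (0 : E3) R).measure_lt_top.ne).ge
  set C := (μ (closedBall 0 R)).toNNReal
  set C' := (ν (closedBall 0 R)).toNNReal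
  refine eq_of_forall_dist_le fun ε hε => ?_
  have hM : 0 < ε / (C + C' + 1) := by positivity
  obtain ⟨g, g1, g2, g3⟩ := φ.continuous.exists_contDiff_approx 1 (ε := fun _ => ε / (C + C' + 1))
    continuous_const fun _ => hM
  have hg : ∀ x : E3, R < ‖x‖ → g x = 0 := fun x hx => by_contra fun hne => g3 hne (hz x hx)
  have hgc : HasCompactSupport g :=
    HasCompactSupport.intro (isCompact_closedBall (0 : E3) R) fun x hx => hg x (by simpa using hx)
  have hap : ∀ x : E3, ‖x‖ ≤ R → |φ x - g x| ≤ ε / (C + C' + 1) := fun x _ => by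
    rw [abs_sub_comm]
    exact (g2 x).le
  have a1 := Vale.Agent.P218.abs_integral_sub_le φ.continuous g1.continuous hz hg hap hM.le (fin μ)
  have a2 := Vale.Agent.P218.abs_integral_sub_le φ.continuous g1.continuous hz hg hap hM.le (fin ν)
  rw [h g g1 hgc] at a1
  have a3 : ε / (C + C' + 1) * C + ε / (C + C' + 1) * C' ≤ ε := by
    rw [← mul_add, div_mul_eq_mul_div, div_le_iff₀ (by positivity)]
    nlinarith [C.2, C'.2]
  rw [Real.dist_eq]
  refine (abs_sub_le _ (∫ x, g x ∂ν) _).trans ?_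
  rw [abs_sub_comm (∫ x, g x ∂ν)]
  exact (add_le_add a1 a2).trans a3

/-- a measure whose derivative in the direction `v` vanishes is invariant -/
theorem inv_of {κ : Measure E3} [IsLocallyFiniteMeasure κ] {v : E3}
    (h : ∀ f : E3 → ℝ, ContDiff ℝ 1 f → HasCompactSupport f → ∫ x, fderiv ℝ f x v ∂κ = 0) :
    κ.map (fun x => x + v) = κ := by
  have i1 : IsFiniteMeasureOnCompacts (κ.map fun x => x + v) :=
    Measure.IsFiniteMeasureOnCompacts.map κ (Homeomorph.addRight v)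
  refine ext_c1 fun f hf hc => ?_
  rw [(measurableEmbedding_addRight v).integral_map]
  obtain ⟨R, hR0, hR⟩ := ex_rad hc
  have cd : Continuous (fderiv ℝ f) := hf.continuous_fderiv one_ne_zero
  obtain ⟨M, hM⟩ := (hc.fderiv ℝ).exists_bound_of_continuous cd
  have hcs : ∀ w : E3, HasCompactSupport fun x => f (x + w) := fun w =>
    hc.comp_homeomorph (Homeomorph.addRight w)
  have key : ∀ t : ℝ, HasDerivAt (fun t : ℝ => ∫ x, f (x + t • v) ∂κ) 0 t := by
    intro t
    have h0 : ∫ x, fderiv ℝ f (x + t • v) v ∂κ = 0 := by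
      rw [← h (fun x => f (x + t • v)) (by fun_prop) (hcs _)]
      simp only [fderiv_comp_add_right]
    rw [← h0]
    refine (hasDerivAt_integral_of_dominated_loc_of_deriv_le (s := ball t 1)
      (F := fun (t : ℝ) x => f (x + t • v)) (F' := fun (t : ℝ) x => fderiv ℝ f (x + t • v) v)
      (bound := (closedBall (0 : E3) (R + (|t| + 1) * ‖v‖)).indicator fun _ => M * ‖v‖)
      (ball_mem_nhds t one_pos) (Eventually.of_forall fun s => ?_) ?_ ?_
      (Eventually.of_forall fun x s hs => ?_) ?_ (Eventually.of_forall fun x s _ => ?_)).2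
    · exact Continuous.aestronglyMeasurable (by have := hf.continuous; fun_prop)
    · exact Continuous.integrable_of_hasCompactSupport (by have := hf.continuous; fun_prop) (hcs _)
    · exact Continuous.aestronglyMeasurable (by fun_prop)
    · by_cases hx : x ∈ closedBall (0 : E3) (R + (|t| + 1) * ‖v‖)
      · rw [indicator_of_mem hx]
        exact (ContinuousLinearMap.le_opNorm _ _).trans (by gcongr; exact hM _)
      · rw [indicator_of_notMem hx, fderiv_of_notMem_tsupport ℝ fun hm => hx ?_]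
        · simp
        · have h1 := mem_ball_zero_iff.1 (hR hm)
          have h2 : |s| ≤ |t| + 1 := by
            have := abs_sub_abs_le_abs_sub s t
            have : |s - t| < 1 := hs
            linarith
          have h3 := norm_sub_le (x + s • v) (s • v)
          rw [add_sub_cancel_right, norm_smul, Real.norm_eq_abs] at h3
          rw [mem_closedBall_zero_iff]
          nlinarith [norm_nonneg v]
    · exact (integrable_indicator_iff measurableSet_closedBall).2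
        (integrableOn_const (isCompact_closedBall _ _).measure_lt_top.ne)
    · have h1 : HasDerivAt (fun t : ℝ => x + t • v) v s := by
        simpa using ((hasDerivAt_id s).smul_const v).const_add x
      exact (hf.differentiable one_ne_zero _).hasFDerivAt.comp_hasDerivAt s h1
  have := is_const_of_deriv_eq_zero (fun t => (key t).differentiableAt) (fun t => (key t).deriv) 1 0
  simpa using this

theorem subseq {u : ℕ → Measure E3} {Λ : ℝ} (h : ∀ᶠ k in atTop, AR Λ (u k)) :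
    ∃ (κ : Measure E3) (ψ : ℕ → ℕ), IsLocallyFiniteMeasure κ ∧ StrictMono ψ ∧
      WeakTendsto (fun n => u (ψ n)) κ := by
  obtain ⟨n₀, hn₀⟩ := eventually_atTop.1 h
  have hb : LocBdd fun n : ℕ => u (n₀ + n) := fun K hK => by
    obtain ⟨R, hR⟩ := hK.isBounded.subset_closedBall (0 : E3)
    exact ⟨(Λ * (max R 1) ^ 2).toNNReal, fun i => (measure_mono (hR.trans
      (closedBall_subset_closedBall (le_max_left _ _)))).trans
        (hn₀ _ (by omega) 0 _ (by positivity))⟩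
  choose B hB using hb.fnl_bdd
  obtain ⟨ℓ, hℓ⟩ := Vale.Agent.P218.cluster_nonempty
    (isCompact_univ_pi fun φ => isCompact_Icc (a := -B φ) (b := B φ))
    (fun n : ℕ => fnl (u (n₀ + n))) (fun n φ _ => abs_le.1 (hB φ n))
  obtain ⟨ν, hν, rfl⟩ := Vale.Agent.P218.exists_measure_of_cluster hb hℓ
  obtain ⟨ψ, hψ, hψt⟩ := hb.exists_subseq_of_cluster hℓ
  exact ⟨ν, fun n => n₀ + ψ n, hν, fun a b hab => Nat.add_lt_add_left (hψ hab) _, hψt⟩

theorem inner_le {n e : E3} (hn : ‖n‖ = 1) (he : ‖e‖ = 1) (v : E3) {δ : ℝ} (hδ : 0 < δ) :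
    |⟪n, v⟫| ≤ |⟪e, v⟫| + ‖v‖ * (δ + (1 - ⟪n, e⟫ ^ 2) ^ 4 / δ ^ 7) := by
  set c := ⟪n, e⟫ with hc
  have h1 : ‖n - c • e‖ ^ 2 = 1 - c ^ 2 := by
    rw [norm_sub_sq_real, real_inner_smul_right, norm_smul, hn, he, ← hc, Real.norm_eq_abs, mul_one,
      sq_abs]
    ring
  have h2 : |c| ≤ 1 := by simpa [hn, he] using abs_real_inner_le_norm n e
  have h3 : ⟪n, v⟫ = c * ⟪e, v⟫ + ⟪n - c • e, v⟫ := by
    rw [inner_sub_left, real_inner_smul_left]; ring
  have h4 := abs_real_inner_le_norm (n - c • e) v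
  have h5 : ‖n - c • e‖ ≤ δ + (1 - c ^ 2) ^ 4 / δ ^ 7 := by
    rw [← h1]
    set t := ‖n - c • e‖
    have ht : 0 ≤ t := norm_nonneg _
    rcases le_total t δ with h | h
    · have : 0 ≤ (t ^ 2) ^ 4 / δ ^ 7 := by positivity
      linarith
    · have : t ≤ (t ^ 2) ^ 4 / δ ^ 7 := by
        rw [le_div_iff₀ (by positivity), show (t ^ 2) ^ 4 = t * t ^ 7 by ring]
        gcongr
      linarith
  rw [h3]
  refine (abs_add_le _ _).trans (add_le_add ?_ (h4.trans ?_))
  · rw [abs_mul]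
    exact mul_le_of_le_one_left (abs_nonneg _) h2
  · rw [mul_comm]
    gcongr

theorem intOn {μ : Measure E3} [IsLocallyFiniteMeasure μ] {g : E3 → ℝ} (hg : Continuous g)
    (x : E3) (R : ℝ) : IntegrableOn g (ball x R) μ :=
  (hg.continuousOn.integrableOn_compact (isCompact_closedBall x R)).mono_set ball_subset_closedBall

/-- the estimate on one surface -/
theorem one (fv : FV) {T : Srf} {Λ R M δ h ε : ℝ} (hT : T.Ok) (hA : AR Λ T.μ) (hΛ : 0 ≤ Λ)
    {f : E3 → ℝ} (hf : ContDiff ℝ 1 f) (hc : HasCompactSupport f) (hR0 : 0 < R)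
    (hR : tsupport f ⊆ ball 0 R) (hM : ∀ x, |f x| ≤ M) (hM' : ∀ x, ‖fderiv ℝ f x‖ ≤ M) {e : E3}
    (he : ‖e‖ = 1) (v : E3) (hδ : 0 < δ) (hε0 : 0 ≤ ε)
    (hh : ∫ x in ball (0 : E3) R, T.H x ^ 2 ∂T.μ ≤ h)
    (hε : ∫⁻ x in ball (0 : E3) R, ENNReal.ofReal ((1 - ⟪T.n x, e⟫ ^ 2) ^ 4) ∂T.μ ≤
      ENNReal.ofReal ε) :
    |∫ x, fderiv ℝ f x v ∂T.μ| ≤ M * ((2 * ‖v‖ * δ + |⟪e, v⟫|) * (Λ * R ^ 2) +
      ‖v‖ / δ * h + ‖v‖ / δ ^ 7 * ε) := by
  have := hA.fin
  have hM0 : 0 ≤ M := (abs_nonneg _).trans (hM 0)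
  have cd : Continuous (fderiv ℝ f) := hf.continuous_fderiv one_ne_zero
  have cf := hf.continuous
  have cn := hT.sn.continuous
  have cH := hT.sH.continuous
  have hY : ContDiff ℝ 1 fun y => f y • v := hf.smul contDiff_const
  have hYc : HasCompactSupport fun y => f y • v := hc.smul_right
  have h1 := fv T _ hT hY hYc
  have hdc : ∀ w : E3 → E3, HasCompactSupport fun x => fderiv ℝ f x (w x) := fun w =>
    (hc.fderiv ℝ).mono fun x hx h0 => hx (by simp only [h0, zero_apply])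
  have i1 : Integrable (T.dv fun y => f y • v) T.μ :=
    (hT.cdv hY).integrable_of_hasCompactSupport (Srf.hcs_dv hYc)
  have i2 : Integrable (fun x => ⟪T.n x, v⟫ * fderiv ℝ f x (T.n x)) T.μ :=
    Continuous.integrable_of_hasCompactSupport (by fun_prop) (hdc _).mul_left
  have i3 : Integrable (fun x => T.H x * ⟪T.n x, f x • v⟫) T.μ := by
    simp only [real_inner_smul_right]
    exact Continuous.integrable_of_hasCompactSupport (by fun_prop) hc.mul_right.mul_left
  have e1 : ∀ x, fderiv ℝ f x v =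
      T.dv (fun y => f y • v) x + ⟪T.n x, v⟫ * fderiv ℝ f x (T.n x) := fun x => by
    rw [Srf.dv_smul (hf.differentiable one_ne_zero x) (differentiableAt_const v), Srf.dv_const,
      Srf.inner_tg, Srf.P_apply, map_sub, map_smul, smul_eq_mul]
    ring
  have h2 : ∫ x, fderiv ℝ f x v ∂T.μ = ∫ x in ball (0 : E3) R,
      (T.H x * ⟪T.n x, f x • v⟫ + ⟪T.n x, v⟫ * fderiv ℝ f x (T.n x)) ∂T.μ := by
    rw [setIntegral_eq_integral_of_forall_compl_eq_zero, integral_add i3 i2, ← h1,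
      ← integral_add i1 i2]
    · exact integral_congr_ae (Eventually.of_forall e1)
    · intro x hx
      have h3 : x ∉ tsupport f := fun h => hx (hR h)
      rw [image_eq_zero_of_notMem_tsupport h3, fderiv_of_notMem_tsupport ℝ h3]
      simp
  have j1 : IntegrableOn (fun x => T.H x ^ 2) (ball 0 R) T.μ := intOn (by fun_prop) _ _
  have j2 : IntegrableOn (fun x => (1 - ⟪T.n x, e⟫ ^ 2) ^ 4) (ball 0 R) T.μ :=
    intOn (by fun_prop) _ _
  have j0 : IntegrableOn (fun _ => 2 * ‖v‖ * δ + |⟪e, v⟫|) (ball 0 R) T.μ :=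
    intOn continuous_const _ _
  have h4 : ∫ x in ball (0 : E3) R, (1 - ⟪T.n x, e⟫ ^ 2) ^ 4 ∂T.μ ≤ ε := by
    rw [← ENNReal.ofReal_le_ofReal_iff hε0, ofReal_integral_eq_lintegral_ofReal j2
      (Eventually.of_forall fun x => by positivity)]
    exact hε
  have h5 : T.μ.real (ball 0 R) ≤ Λ * R ^ 2 := hA.real hΛ hR0 ball_subset_closedBall
  have j3 : IntegrableOn (fun x => (2 * ‖v‖ * δ + |⟪e, v⟫|) + ‖v‖ / δ * T.H x ^ 2) (ball 0 R) T.μ :=
    j0.add (j1.const_mul _)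
  rw [h2, ← Real.norm_eq_abs]
  refine (norm_integral_le_of_norm_le (g := fun x => M * (((2 * ‖v‖ * δ + |⟪e, v⟫|) +
    ‖v‖ / δ * T.H x ^ 2) + ‖v‖ / δ ^ 7 * (1 - ⟪T.n x, e⟫ ^ 2) ^ 4))
    ((j3.add (j2.const_mul _)).const_mul M) ((hT.ae_set _).mono fun x hx => ?_)).trans ?_
  · have n1 := hT.norm_n hx
    have a1 : |⟪T.n x, v⟫| ≤ ‖v‖ := by simpa [n1] using abs_real_inner_le_norm (T.n x) v
    have a2 : |fderiv ℝ f x (T.n x)| ≤ M := by
      have := (fderiv ℝ f x).le_opNorm (T.n x)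
      rw [n1, mul_one] at this
      exact this.trans (hM' x)
    have a3 : |T.H x| ≤ δ + T.H x ^ 2 / δ := by
      have : 0 ≤ (|T.H x| - δ) ^ 2 / δ := by positivity
      have e : (|T.H x| - δ) ^ 2 / δ = |T.H x| ^ 2 / δ - 2 * |T.H x| + δ := by field_simp; ring
      rw [e, sq_abs] at this
      linarith [abs_nonneg (T.H x)]
    have a4 := inner_le n1 he v hδ
    rw [Real.norm_eq_abs, real_inner_smul_right]
    refine (abs_add_le _ _).trans ?_
    rw [abs_mul, abs_mul, abs_mul]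
    have a5 : |T.H x| * (|f x| * |⟪T.n x, v⟫|) ≤ (δ + T.H x ^ 2 / δ) * (M * ‖v‖) := by
      have := hM x
      gcongr
    have a6 : |⟪T.n x, v⟫| * |fderiv ℝ f x (T.n x)| ≤
        (|⟪e, v⟫| + ‖v‖ * (δ + (1 - ⟪T.n x, e⟫ ^ 2) ^ 4 / δ ^ 7)) * M := by gcongr
    refine (add_le_add a5 a6).trans_eq ?_
    ring
  · rw [integral_const_mul, integral_add j3 (j2.const_mul _), integral_add j0 (j1.const_mul _),
      integral_const_mul, integral_const_mul, setIntegral_const, smul_eq_mul, mul_comm (T.μ.real _)]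
    gcongr

/-- the mean curvature after magnification -/
theorem hsc {S : Srf} {Λ R l : ℝ} (hS : S.Ok) (hA : AR Λ S.μ) (hΛ : 0 ≤ Λ) (p : E3) (hR : 0 < R)
    (hl : 1 ≤ l) : ∫ x in ball (0 : E3) R, (S.sc p l).H x ^ 2 ∂(S.sc p l).μ ≤
      2 * ∫ x in closedBall (0 : E3) (‖p‖ + R), S.φ x ^ 2 ∂S.μ +
        (‖p‖ + R) ^ 2 * (Λ * (R / l) ^ 2) := by
  have := hA.fin
  have hl0 : 0 < l := by linarith
  have cφ := hS.sφ.continuous
  have cH := hS.sH.continuous
  have hs : ball p (R / l) ⊆ closedBall (0 : E3) (‖p‖ + R) := fun x hx => by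
    have h1 := mem_ball_iff_norm.1 hx
    have h2 := div_le_self hR.le hl
    rw [mem_closedBall_zero_iff]
    linarith [norm_sub_norm_le x p]
  rw [setIntegral_sc S p hl0, sc_ball p hl0, smul_zero, add_zero, ← integral_const_mul]
  have e : ∀ x, l ^ 2 * (S.sc p l).H (l • (x - p)) ^ 2 = S.H x ^ 2 := fun x => by
    rw [sc_H, sc_left p hl0]
    field_simp
  simp only [e]
  have j1 : IntegrableOn (fun x => S.φ x ^ 2) (ball p (R / l)) S.μ := intOn (by fun_prop) _ _
  have j0 : IntegrableOn (fun _ => (‖p‖ + R) ^ 2) (ball p (R / l)) S.μ := intOn continuous_const _ _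
  have h1 : ∫ x in ball p (R / l), S.H x ^ 2 ∂S.μ ≤
      ∫ x in ball p (R / l), (2 * S.φ x ^ 2 + (‖p‖ + R) ^ 2) ∂S.μ := by
    refine setIntegral_mono_on_ae (intOn (by fun_prop) _ _) ((j1.const_mul 2).add j0)
      measurableSet_ball (hS.ae.mono fun x hx hb => ?_)
    have a1 : |⟪x, S.n x⟫| ≤ ‖p‖ + R := by
      have := abs_real_inner_le_norm x (S.n x)
      rw [hS.norm_n hx, mul_one] at this
      exact this.trans (mem_closedBall_zero_iff.1 (hs hb))
    have a2 := sq_le_sq' (abs_le.1 a1).1 (abs_le.1 a1).2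
    unfold Srf.φ
    nlinarith [sq_nonneg (S.H x - ⟪x, S.n x⟫), sq_nonneg (‖p‖ + R)]
  rw [integral_add (j1.const_mul 2) j0, integral_const_mul, setIntegral_const, smul_eq_mul,
    mul_comm (S.μ.real _)] at h1
  refine h1.trans (add_le_add ?_ ?_)
  · refine mul_le_mul_of_nonneg_left (setIntegral_mono_set ?_
      (Eventually.of_forall fun x => sq_nonneg _) hs.eventuallyLE) two_pos.le
    exact (by fun_prop : Continuous fun x => S.φ x ^ 2).continuousOn.integrableOn_compact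
      (isCompact_closedBall _ _)
  · exact mul_le_mul_of_nonneg_left (hA.real hΛ (by positivity) ball_subset_closedBall)
      (sq_nonneg _)

end Bl

open Bl in
/-- **BLOW** -/
theorem blow (near : NEAR) (fv : FV) : BLOW := by
  intro S Λ κ p l hG hl
  have := hG.lf
  have hΛ := hG.pos.le
  have hκ : AR Λ κ := Gs.ar_lim (hG.ok.mono fun i hi => hi.2) hG.wk
  obtain ⟨κ', ψ₀, lf', hψ₀, hw₀⟩ := subseq (u := fun k => zm κ p (l k)) (Λ := Λ)
    ((hl.eventually_gt_atTop 0).mono fun k hk => zm_ar hκ p hk)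
  by_cases h0 : κ' = 0
  · exact ⟨ψ₀, κ', EuclideanSpace.single 0 1, hψ₀, lf', by simp, hw₀, fun v _ => by simp [h0]⟩
  obtain ⟨ψ₁, hψ₁, hn⟩ := near S Λ κ p (fun k => l (ψ₀ k)) hG (hl.comp hψ₀.tendsto_atTop)
  have hw₁ : WeakTendsto (fun k => zm κ p (l (ψ₀ (ψ₁ k)))) κ' := fun f h1 h2 =>
    (hw₀ f h1 h2).comp hψ₁.tendsto_atTop
  obtain ⟨R₀, hR₀⟩ : ∃ R₀ : ℕ, κ' (ball 0 R₀) ≠ 0 := by
    by_contra hc
    push Not at hc
    apply h0
    rw [← Measure.measure_univ_eq_zero, ← iUnion_ball_nat (0 : E3)]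
    exact measure_iUnion_null hc
  obtain ⟨c, hc0, hc⟩ := ENNReal.lt_iff_exists_nnreal_btwn.1 (pos_iff_ne_zero.2 hR₀)
  obtain ⟨ν, hν, hnν⟩ := hn R₀ c (by exact_mod_cast hc0)
    (ev_lt_of_weak hw₁ isOpen_ball (by rwa [ENNReal.ofReal_coe_nnreal]))
  obtain ⟨e, he, ψ₂, hψ₂, hνe⟩ := (isCompact_sphere (0 : E3) 1).tendsto_subseq (x := ν)
    fun k => mem_sphere_zero_iff_norm.2 (hν k)
  have hw₂ : WeakTendsto (fun k => zm κ p (l (ψ₀ (ψ₁ (ψ₂ k))))) κ' := fun f h1 h2 =>
    (hw₁ f h1 h2).comp hψ₂.tendsto_atTop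
  refine ⟨fun k => ψ₀ (ψ₁ (ψ₂ k)), κ', e, hψ₀.comp (hψ₁.comp hψ₂), lf',
    mem_sphere_zero_iff_norm.1 he, hw₂, fun v hv => inv_of fun f hf hc => ?_⟩
  obtain ⟨R, hR0, hR⟩ := ex_rad hc
  have cd : Continuous (fderiv ℝ f) := hf.continuous_fderiv one_ne_zero
  obtain ⟨M₁, hM₁⟩ := (hc.fderiv ℝ).exists_bound_of_continuous cd
  obtain ⟨M₂, hM₂⟩ := hc.exists_bound_of_continuous hf.continuous
  set M := max M₁ M₂ with hM
  have cg : Continuous fun x => fderiv ℝ f x v := by fun_prop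
  have hgc : HasCompactSupport fun x => fderiv ℝ f x v :=
    (hc.fderiv ℝ).mono fun x hx h0 => hx (by simp only [h0, zero_apply])
  have hL : Tendsto (fun k => l (ψ₀ (ψ₁ (ψ₂ k)))) atTop atTop :=
    hl.comp (hψ₀.comp (hψ₁.comp hψ₂)).tendsto_atTop
  have key : ∀ δ > (0 : ℝ), |∫ x, fderiv ℝ f x v ∂κ'| ≤
      M * ((2 * ‖v‖ * δ + 0) * (Λ * R ^ 2) + ‖v‖ / δ * 0 + ‖v‖ / δ ^ 7 * δ ^ 8) := by
    intro δ hδ
    have t1 : Tendsto (fun k => |⟪ν (ψ₂ k), v⟫|) atTop (𝓝 0) := by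
      have := (hνe.inner (𝕜 := ℝ) (tendsto_const_nhds (x := v))).abs
      rwa [hv, abs_zero] at this
    have t2 : Tendsto (fun k => 2 * (0 : ℝ) + (‖p‖ + R) ^ 2 * (Λ * (R / l (ψ₀ (ψ₁ (ψ₂ k)))) ^ 2))
        atTop (𝓝 0) := by
      have := ((((tendsto_const_nhds (x := R)).div_atTop hL).pow 2).const_mul Λ).const_mul
        ((‖p‖ + R) ^ 2)
      simpa using this
    refine le_of_tendsto_of_tendsto (hw₂ _ cg hgc).abs
      (((((t1.const_add (2 * ‖v‖ * δ)).mul_const (Λ * R ^ 2)).add (t2.const_mul (‖v‖ / δ))).add_const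
        (‖v‖ / δ ^ 7 * δ ^ 8)).const_mul M) ?_
    filter_upwards [hψ₂.tendsto_atTop.eventually (hnν R (δ ^ 8) (by positivity)),
      hL.eventually_ge_atTop 1] with k hk hl1
    have hl0 : 0 < l (ψ₀ (ψ₁ (ψ₂ k))) := by linarith
    have t3 := zm_weak (hG.ok.mono fun i hi => hi.2) hG.wk (tendsto_const_nhds (x := p))
      tendsto_const_nhds hl0 _ cg hgc
    have t4 := (((((hG.ph (‖p‖ + R)).const_mul 2).add_const
      ((‖p‖ + R) ^ 2 * (Λ * (R / l (ψ₀ (ψ₁ (ψ₂ k)))) ^ 2))).const_mul (‖v‖ / δ)).const_add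
        ((2 * ‖v‖ * δ + |⟪ν (ψ₂ k), v⟫|) * (Λ * R ^ 2))).add_const (‖v‖ / δ ^ 7 * δ ^ 8)
    refine le_of_tendsto_of_tendsto_of_frequently t3.abs (t4.const_mul M) ?_
    refine (hk.and_eventually hG.ok).mono fun i hi => ?_
    have := one fv (hi.2.1.sc p hl0) (hi.2.2.sc p hl0) hΛ hf hc hR0 hR
      (fun x => (hM₂ x).trans (le_max_right M₁ M₂)) (fun x => (hM₁ x).trans (le_max_left M₁ M₂))
      (hν (ψ₂ k)) v hδ (by positivity) (hsc hi.2.1 hi.2.2 hΛ p hR0 hl1) hi.1
    rwa [sc_zm _ _ hl0] at this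
  have t5 : Tendsto (fun δ : ℝ => M * (2 * ‖v‖ * δ * (Λ * R ^ 2) + ‖v‖ * δ)) (𝓝[>] 0) (𝓝 0) := by
    have : Continuous fun δ : ℝ => M * (2 * ‖v‖ * δ * (Λ * R ^ 2) + ‖v‖ * δ) := by fun_prop
    simpa using (this.tendsto 0).mono_left nhdsWithin_le_nhds
  refine abs_nonpos_iff.1 (ge_of_tendsto t5 (eventually_mem_nhdsWithin.mono fun δ hδ => ?_))
  refine (key δ hδ).trans_eq ?_
  have : δ ≠ 0 := ne_of_gt hδ
  field_simp
  ring

end Vale.Agent.P218E
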