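import Vale.Agent.P218E.Spec
import Vale.Agent.P218R.Base

/-!
# P218E: ends as graphs; conical ends
-/

open MeasureTheory Metric Filter Topology Set
open scoped ContDiff ENNReal RealInnerProductSpace
open Vale.Agent.P366W
open Vale.Agent.P218R
open Vale.Agent.P218T (Decays IsLink conePt)

noncomputable section

namespace Vale.Agent.P218E

/-- the strip on which periodic functions are bounded -/
def strip : Set P3 := (Icc (-1) 1 ×ˢ univ) ×ˢ Icc (-1) 1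

section per
variable {V : Type} [NormedAddCommGroup V] [NormedSpace ℝ V] {Ξ : P3 → V}

theorem per_bd0 {V : Type} [NormedAddCommGroup V] {Ξ : P3 → V} (h : Continuous Ξ)
    (hp : Function.Periodic Ξ ((0, 2 * Real.pi), 0)) : ∃ K, ∀ q ∈ strip, ‖Ξ q‖ ≤ K := by
  obtain ⟨K, hK⟩ := (((isCompact_Icc (a := (-1 : ℝ)) (b := 1)).prod (isCompact_Icc (a := 0)
    (b := 2 * Real.pi))).prod (isCompact_Icc (a := (-1 : ℝ)) (b := 1))).exists_bound_of_continuousOn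
      h.continuousOn
  refine ⟨K, fun q hq => ?_⟩
  obtain ⟨θ, a, b⟩ := Function.Periodic.exists_mem_Ico₀ (f := fun θ => Ξ ((q.1.1, θ), q.2))
    (fun θ => by simpa using hp ((q.1.1, θ), q.2)) Real.two_pi_pos q.1.2
  exact b.symm ▸ hK _ ⟨⟨hq.1.1, Ico_subset_Icc_self a⟩, hq.2⟩

theorem per_bd (h : ContDiff ℝ ∞ Ξ) (hp : Function.Periodic Ξ ((0, 2 * Real.pi), 0)) :
    ∃ B : ℕ → ℝ, ∀ k, ∀ q ∈ strip, ‖iteratedFDeriv ℝ k Ξ q‖ ≤ B k := by
  choose B hB using fun k : ℕ => per_bd0 (h.continuous_iteratedFDeriv (m := k)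
    (by exact_mod_cast le_top)) fun q => by
      rw [← iteratedFDeriv_comp_add_right, show (fun z => Ξ (z + _)) = Ξ from funext hp]
  exact ⟨B, hB⟩

theorem per_lip (h : ContDiff ℝ ∞ Ξ) (hp : Function.Periodic Ξ ((0, 2 * Real.pi), 0)) :
    ∃ K > (0 : ℝ), ∀ q ∈ strip, ∀ q' ∈ strip, ‖Ξ q - Ξ q'‖ ≤ K * ‖q - q'‖ := by
  obtain ⟨B, hB⟩ := per_bd h hp
  exact ⟨|B 1| + 1, by positivity, fun q a q' b => Convex.norm_image_sub_le_of_norm_fderiv_le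
    (fun x _ => h.differentiable (by simp) x) (fun x hx => by
      have := hB 1 x hx
      rw [norm_iteratedFDeriv_one] at this
      linarith [le_abs_self (B 1)])
    (((convex_Icc _ _).prod convex_univ).prod (convex_Icc _ _)) b a⟩

end per

theorem Ldf.abs_le (h3 : LDF) {w F : E3 → ℝ} {p e x : E3} {c : ℝ} {B : ℕ → ℝ}
    (h : Ldf w p e c B F) (h0 : w p = 0) (hx : x ∈ ball p c) : |F x| ≤ 2 * ‖x - p‖ := by
  have hp : p ∈ ball p c := mem_ball_self (pos_of_mem_ball hx)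
  have a := (h3.2.2.1 _ _ _ _ _ _ h).1 x hx p hp
  have b := abs_real_inner_le_norm e (x - p)
  rw [(h.zero p hp).1 h0, sub_zero] at a
  rw [h.unit] at b
  linarith [abs_sub_abs_le_abs_sub (F x) ⟪e, x - p⟫, norm_nonneg (x - p)]

/-- an end is a graph in the coordinates `Ξ` -/
theorem end_root (h1 : ROOT) (h2 : CB) (h3 : LDF) {Ξ : P3 → E3} (sm : ContDiff ℝ ∞ Ξ)
    (hp : Function.Periodic Ξ ((0, 2 * Real.pi), 0)) {f : P3 → ℝ}
    (hf : ∀ z θ t, f ((z, θ + 2 * Real.pi), t) = f ((z, θ), t)) {c : ℝ} (c0 : 0 < c) {B : ℕ → ℝ}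
    (hN : ∀ θ, ‖fderiv ℝ Ξ ((0, θ), 0) (0, 1)‖ = 1)
    (h : ∀ η > (0 : ℝ), ∀ᶠ s in atTop, ∀ θ, ∃ (w F : E3 → ℝ) (p e b : E3), Ldf w p e c B F ∧
      w p = 0 ∧ ‖b + Ξ ((0, θ), 0) - p‖ ≤ η ∧ 9 / 10 ≤ |⟪e, fderiv ℝ Ξ ((0, θ), 0) (0, 1)⟫| ∧
      ∀ q, f q = w (b + Ξ (q - ((s, 0), 0)))) :
    ∃ τ > (0 : ℝ), ∃ (φ : ℝ × ℝ → ℝ) (R : ℝ), Decays φ ∧ ∀ y : ℝ × ℝ, R ≤ y.1 → |φ y| < τ ∧
      ∀ t, |t| < τ → (f (y, t) = 0 ↔ t = φ y) := by
  obtain ⟨B₂, b2⟩ := per_bd sm hp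
  obtain ⟨K, K0, hK⟩ := per_lip sm hp
  obtain ⟨M, M0, hM⟩ := per_lip (Ξ := fun q => fderiv ℝ Ξ q (0, 1))
    ((sm.fderiv_right (m := ∞) (by simp)).clm_apply contDiff_const) fun q => by
      beta_reduce
      rw [← fderiv_comp_add_right, show (fun z => Ξ (z + _)) = Ξ from funext hp]
  obtain ⟨B', hB⟩ := h2 B B₂
  obtain ⟨τ, t0, t1, t2, t3⟩ : ∃ τ > (0 : ℝ), τ ≤ 1 ∧ K * τ ≤ c / 2 ∧ M * τ ≤ 1 / 10 :=
    ⟨min 1 (min (c / 2 / K) (1 / 10 / M)), by positivity, min_le_left _ _,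
      (le_div_iff₀' K0).1 ((min_le_right _ _).trans (min_le_left _ _)),
      (le_div_iff₀' M0).1 ((min_le_right _ _).trans (min_le_right _ _))⟩
  refine ⟨τ, t0, h1 f τ τ (1 / 2) B' t0 t0 one_half_pos hf fun η e0 => ?_⟩
  obtain ⟨s, hs⟩ := eventually_atTop.1 (h (min (η / 2) (c / 4)) (by positivity))
  refine ⟨s, fun y hy => ?_⟩
  obtain ⟨w, F, p, e, b, a1, a2, a3, a4, a5⟩ := hs y.1 hy y.2
  have s0 : (((0 : ℝ), y.2), (0 : ℝ)) ∈ strip := by simp [strip]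
  have s1 : ∀ q ∈ box y τ τ, q - ((y.1, 0), 0) ∈ strip ∧
      ‖q - ((y.1, 0), 0) - ((0, y.2), 0)‖ < τ := fun q hq => by
    have d1 := mem_ball_iff_norm.1 hq.1
    have d2 := abs_lt.1 ((norm_fst_le (q.1 - y)).trans_lt d1)
    refine ⟨⟨⟨⟨?_, ?_⟩, trivial⟩, ?_, ?_⟩, ?_⟩
    · exact le_trans (by linarith) d2.1.le
    · exact d2.2.le.trans t1
    · simpa using le_trans (by linarith) hq.2.1.le
    · simpa using hq.2.2.le.trans t1
    · rw [sub_sub, Prod.norm_def]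
      exact max_lt (by simpa using d1) (by simpa using abs_lt.2 hq.2)
  have s2 : MapsTo (fun q => b + Ξ (q - ((y.1, 0), 0))) (box y τ τ) (ball p c) := fun q hq => by
    have d1 := (hK _ (s1 q hq).1 _ s0).trans (mul_le_mul_of_nonneg_left (s1 q hq).2.le K0.le)
    have d2 := norm_add_le (Ξ (q - ((y.1, 0), 0)) - Ξ ((0, y.2), 0)) (b + Ξ ((0, y.2), 0) - p)
    rw [mem_ball_iff_norm, show b + Ξ (q - ((y.1, 0), 0)) - p = Ξ (q - ((y.1, 0), 0)) -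
      Ξ ((0, y.2), 0) + (b + Ξ ((0, y.2), 0) - p) by abel]
    linarith [min_le_right (η / 2) (c / 4)]
  have s3 : ContDiff ℝ ∞ fun q => b + Ξ (q - ((y.1, 0), 0)) :=
    contDiff_const.add (sm.comp (contDiff_id.sub contDiff_const))
  refine ⟨F ∘ fun q => b + Ξ (q - ((y.1, 0), 0)), a1.sm.comp s3.contDiffOn s2, fun q hq =>
    ⟨a5 q ▸ a1.zero _ (s2 hq), ?_, fun k => hB F _ _ _ isOpen_ball (isOpen_ball.prod isOpen_Ioo)
      a1.sm s3.contDiffOn s2 a1.bd (fun k k1 q hq => ?_) k q hq⟩, ?_⟩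
  · rw [fderiv_comp q (f := fun q => b + Ξ (q - ((y.1, 0), 0))) ((a1.sm.contDiffAt
      (isOpen_ball.mem_nhds (s2 hq))).differentiableAt (by simp)) (s3.differentiable (by simp) q),
      ContinuousLinearMap.comp_apply, fderiv_const_add, fderiv_comp_sub]
    have d1 := (hM _ (s1 q hq).1 _ s0).trans (mul_le_mul_of_nonneg_left (s1 q hq).2.le M0.le)
    have d2 := a1.tilt _ (s2 hq)
    have d0 := hN y.2
    generalize fderiv ℝ Ξ (q - ((y.1, 0), 0)) (0, 1) = v at d1 ⊢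
    generalize fderiv ℝ Ξ ((0, y.2), 0) (0, 1) = N at d1 a4 d0
    have d3 := ContinuousLinearMap.le_of_opNorm_le _ d2 v
    have d4 := abs_real_inner_le_norm e (v - N)
    rw [a1.unit, inner_sub_right] at d4
    rw [sub_apply, innerSL_apply_apply, Real.norm_eq_abs, abs_sub_comm] at d3
    linarith [norm_sub_norm_le v N, abs_sub_abs_le_abs_sub ⟪e, N⟫ ⟪e, v⟫, abs_sub_comm ⟪e, N⟫ ⟪e, v⟫,
      abs_sub_abs_le_abs_sub ⟪e, v⟫ (fderiv ℝ F (b + Ξ (q - ((y.1, 0), 0))) v)]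
  · obtain ⟨k, rfl⟩ := Nat.exists_eq_add_of_le' k1
    rw [← norm_iteratedFDeriv_fderiv, show fderiv ℝ (fun q => b + Ξ (q - ((y.1, 0), 0))) =
      fun q => fderiv ℝ Ξ (q - ((y.1, 0), 0)) from funext fun q => by
        rw [fderiv_const_add, fderiv_comp_sub], iteratedFDeriv_comp_sub, norm_iteratedFDeriv_fderiv]
    exact b2 _ _ (s1 q hq).1
  · have d1 := Ldf.abs_le h3 a1 a2 (s2 (x := (y, 0)) ⟨mem_ball_self t0, by simp [t0]⟩)
    have d2 : ((y, 0) : P3) - ((y.1, 0), 0) = ((0, y.2), 0) := by ext <;> simp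
    simp only [d2, Function.comp] at d1 ⊢
    linarith [min_le_left (η / 2) (c / 4)]

theorem eq_zero_of_perp {a b n v : E3} (ha : a ≠ 0) (hb : b ≠ 0) (hn : n ≠ 0) (h1 : ⟪a, b⟫ = 0)
    (h2 : ⟪n, a⟫ = 0) (h3 : ⟪n, b⟫ = 0) (k1 : ⟪v, a⟫ = 0) (k2 : ⟪v, b⟫ = 0) (k3 : ⟪v, n⟫ = 0) :
    v = 0 := by
  have m0 : ‖cr a b‖ ^ 2 ≠ 0 := by rw [norm_cr_sq, h1]; simp [ha, hb]
  have e1 : cr v (cr a b) = 0 := by rw [cr_cr, k1, k2]; simp
  have e2 : cr n (cr a b) = 0 := by rw [cr_cr, h2, h3]; simp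
  have e3 := inner_cr_cr v (cr a b) n (cr a b)
  have e4 := norm_cr_sq v (cr a b)
  have e5 := norm_cr_sq n (cr a b)
  rw [e1, inner_zero_left, k3, zero_mul, zero_sub, zero_eq_neg, mul_eq_zero] at e3
  rw [e1] at e4
  rw [e2] at e5
  rcases e3 with e | e
  · simpa [e, m0] using e4.symm
  · rw [real_inner_comm] at e
    simp [e, hn, (pow_ne_zero_iff two_ne_zero).1 m0] at e5

/-- the coordinates near a cone -/
theorem cone_cov {γ n : ℝ → E3} (h : IsLink γ n) {p : E3} (hp : ‖p‖ = 1) (θ : ℝ) :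
    ∃ θ' α β : ℝ, p = α • γ θ' + β • n θ' ∧ 1 - ‖p - γ θ‖ ^ 2 / 2 ≤ α ∧ α ^ 2 + β ^ 2 = 1 := by
  obtain ⟨θ', -, a⟩ := (isCompact_Icc (a := 0) (b := 2 * Real.pi)).exists_isMaxOn
    (nonempty_Icc.2 Real.two_pi_pos.le) (f := fun θ => ⟪p, γ θ⟫)
    (continuous_const.inner h.smooth.continuous).continuousOn
  have b : ∀ θ, ⟪p, γ θ⟫ ≤ ⟪p, γ θ'⟫ := fun θ => by
    obtain ⟨y, c, d⟩ := Function.Periodic.exists_mem_Ico₀ h.per Real.two_pi_pos θ
    exact d ▸ a (Ico_subset_Icc_self c)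
  have d := (h.smooth.differentiable (by simp) θ').hasDerivAt
  have e1 : ⟪p, deriv γ θ'⟫ = 0 := by
    simpa using IsLocalMax.hasDerivAt_eq_zero (.of_forall b) ((hasDerivAt_const θ' p).inner ℝ d)
  have e2 : ⟪γ θ', deriv γ θ'⟫ = 0 := by
    have := (d.norm_sq.congr_of_eventuallyEq (f₁ := fun _ => (1 : ℝ))
      (.of_forall fun x => by simp [h.unit])).unique (hasDerivAt_const _ _)
    linarith
  have g3 : ⟪γ θ', n θ'⟫ = 0 := by rw [real_inner_comm, h.perp]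
  obtain ⟨l, l0, hl⟩ := h.speed
  have e3 : p = ⟪p, γ θ'⟫ • γ θ' + ⟪p, n θ'⟫ • n θ' := sub_eq_zero.1 (eq_zero_of_perp
    (norm_pos_iff.1 (h.unit θ' ▸ one_pos)) (norm_pos_iff.1 (hl θ' ▸ l0))
    (norm_pos_iff.1 (h.unit_n θ' ▸ one_pos)) e2 (h.perp θ') (h.perp' θ')
    (by simp [inner_sub_left, inner_add_left, inner_smul_left, h.unit, h.perp])
    (by simp [inner_sub_left, inner_add_left, inner_smul_left, e1, e2, h.perp'])
    (by simp [inner_sub_left, inner_add_left, inner_smul_left, h.unit_n, g3]))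
  refine ⟨θ', _, _, e3, ?_, ?_⟩
  · rw [norm_sub_sq_real, hp, h.unit]; linarith [b θ]
  · have := congrArg (⟪p, ·⟫) e3
    simp only [inner_add_right, inner_smul_right, real_inner_self_eq_norm_sq, hp] at this
    linarith

theorem cone (h1 : ROOT) (h2 : CB) (h3 : LDF) : CONE := by
  intro S A Γ c δ B h γ n hγ hF hΓ
  obtain ⟨Ξ, hΞ⟩ : ∃ Ξ : P3 → E3, Ξ = fun q => Real.exp q.1.1 • (γ q.1.2 + q.2 • n q.1.2) :=
    ⟨_, rfl⟩
  have sm : ContDiff ℝ ∞ Ξ := by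
    have := hγ.smooth; have := hγ.smooth_n
    rw [hΞ]; fun_prop
  have e1 : ∀ θ, fderiv ℝ Ξ ((0, θ), 0) (0, 1) = n θ := fun θ => by
    refine (HasFDerivAt.comp_hasDerivAt (f := fun t : ℝ => (((0 : ℝ), θ), t)) 0
      (sm.differentiable (by simp) _).hasFDerivAt
      ((hasDerivAt_const _ _).prodMk (hasDerivAt_id _))).unique ?_
    simpa [hΞ, Function.comp_def] using ((hasDerivAt_id (0 : ℝ)).smul_const (n θ)).const_add (γ θ)
  obtain ⟨d, d0, hd⟩ := hF (1 / 1400) (by norm_num)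
  obtain ⟨r, r0, r1, r2, r3, r4⟩ : ∃ r > (0 : ℝ), 7 * r ≤ d ∧ 3 * r ≤ δ ∧ 3 * r ≤ c ∧ 3 * r ≤ 1 := by
    have := h.cpos; have := h.dpos
    refine ⟨min (min d δ) (min c 1) / 7, by positivity, ?_, ?_, ?_, ?_⟩ <;>
      linarith [min_le_left (min d δ) (min c 1), min_le_right (min d δ) (min c 1), min_le_left d δ,
        min_le_right d δ, min_le_left c 1, min_le_right c 1]
  obtain ⟨τ, t0, φ, R, a1, a2⟩ := end_root h1 h2 h3 sm (f := fun q => S.w (Ξ q)) (B := B)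
    (fun q => by simp [hΞ, hγ.per, hγ.per_n]) (fun z θ t => by simp [hΞ, hγ.per, hγ.per_n]) h.cpos
    (fun θ => by rw [e1, hγ.unit_n]) fun η e0 => by
      filter_upwards [Real.tendsto_exp_atTop.eventually (h.creg.and ((h.con1 (r / 200)
        (by positivity)).and (h.con2 (min η (r / 200)) (by positivity))))] with s ⟨b1, b2, b3⟩ θ
      obtain ⟨p, c1, c2⟩ := b3 _ (hΓ ⟨θ, rfl⟩)
      have c3 := c2.trans (min_le_right _ _)
      obtain ⟨e, F, c4⟩ := b1 p ⟨_, hΓ ⟨θ, rfl⟩, by linarith⟩ c1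
      refine ⟨_, F, p, e, 0, c4, c1, ?_, ?_, fun q => ?_⟩
      · simpa [hΞ, norm_sub_rev] using c2.trans (min_le_left _ _)
      · refine e1 θ ▸ h3.2.1 _ F p e _ c r B c4 c1 (hγ.unit_n θ) r0 (by linarith) fun x f1 f2 => ?_
        have f3 : ‖x - γ θ‖ ≤ 2 * r + r / 200 := by
          linarith [norm_sub_le_norm_sub_add_norm_sub x p (γ θ)]
        obtain ⟨g, f4, f5⟩ := b2 x ⟨_, hΓ ⟨θ, rfl⟩, by linarith⟩ f2
        have f6 := abs_norm_sub_norm_le x (γ θ)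
        rw [hγ.unit] at f6
        have f7 : ‖g - ‖x‖ • g‖ = |‖x‖ - 1| := by
          rw [norm_sub_rev, ← one_smul ℝ g, smul_smul, mul_one, ← sub_smul, norm_smul, h.sph g f4,
            mul_one, Real.norm_eq_abs]
        have f8 : ‖g - γ θ‖ ≤ 7 * r := by
          linarith [norm_sub_le_norm_sub_add_norm_sub g (‖x‖ • g) (γ θ), norm_sub_rev x (‖x‖ • g),
            norm_sub_le_norm_sub_add_norm_sub (‖x‖ • g) x (γ θ)]
        have f9 := hd θ g f4 (by linarith)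
        have g1 := abs_real_inner_le_norm (x - ‖x‖ • g) (n θ)
        have g2 := abs_real_inner_le_norm (p - γ θ) (n θ)
        have g3 : ⟪γ θ, n θ⟫ = 0 := by rw [real_inner_comm, hγ.perp]
        rw [hγ.unit_n, mul_one] at g1 g2
        have g4 : ⟪x - p, n θ⟫ = ⟪x - ‖x‖ • g, n θ⟫ + ‖x‖ * ⟪g - γ θ, n θ⟫ - ⟪p - γ θ, n θ⟫ := by
          simp only [inner_sub_left, real_inner_smul_left, g3]; ring
        have g5 : |‖x‖ * ⟪g - γ θ, n θ⟫| ≤ 2 * (r / 200) := by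
          rw [abs_mul, abs_norm]
          exact mul_le_mul (by linarith [(abs_le.1 f6).2]) (by linarith) (abs_nonneg _) two_pos.le
        rw [g4]
        linarith [abs_sub (⟪x - ‖x‖ • g, n θ⟫ + ‖x‖ * ⟪g - γ θ, n θ⟫) ⟪p - γ θ, n θ⟫,
          abs_add_le ⟪x - ‖x‖ • g, n θ⟫ (‖x‖ * ⟪g - γ θ, n θ⟫)]
      · simp only [hΞ, wm, zero_add, smul_smul, ← Real.exp_add, Prod.fst_sub, Prod.snd_sub, sub_zero,
          add_sub_cancel]
  refine ⟨φ, R, min 1 (τ / 4), by positivity, a1, fun y hy => by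
    have := ((a2 y hy).2 _ (a2 y hy).1).2 rfl
    rw [hΞ] at this
    exact this, fun p hp θ R' b1 b2 b3 => ?_⟩
  have p0 : 0 < ‖p‖ := lt_of_lt_of_le (by positivity) b2
  obtain ⟨θ', α, β, c1, c2, c3⟩ := cone_cov hγ (p := ‖p‖⁻¹ • p)
    (by rw [norm_smul, norm_inv, norm_norm, inv_mul_cancel₀ p0.ne']) θ
  have c4 := pow_le_pow_left₀ (norm_nonneg _) (b3.trans (min_le_left _ _)) 2
  have c5 := pow_le_pow_left₀ (norm_nonneg _) (b3.trans (min_le_right _ _)) 2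
  have c6 : 1 / 2 ≤ α := by linarith
  have c7 : |β / α| < τ := by
    rw [abs_div, abs_of_pos (a := α) (by linarith), div_lt_iff₀ (by linarith)]
    have : |β| ≤ τ / 4 := abs_le_of_sq_le_sq' (by nlinarith) (by positivity) |> abs_le.2
    nlinarith
  have c8 : R' ≤ Real.log (‖p‖ * α) := (Real.le_log_iff_exp_le (by positivity)).2
    (by nlinarith [Real.exp_pos R'])
  have c9 : p = Ξ ((Real.log (‖p‖ * α), θ'), β / α) := by
    simp only [hΞ, Real.exp_log (show 0 < ‖p‖ * α by positivity)]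
    rw [mul_smul, smul_add α, smul_smul α, mul_div_cancel₀ _ (show α ≠ 0 by positivity), ← c1,
      smul_inv_smul₀ p0.ne']
  refine ⟨(Real.log (‖p‖ * α), θ'), c8, c9.trans ?_⟩
  rw [((a2 (_, θ') (b1.trans c8)).2 _ c7).1 (c9 ▸ hp), hΞ]
  rfl

end Vale.Agent.P218E
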