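import Mathlib

/-!
# P218E, row CURVE: the ordinary differential equation of the self-shrinking curves (helper24)
-/

set_option linter.all false

open Set Real Filter Topology

noncomputable section

namespace Vale.Agent.P218E.Cv

lemma surj_of {f f' : ℝ → ℝ} {C : ℝ} (hC : 0 < C) (h : ∀ s, HasDerivAt f (f' s) s)
    (h' : ∀ s, C ≤ f' s) : Function.Surjective f := fun y => by
  have m : Monotone fun s => f s - C * s :=
    monotone_of_hasDerivAt_nonneg (f' := fun s => f' s - C * 1)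
      (fun s => (h s).sub ((hasDerivAt_id s).const_mul C)) fun s => by simpa using h' s
  have p : 0 ≤ |y - f 0| / C := by positivity
  have e : C * (|y - f 0| / C) = |y - f 0| := mul_div_cancel₀ _ hC.ne'
  have a := m p
  have b := m (neg_nonpos.2 p)
  simp only [mul_neg, e, mul_zero] at a b
  exact mem_range_of_exists_le_of_exists_ge (continuous_iff_continuousAt.2 fun s =>
    (h s).continuousAt) ⟨-(|y - f 0| / C), by linarith [neg_abs_le (y - f 0)]⟩
      ⟨|y - f 0| / C, by linarith [le_abs_self (y - f 0)]⟩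

lemma sgn {g : ℝ → ℝ} (hg : Continuous g) {a b ξ x : ℝ} (h : ∀ x ∈ Ioo a b, g x ≠ 0)
    (hξ : ξ ∈ Ioo a b) (hx : x ∈ Icc a b) : 0 ≤ g ξ * g x := by
  by_contra! n
  obtain ⟨z, h1, h2⟩ := intermediate_value_uIcc (a := ξ) (b := x) hg.continuousOn
    (show (0 : ℝ) ∈ uIcc (g ξ) (g x) from mem_uIcc.2 (by
      rcases mul_neg_iff.1 n with q | q
      exacts [.inr ⟨q.2.le, q.1.le⟩, .inl ⟨q.1.le, q.2.le⟩]))
  have h3 : z ≠ x := fun e => by simp [← e, h2] at n
  refine h z ?_ h2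
  rcases mem_uIcc.1 h1 with q | q
  exacts [⟨hξ.1.trans_le q.1, (q.2.lt_of_ne h3).trans_le hx.2⟩,
    ⟨hx.1.trans_lt (q.1.lt_of_ne' h3), q.2.trans_lt hξ.2⟩]

/-- the support function, the tangential component and the angle of the normal -/
structure Ode (h g τ : ℝ → ℝ) : Prop where
  dh : ∀ s, HasDerivAt h (h s * g s / 2) s
  dg : ∀ s, HasDerivAt g (1 - h s ^ 2 / 2) s
  dt : ∀ s, HasDerivAt τ (h s / 2) s

namespace Ode

variable {h g τ : ℝ → ℝ} (O : Ode h g τ)
include O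

lemma ch : Continuous h := continuous_iff_continuousAt.2 fun s => (O.dh s).continuousAt
lemma cg : Continuous g := continuous_iff_continuousAt.2 fun s => (O.dg s).continuousAt
lemma ct : Continuous τ := continuous_iff_continuousAt.2 fun s => (O.dt s).continuousAt

/-- the first integral -/
lemma first (s s' : ℝ) :
    h s * exp (-(h s ^ 2 + g s ^ 2) / 4) = h s' * exp (-(h s' ^ 2 + g s' ^ 2) / 4) := by
  have d : ∀ s, HasDerivAt (fun s => h s * exp (-(h s ^ 2 + g s ^ 2) / 4)) 0 s := fun s => by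
    refine ((O.dh s).fun_mul
      ((((O.dh s).fun_pow 2).fun_add ((O.dg s).fun_pow 2)).fun_neg.div_const 4).exp).congr_deriv ?_
    ring
  exact is_const_of_deriv_eq_zero (fun s => (d s).differentiableAt) (fun s => (d s).deriv) s s'

lemma zero (h0 : h 0 = 0) (s : ℝ) : h s = 0 := by
  simpa [h0] using O.first s 0

lemma low (h0 : 0 < h 0) : ∃ C > 0, ∀ s, C ≤ h s := by
  refine ⟨h 0 * exp (-(h 0 ^ 2 + g 0 ^ 2) / 4), by positivity, fun s => ?_⟩
  have a := O.first s 0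
  have b : 0 < h s := (mul_pos_iff_of_pos_right (exp_pos _)).1 (a.symm ▸ mul_pos h0 (exp_pos _))
  rw [← a]
  exact mul_le_of_le_one_right b.le
    (exp_le_one_iff.2 (by nlinarith [sq_nonneg (h s), sq_nonneg (g s)]))

/-- the circle -/
lemma circ (h0 : ∀ s, 0 < h s) {a : ℝ} (h1 : g a = 0) (h2 : h a ^ 2 = 2) (s : ℝ) :
    h s = √2 ∧ g s = 0 := by
  have e := congrArg (· ^ 2) (O.first s a)
  simp only [mul_pow, h1, h2, ← exp_nat_mul] at e
  have e' : h s ^ 2 / 2 = exp (h s ^ 2 / 2 - 1 + g s ^ 2 / 2) := by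
    rw [div_eq_iff two_ne_zero, ← mul_left_inj' (exp_pos _).ne', e, mul_right_comm, ← exp_add,
      mul_comm]
    congr 2
    push_cast
    ring
  have h3 : h s ^ 2 / 2 - 1 + g s ^ 2 / 2 = 0 := by
    by_contra n
    nlinarith [add_one_lt_exp n, sq_nonneg (g s)]
  rw [h3, exp_zero] at e'
  exact ⟨(sqrt_eq_iff_eq_sq (by norm_num) (h0 s).le).2 (by linarith) |>.symm,
    pow_eq_zero_iff two_ne_zero |>.1 (by linarith)⟩

lemma mono (h0 : ∀ s, 0 < h s) : StrictMono τ :=
  strictMono_of_hasDerivAt_pos O.dt fun s => half_pos (h0 s)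

lemma surj (h0 : 0 < h 0) : Function.Surjective τ :=
  let ⟨_, c, e⟩ := O.low h0
  surj_of (half_pos c) O.dt fun s => by linarith [e s]

/-- a critical point in each interval of length `π` -/
lemma ex_zero (h0 : ∀ s, 0 < h s) (a : ℝ) : ∃ b > a, g b = 0 ∧ τ b < τ a + π := by
  obtain ⟨b, hb⟩ := O.surj (h0 0) (τ a + π)
  have m := O.mono h0
  have ab : a < b := m.lt_iff_lt.1 (by linarith [pi_pos])
  by_contra! n
  have n' : ∀ x ∈ Ioo a b, g x ≠ 0 := fun x hx e => (n x hx.1 e).not_gt (hb ▸ m hx.2)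
  have d : ∀ s, HasDerivAt (fun s => (2 / h s - h s) * sin (τ s - τ a) - g s * cos (τ s - τ a))
      (-(g s / h s * sin (τ s - τ a))) s := fun s => by
    have := (h0 s).ne'
    refine (((((hasDerivAt_const s 2).fun_div (O.dh s) this).fun_sub (O.dh s)).fun_mul
      ((O.dt s).sub_const (τ a)).sin).fun_sub ((O.dg s).fun_mul
        ((O.dt s).sub_const (τ a)).cos)).congr_deriv ?_
    field_simp
    ring
  obtain ⟨ξ, h1, h2⟩ := exists_hasDerivAt_eq_slope _ _ ab
    (fun s _ => (d s).continuousAt.continuousWithinAt) fun s _ => d s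
  rw [hb, eq_div_iff (sub_pos.2 ab).ne'] at h2
  simp only [add_sub_cancel_left, sin_pi, cos_pi, sub_self, sin_zero, cos_zero] at h2
  have h3 := sgn O.cg n' h1 (left_mem_Icc.2 ab.le)
  have h4 := sgn O.cg n' h1 (right_mem_Icc.2 ab.le)
  have h5 : 0 < g ξ ^ 2 / h ξ * sin (τ ξ - τ a) * (b - a) :=
    mul_pos (mul_pos (div_pos (sq_pos_of_ne_zero (n' ξ h1)) (h0 ξ))
      (sin_pos_of_pos_of_lt_pi (sub_pos.2 (m h1.1)) (by linarith [m h1.2]))) (sub_pos.2 ab)
  have h6 : g ξ * _ = g ξ * _ := congrArg (g ξ * ·) h2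
  rw [div_eq_mul_inv] at h5 h6
  nlinarith

/-- two critical points are far from each other -/
lemma gap (h0 : ∀ s, 0 < h s) (nc : ∀ s, g s = 0 → h s ^ 2 ≠ 2) {a b : ℝ} (ab : a < b)
    (ha : g a = 0) (hb : g b = 0) : π / 2 < τ b - τ a := by
  have m := O.mono h0
  obtain ⟨u, u1, u2⟩ := mem_nhdsGT_iff_exists_Ioo_subset.1 (((O.dg a).eventually_ne (c := 0)
    fun e => nc a ha (by linarith)).filter_mono (nhdsGT_le_nhdsNE a))
  obtain ⟨c, ⟨c1, c2⟩, c3⟩ := (isCompact_Icc.inter_right (isClosed_eq O.cg continuous_const) :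
    IsCompact (Icc u b ∩ {x | g x = 0})).exists_isLeast
      ⟨b, ⟨not_lt.1 fun q => u2 ⟨ab, q⟩ hb, le_rfl⟩, hb⟩
  have ac : a < c := u1.trans_le c1.1
  have n' : ∀ x ∈ Ioo a c, g x ≠ 0 := fun x hx e =>
    hx.2.not_ge (c3 ⟨⟨not_lt.1 fun q => u2 ⟨hx.1, q⟩ e, hx.2.le.trans c1.2⟩, e⟩)
  refine lt_of_lt_of_le ?_ (sub_le_sub_right (m.monotone c1.2) _)
  by_contra! n
  have l : 0 < τ c - τ a := sub_pos.2 (m ac)
  obtain ⟨ω, hω⟩ : ∃ ω, ω * (τ c - τ a) = π := ⟨_, div_mul_cancel₀ _ l.ne'⟩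
  have o2 : 2 ≤ ω := by nlinarith
  have d : ∀ s, HasDerivAt (fun s => (2 * g s ^ 2 + 4 - 2 * h s ^ 2) * sin (ω * (τ s - τ a)) -
      2 * ω * (h s * g s) * cos (ω * (τ s - τ a)))
      (g s * (4 + (ω ^ 2 - 4) * h s ^ 2) * sin (ω * (τ s - τ a))) s := fun s => by
    refine (((((((O.dg s).fun_pow 2).const_mul 2).add_const 4).fun_sub
      (((O.dh s).fun_pow 2).const_mul 2)).fun_mul
      (((O.dt s).sub_const (τ a)).const_mul ω).sin).fun_sub ((((O.dh s).fun_mul (O.dg s)).const_mul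
        (2 * ω)).fun_mul (((O.dt s).sub_const (τ a)).const_mul ω).cos)).congr_deriv ?_
    ring
  obtain ⟨ξ, h1, h2⟩ := exists_hasDerivAt_eq_zero ac
    (fun s _ => (d s).continuousAt.continuousWithinAt) (by simp [ha, hω, show g c = 0 from c2])
    fun s _ => d s
  refine mul_ne_zero (mul_ne_zero (n' ξ h1) (ne_of_gt ?_))
    (sin_pos_of_pos_of_lt_pi (mul_pos (by linarith) (sub_pos.2 (m h1.1))) ?_).ne' h2
  · nlinarith [mul_nonneg (by nlinarith : 0 ≤ ω ^ 2 - 4) (sq_nonneg (h ξ))]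
  · nlinarith [m h1.2]

/-- the reflection at a critical point -/
lemma refl {a u : ℝ} (ha : g a = 0) (hu : 0 ≤ u) :
    h (a - u) = h (a + u) ∧ g (a - u) = -g (a + u) ∧ τ (a - u) = 2 * τ a - τ (a + u) := by
  have p : ∀ {f f' : ℝ → ℝ}, (∀ s, HasDerivAt f (f' s) s) → ∀ s,
      HasDerivAt (fun s => f (a + s)) (f' (a + s)) s ∧
      HasDerivAt (fun s => f (a - s)) (-f' (a - s)) s := fun d s =>
    ⟨(d _).comp_const_add a s, (d _).comp_const_sub a s⟩
  let F := fun s => (h (a + s) - h (a - s), g (a + s) + g (a - s), τ (a + s) + τ (a - s) - 2 * τ a)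
  have d : ∀ s, HasDerivAt F ((h (a + s) * (F s).2.1 - g (a - s) * (F s).1) / 2,
      -(h (a + s) + h (a - s)) * (F s).1 / 2, (F s).1 / 2) s := fun s => by
    refine (((p O.dh s).1.fun_sub (p O.dh s).2).prodMk (((p O.dg s).1.fun_add (p O.dg s).2).prodMk
      (((p O.dt s).1.fun_add (p O.dt s).2).sub_const (2 * τ a)))).congr_deriv ?_
    simp only [F, Prod.mk.injEq]
    exact ⟨by ring, by ring, by ring⟩
  have := O.ch
  have := O.cg
  obtain ⟨K, hK⟩ := (isCompact_Icc (a := 0) (b := u)).bddAbove_image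
    (f := fun s => |h (a + s)| + |h (a - s)| + |g (a - s)| + 1) (by fun_prop)
  have z := eq_zero_of_abs_deriv_le_mul_abs_self_of_eq_zero_right (K := K)
    (fun s _ => (d s).continuousAt.continuousWithinAt) (fun s _ => (d s).hasDerivWithinAt)
    (by simp [F, ha, two_mul]) (fun s hs => by
      have k : |h (a + s)| + |h (a - s)| + |g (a - s)| + 1 ≤ K := hK ⟨s, Ico_subset_Icc_self hs, rfl⟩
      have k1 : |(F s).1| ≤ ‖F s‖ := norm_fst_le (F s)
      have k2 : |(F s).2.1| ≤ ‖F s‖ := (norm_fst_le (F s).2).trans (norm_snd_le (F s))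
      have k3 := abs_nonneg (h (a + s))
      have k4 := abs_nonneg (h (a - s))
      have k5 := abs_nonneg (g (a - s))
      have k6 := abs_nonneg (F s).1
      simp only [norm_prod_le_iff, norm_eq_abs, abs_div, abs_mul, abs_neg, abs_two]
      refine ⟨?_, ?_, by nlinarith⟩
      · have := abs_sub (h (a + s) * (F s).2.1) (g (a - s) * (F s).1)
        rw [abs_mul, abs_mul] at this
        nlinarith [mul_le_mul_of_nonneg_left k1 k5, mul_le_mul_of_nonneg_left k2 k3]
      · nlinarith [mul_le_mul (abs_add_le (h (a + s)) (h (a - s))) k1 k6 (add_nonneg k3 k4)])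
    u (right_mem_Icc.2 hu)
  simp only [F, Prod.ext_iff, Prod.fst_zero, Prod.snd_zero] at z
  exact ⟨by linarith [z.1], by linarith [z.2.1], by linarith [z.2.2]⟩

/-- **the curve is a circle or crosses itself on an axis of symmetry** -/
lemma main (h0 : 0 < h 0) : (∀ s, h s = √2 ∧ g s = 0) ∨ ∃ s s' t, h s' = h s ∧ g s' = -g s ∧
    τ s' = 2 * t - τ s ∧ h s * sin (τ s - t) + g s * cos (τ s - t) = 0 ∧ g s ≠ 0 := by
  obtain ⟨C, c1, c2⟩ := O.low h0
  replace h0 := fun s => c1.trans_le (c2 s)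
  refine or_iff_not_imp_left.2 fun n => ?_
  have nc : ∀ s, g s = 0 → h s ^ 2 ≠ 2 := fun s e e' => n (O.circ h0 e e')
  obtain ⟨a, -, a1, -⟩ := O.ex_zero h0 0
  obtain ⟨b, b0, b1, b2⟩ := O.ex_zero h0 a
  obtain ⟨c, c0, c1, c2⟩ := O.ex_zero h0 b
  have b3 := O.gap h0 nc b0 a1 b1
  have c3 := O.gap h0 nc c0 b1 c1
  have := O.ch
  have := O.cg
  have := O.ct
  obtain ⟨s, s1, s2⟩ := intermediate_value_Ioo' c0.le
    (f := fun s => h s * sin (τ s - τ a) + g s * cos (τ s - τ a)) (by fun_prop)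
    (show (0 : ℝ) ∈ _ from ⟨by
      have := sin_pos_of_pos_of_lt_pi (x := τ c - τ a - π) (by linarith) (by linarith)
      rw [sin_sub_pi] at this
      simp only [c1]
      nlinarith [h0 c], by
      have := sin_pos_of_pos_of_lt_pi (x := τ b - τ a) (by linarith [pi_pos]) (by linarith)
      simp only [b1]
      nlinarith [h0 b]⟩)
  have r := O.refl a1 (sub_pos.2 (b0.trans s1.1)).le
  rw [add_sub_cancel] at r
  refine ⟨s, _, τ a, r.1, r.2.1, r.2.2, s2, fun e => ?_⟩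
  linarith [O.gap h0 nc s1.1 b1 e, O.gap h0 nc s1.2 e c1]

end Ode

end Vale.Agent.P218E.Cv

end
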