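import Vale.Agent.P218E.Spec
import Vale.Agent.P218E.CurveA

/-!
# P218E, row CURVE: embedded self-shrinking curves are lines or circles (helper24)
-/

set_option linter.all false

open Set Metric Complex ComplexConjugate

noncomputable section

namespace Vale.Agent.P218E

namespace Cv

variable {c N : ℝ → ℂ} (hc : ∀ s, HasDerivAt c (I * N s) s)
  (hN : ∀ s, HasDerivAt N ((((c s * conj (N s)).re / 2 : ℝ) : ℂ) * (I * N s)) s)
  (h1 : ∀ s, ‖N s‖ = 1)

lemma mul_cj {z : ℂ} (h : ‖z‖ = 1) : z * conj z = 1 := by simp [mul_conj', h]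

lemma c_eq {x z : ℂ} {a b : ℝ} (h : ‖z‖ = 1) (ha : (x * conj z).re = a) (hb : (x * conj z).im = b) :
    x = (a + b * I) * z := by
  rw [← ha, ← hb, re_add_im]
  linear_combination -x * mul_cj h

include hc hN h1

lemma ode : ∃ τ, Ode (fun s => (c s * conj (N s)).re) (fun s => (c s * conj (N s)).im) τ ∧
    ∀ s, N s = N 0 * exp (τ s * I) := by
  have d : ∀ s, HasDerivAt (fun s => c s * conj (N s))
      (I - (((c s * conj (N s)).re / 2 : ℝ) : ℂ) * I * (c s * conj (N s))) s := fun s => by
    refine ((hc s).fun_mul (hN s).star).congr_deriv ?_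
    simp only [star_def, map_mul, conj_ofReal, conj_I]
    linear_combination I * mul_cj (h1 s)
  have ch : Continuous fun s => (c s * conj (N s)).re / 2 :=
    (continuous_re.comp (continuous_iff_continuousAt.2 fun s => (d s).continuousAt)).div_const 2
  have dt := fun s => (ch.integral_hasStrictDerivAt 0 s).hasDerivAt
  refine ⟨_, ⟨fun s => (reCLM.hasFDerivAt.comp_hasDerivAt s (d s)).congr_deriv ?_,
    fun s => (imCLM.hasFDerivAt.comp_hasDerivAt s (d s)).congr_deriv ?_, dt⟩, fun s => ?_⟩
  · generalize c s * conj (N s) = w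
    simp
    ring
  · generalize c s * conj (N s) = w
    simp
    ring
  · have e := fun s => ((hN s).fun_mul ((dt s).ofReal_comp.mul_const I).fun_neg.cexp).congr_deriv
      (g' := 0) (by ring)
    have := is_const_of_deriv_eq_zero (fun s => (e s).differentiableAt) (fun s => (e s).deriv) s 0
    rw [exp_neg, mul_inv_eq_iff_eq_mul₀ (exp_ne_zero _)] at this
    simpa using this

lemma line (h0 : (c 0 * conj (N 0)).re = 0) :
    (∀ s, N s = N 0) ∧ range c = {z | (z * conj (N 0)).re = 0} := by
  obtain ⟨τ, O, -⟩ := ode hc hN h1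
  have z := O.zero h0
  have e : ∀ s, HasDerivAt N 0 s := fun s => (hN s).congr_deriv (by simp [z s])
  have n := fun s =>
    is_const_of_deriv_eq_zero (fun s => (e s).differentiableAt) (fun s => (e s).deriv) s 0
  refine ⟨n, subset_antisymm (range_subset_iff.2 fun s => n s ▸ z s) fun x hx => ?_⟩
  obtain ⟨s, hs⟩ := surj_of one_pos O.dg (fun s => by simp [z s]) (x * conj (N 0)).im
  exact ⟨s, (c_eq (h1 s) (z s) hs).trans (n s ▸ (c_eq (h1 0) hx rfl).symm)⟩

lemma circle (he : ∀ s s', c s = c s' → N s = N s') (h0 : 0 < (c 0 * conj (N 0)).re) :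
    (∀ s, c s = ((√2 : ℝ) : ℂ) * N s) ∧ range c = sphere 0 √2 := by
  obtain ⟨τ, O, n⟩ := ode hc hN h1
  rcases O.main h0 with q | ⟨s, s', t, q1, q2, q3, q4, q5⟩
  · have e : ∀ s, c s = ((√2 : ℝ) : ℂ) * N s := fun s => by simpa using c_eq (h1 s) (q s).1 (q s).2
    refine ⟨e, subset_antisymm (range_subset_iff.2 fun s => by simp [e, h1]) fun x hx => ?_⟩
    have r : ((√2 : ℝ) : ℂ) ≠ 0 := by simp
    obtain ⟨θ, hθ⟩ := (norm_eq_one_iff (x * conj (N 0) / (√2 : ℝ))).1 (by
      simp [mem_sphere_zero_iff_norm.1 hx, h1, abs_of_nonneg (Real.sqrt_nonneg 2)])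
    obtain ⟨s, rfl⟩ := O.surj h0 θ
    refine ⟨s, ?_⟩
    rw [e, n, hθ, mul_left_comm, mul_div_cancel₀ _ r]
    linear_combination x * mul_cj (h1 0)
  · refine (q5 ?_).elim
    have e : c s' = c s := by
      refine (c_eq (h1 s') q1 q2).trans (.trans ?_ (c_eq (h1 s) rfl rfl).symm)
      generalize (c s * conj (N s)).re = x at *
      generalize (c s * conj (N s)).im = y at *
      rw [n s, n s', q3]
      have a : ∀ u : ℝ, exp ((t + u : ℝ) * I) = exp (t * I) * (Real.cos u + Real.sin u * I) :=
        fun u => by rw [ofReal_add, add_mul, exp_add, exp_ofReal_mul_I u]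
      rw [show 2 * t - τ s = t + -(τ s - t) by ring, a, Real.cos_neg, Real.sin_neg]
      nth_rewrite 3 [show τ s = t + (τ s - t) by ring]
      rw [a]
      have := congrArg ofReal q4
      push_cast at this ⊢
      linear_combination -2 * I * N 0 * exp (t * I) * this
    rw [he _ _ e, e] at q2
    linarith

end Cv

open Cv in
/-- **Row CURVE.** -/
theorem curve : CURVE := fun c N hc hN h1 he => by
  rcases lt_trichotomy (c 0 * conj (N 0)).re 0 with h | h | h
  · have := circle (c := fun s => c (-s)) (N := fun s => -N (-s))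
      (fun s => ((hc (-s)).scomp s (hasDerivAt_neg s)).congr_deriv (by simp))
      (fun s => ((hN (-s)).scomp s (hasDerivAt_neg s)).fun_neg.congr_deriv (by simp; ring))
      (fun s => by simp [h1]) (fun s s' e => by rw [he _ _ e]) (by simpa only [map_neg, mul_neg, neg_re, neg_zero, neg_pos] using h)
    exact .inr ⟨.inr fun s => by simpa using this.1 (-s),
      (neg_surjective.range_comp c).symm.trans this.2⟩
  · exact .inl (line hc hN h1 h)
  · exact .inr ((circle hc hN h1 he h).imp_left .inl)

end Vale.Agent.P218E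

end
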