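import Vale.Agent.P218E.Eng

/-!
# P218E, row CYLE: cylindrical ends
-/

open Metric Filter Topology Set
open scoped ContDiff RealInnerProductSpace
open Vale.Agent.P218R
open Vale.Agent.P218T (Decays cylPt axis)

noncomputable section

namespace Vale.Agent.P218E

namespace Cy

variable (Q : E3 ≃ₗᵢ[ℝ] E3)

/-- the unit normal of the cylinder -/
def N (θ : ℝ) : E3 := Q !₂[Real.cos θ, Real.sin θ, 0]

/-- cylindrical coordinates -/
def Xi (q : P3) : E3 := (√2 + q.2) • N Q q.1.2 + q.1.1 • axis Q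

lemma N_eq (θ : ℝ) : N Q θ = Real.cos θ • N Q 0 + Real.sin θ • N Q (Real.pi / 2) := by
  simp only [N, ← map_smul, ← map_add]
  congr 1
  ext i
  fin_cases i <;> simp

lemma norm_N (θ : ℝ) : ‖N Q θ‖ = 1 := by
  rw [N, Q.norm_map, EuclideanSpace.norm_eq]
  simp [Fin.sum_univ_three]

lemma perp (θ : ℝ) : ⟪axis Q, N Q θ⟫ = 0 := by
  rw [N, axis, Q.inner_map_map]
  simp [PiLp.inner_apply, Fin.sum_univ_three]

lemma comb (r θ z : ℝ) : r • N Q θ + z • axis Q = Q !₂[r * Real.cos θ, r * Real.sin θ, z] := by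
  simp only [N, axis, ← map_smul, ← map_add]
  congr 1
  ext i
  fin_cases i <;> simp

lemma lip (θ θ' : ℝ) : ‖N Q θ - N Q θ'‖ ≤ 2 * |θ - θ'| := by
  have e : N Q θ - N Q θ' = (Real.cos θ - Real.cos θ') • N Q 0 +
      (Real.sin θ - Real.sin θ') • N Q (Real.pi / 2) := by
    rw [N_eq Q θ, N_eq Q θ']
    module
  rw [e]
  refine (norm_add_le _ _).trans ?_
  rw [norm_smul, norm_smul, norm_N, norm_N, Real.norm_eq_abs, Real.norm_eq_abs]
  linarith [Real.abs_cos_sub_cos_le θ θ', Real.abs_sin_sub_sin_le θ θ']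

lemma smooth : ContDiff ℝ ∞ (Xi Q) := by
  have e : Xi Q = fun q => (√2 + q.2) • (Real.cos q.1.2 • N Q 0 +
      Real.sin q.1.2 • N Q (Real.pi / 2)) + q.1.1 • axis Q := by
    funext q
    rw [Xi, N_eq]
  rw [e]
  fun_prop

lemma der (q : P3) : fderiv ℝ (Xi Q) q (0, 1) = N Q q.1.2 := by
  have h1 : HasDerivAt (fun t => Xi Q (q.1, t)) (fderiv ℝ (Xi Q) q (0, 1)) q.2 := by
    simpa using! ((smooth Q).differentiable (by simp) q).hasFDerivAt.comp_hasDerivAt q.2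
      (hasFDerivAt_prodMk_right (𝕜 := ℝ) q.1 q.2).hasDerivAt
  refine h1.unique ?_
  simpa [Xi] using ((((hasDerivAt_id q.2).const_add √2).smul_const (N Q q.1.2)).add_const
    (q.1.1 • axis Q))

lemma polar (p : E3) : ∃ r θ z : ℝ, 0 ≤ r ∧ p = r • N Q θ + z • axis Q := by
  obtain ⟨u, rfl⟩ := Q.surjective p
  refine ⟨‖(⟨u 0, u 1⟩ : ℂ)‖, Complex.arg ⟨u 0, u 1⟩, u 2, norm_nonneg _, ?_⟩
  rw [comb, Complex.norm_mul_cos_arg, Complex.norm_mul_sin_arg]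
  congr 1
  ext i
  fin_cases i <;> simp

variable {e n : E3}

lemma coord (he : ‖e‖ = 1) (hn : ‖n‖ = 1) (h : ⟪e, n⟫ = 0) (r z : ℝ) :
    ⟪e, r • n + z • e⟫ = z ∧ rad e (r • n + z • e) = |r| := by
  have : ⟪e, r • n + z • e⟫ = z := by
    simp [inner_add_right, inner_smul_right, h, he]
  refine ⟨this, ?_⟩
  rw [rad, this, add_sub_cancel_right, norm_smul, hn, mul_one, Real.norm_eq_abs]

/-- near a point of the cylinder -/
lemma flat (he : ‖e‖ = 1) (hn : ‖n‖ = 1) (h : ⟪e, n⟫ = 0) (z : ℝ) (d : E3) :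
    z - ‖d‖ ≤ ⟪e, √2 • n + z • e + d⟫ ∧ rad e (√2 • n + z • e + d) ≤ √2 + ‖d‖ ∧
    ∀ c, 0 < c → c ≤ 1 / 1000 → ‖d‖ ≤ 3 * c → |rad e (√2 • n + z • e + d) - √2| ≤ c / 1000 →
      |⟪d, n⟫| ≤ c / 100 := by
  have e1 : ⟪e, √2 • n + z • e + d⟫ = z + ⟪e, d⟫ := by
    rw [inner_add_right, (coord he hn h _ _).1]
  have e2 : rad e (√2 • n + z • e + d) = ‖√2 • n + (d - ⟪e, d⟫ • e)‖ := by
    rw [rad, e1]
    congr 1
    module
  have e3 : ⟪n, d - ⟪e, d⟫ • e⟫ = ⟪d, n⟫ := by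
    rw [inner_sub_right, inner_smul_right, real_inner_comm e n, h, real_inner_comm]
    simp
  have e4 : ‖d - ⟪e, d⟫ • e‖ ≤ ‖d‖ := by
    refine abs_le_of_sq_le_sq' ?_ (norm_nonneg _) |>.2
    rw [norm_sub_sq_real, inner_smul_right, norm_smul, he, real_inner_comm e d, Real.norm_eq_abs,
      mul_one, sq_abs]
    nlinarith [sq_nonneg ⟪e, d⟫]
  have e5 : ‖√2 • n‖ = √2 := by
    rw [norm_smul, hn, mul_one, Real.norm_of_nonneg (Real.sqrt_nonneg _)]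
  have s1 : (1.4 : ℝ) ≤ √2 := Real.le_sqrt_of_sq_le (by norm_num)
  have s2 : √2 ≤ (1.5 : ℝ) := Real.sqrt_le_iff.2 (by norm_num)
  have k := abs_real_inner_le_norm e d
  rw [he, one_mul, abs_le] at k
  rw [e1, e2]
  set u := d - ⟪e, d⟫ • e
  refine ⟨by linarith, (norm_add_le _ _).trans (by linarith), fun c c0 c1 hd hr => ?_⟩
  have e6 := norm_add_sq_real (√2 • n) u
  rw [e5, real_inner_smul_left, e3] at e6
  have u0 := norm_nonneg u
  have u1 : ‖u‖ ^ 2 ≤ 9 * c / 1000 := by nlinarith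
  obtain ⟨a1, a2⟩ := abs_le.1 hr
  set r := ‖√2 • n + u‖
  have u2 : |r ^ 2 - √2 ^ 2| ≤ 4 * c / 1000 := by
    rw [sq_sub_sq, abs_mul, abs_of_nonneg (by linarith)]
    nlinarith [abs_nonneg (r - √2)]
  obtain ⟨a3, a4⟩ := abs_le.1 u2
  rw [abs_le]
  constructor <;> nlinarith [sq_nonneg ‖u‖]

lemma bd : ∃ B : ℕ → ℝ, ∀ k, 1 ≤ k → ∀ q ∈ {q : P3 | |q.2| ≤ 1},
    ‖iteratedFDeriv ℝ k (Xi Q) q‖ ≤ B k := by
  have p2 : 0 < 2 * Real.pi := Real.two_pi_pos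
  refine Eng.bd_of_per (smooth Q) (K := ({0} ×ˢ Icc 0 (2 * Real.pi)) ×ˢ Icc (-1) 1)
    ((isCompact_singleton.prod isCompact_Icc).prod isCompact_Icc) fun q hq => ?_
  refine ⟨((q.1.1, toIcoDiv p2 0 q.1.2 • (2 * Real.pi)), 0), q.1.1 • axis Q,
    ⟨⟨by simp, Ico_subset_Icc_self (toIcoMod_mem_Ico' p2 q.1.2)⟩,
      by simpa using abs_le.1 hq⟩, fun x => ?_⟩
  simp only [Xi, N, Prod.fst_add, Prod.snd_add, zsmul_eq_mul, Real.cos_add_int_mul_two_pi,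
    Real.sin_add_int_mul_two_pi, add_zero, add_smul, add_assoc]

end Cy

open Cy in
/-- **CYLE** -/
theorem cyle (root : ROOT) (cb : CB) (ldf : LDF) : CYLE := by
  intro S A Γ c δ B hG Q hQ
  have he := hG.unit _ hQ
  have c0 := hG.cpos
  obtain ⟨B₂, hB₂⟩ := bd Q
  obtain ⟨ρ, ρ0, ρ1, ρ2⟩ : ∃ ρ > (0 : ℝ), ρ ≤ 1 / 1000 ∧ 10 * ρ ≤ c :=
    ⟨min (1 / 1000) (c / 10), by positivity, min_le_left _ _, by
      linarith [min_le_right (1 / 1000) (c / 10)]⟩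
  have s2 : √2 ≤ (1.5 : ℝ) := Real.sqrt_le_iff.2 (by norm_num)
  obtain ⟨R₁, hR₁⟩ := hG.cyl1 _ hQ (ρ / 1000) (by positivity)
  obtain ⟨φ, R, hφ, hR⟩ := Eng.engine root cb ldf (fun q => S.w (Xi Q q)) (c := c) B B₂ ρ0
    (fun z θ t => by simp [Xi, N]) fun η hη => by
    obtain ⟨s, hs⟩ := hG.cyl2 _ hQ (min η (ρ / 100)) (by positivity)
    refine ⟨max s (R₁ + 1), fun y hy => ?_⟩
    obtain ⟨k1, k2⟩ := coord he (norm_N Q y.2) (perp Q y.2) √2 y.1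
    obtain ⟨p, hp, h⟩ := hs _ (k2.trans (abs_of_nonneg (Real.sqrt_nonneg _)))
      (((le_max_left _ _).trans hy).trans_eq k1.symm)
    have h1 := h.trans (min_le_right _ _)
    refine ⟨S.w, Xi Q, p, N Q y.2, ρ, hG.ureg p hp, hp, smooth Q, norm_N Q _, ρ0, by linarith,
      fun x hx hx0 => ?_, ?_, fun q hq => ?_⟩
    · set a := √2 • N Q y.2 + y.1 • axis Q
      obtain ⟨l1, l2, l3⟩ := flat he (norm_N Q y.2) (perp Q y.2) y.1 (x - a)
      rw [add_sub_cancel] at l1 l2 l3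
      have l4 : ‖x - a‖ ≤ 3 * ρ := by linarith [norm_sub_le_norm_sub_add_norm_sub x p a]
      have l5 := l3 ρ ρ0 ρ1 l4 (hR₁ x hx0 (by linarith [le_max_right s (R₁ + 1)]) (by linarith))
      have l6 := abs_real_inner_le_norm (p - a) (N Q y.2)
      rw [norm_N] at l6
      rw [← sub_sub_sub_cancel_right x p a, inner_sub_left]
      linarith [abs_sub ⟪x - a, N Q y.2⟫ ⟪p - a, N Q y.2⟫]
    · rw [norm_sub_rev, Xi, add_zero]
      exact h.trans (min_le_left _ _)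
    · obtain ⟨m1, m2⟩ := max_lt_iff.1 (show max (dist q.1.1 y.1) (dist q.1.2 y.2) < ρ from hq.1)
      rw [Real.dist_eq] at m1 m2
      have m3 := abs_lt.2 hq.2
      have m4 := lip Q q.1.2 y.2
      refine ⟨Iff.rfl, ?_, by rw [der]; linarith,
        fun k hk => hB₂ k hk q (show |q.2| ≤ 1 by linarith)⟩
      have e1 : Xi Q q - p = q.2 • N Q q.1.2 + √2 • (N Q q.1.2 - N Q y.2) +
          (q.1.1 - y.1) • axis Q - (p - (√2 • N Q y.2 + y.1 • axis Q)) := by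
        rw [Xi]
        module
      rw [mem_ball_iff_norm, e1]
      refine ((norm_sub_le _ _).trans (add_le_add_left norm_add₃_le _)).trans_lt ?_
      rw [norm_smul, norm_smul, norm_smul, norm_N, he, Real.norm_eq_abs, Real.norm_eq_abs,
        Real.norm_eq_abs, abs_of_nonneg (Real.sqrt_nonneg _)]
      nlinarith [norm_nonneg (N Q q.1.2 - N Q y.2)]
  have e1 : ∀ y, cylPt Q φ y = Xi Q (y, φ y) := fun y => (comb Q _ _ _).symm
  refine ⟨φ, max R R₁, hφ, fun y hy => ?_, fun p hp h1 h2 => ?_⟩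
  · obtain ⟨k1, k2⟩ := hR y ((le_max_left _ _).trans hy)
    rw [e1]
    exact (k2 _ k1).2 rfl
  · have h3 := hR₁ p hp ((le_max_right _ _).trans h1) h2
    obtain ⟨r, θ, z, r0, rfl⟩ := polar Q p
    obtain ⟨k1, k2⟩ := coord he (norm_N Q θ) (perp Q θ) r z
    rw [k1] at h1
    rw [k2, abs_of_nonneg r0] at h3
    have e2 : Xi Q ((z, θ), r - √2) = r • N Q θ + z • axis Q := by rw [Xi, add_sub_cancel]
    refine ⟨θ, ?_⟩
    rw [k1, e1, ← ((hR (z, θ) ((le_max_left _ _).trans h1)).2 (r - √2) (by linarith)).1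
      (by rw [e2]; exact hp), e2]

end Vale.Agent.P218E
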