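import Vale.Agent.P218E.Dc

/-!
# P218E: multiplicity one almost everywhere
-/

open MeasureTheory Metric Filter Topology Set
open scoped ContDiff ENNReal RealInnerProductSpace NNReal
open Vale.Agent.P218 (limitSet WeakTendsto Slow)
open Vale.Agent.P218.H552 (NN)
open Vale.Agent.P218R

noncomputable section

namespace Vale.Agent.P218E

theorem dsb_le {S : Srf} {Λ R : ℝ} (h : S.Ok) (hA : AR Λ S.μ)
    (h1 : ∫ x in closedBall (0 : E3) R, S.φ x ^ 2 ∂S.μ ≤ 1) : dsb S R ≤ 1 := by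
  have := hA.fin
  have hi : IntegrableOn (fun x => S.φ x ^ 2) (closedBall (0 : E3) R) S.μ :=
    (h.sφ.continuous.pow 2).continuousOn.integrableOn_compact (isCompact_closedBall _ _)
  refine (lintegral_mono_set ball_subset_closedBall).trans ?_
  rw [← ofReal_integral_eq_lintegral_ofReal hi (Eventually.of_forall fun x => sq_nonneg _)]
  exact ENNReal.ofReal_le_one.2 h1

theorem da (hP : DPR) (hS : SLW) (hB : BALL) (hN : NOP) (hD : DIS) : DA := by
  intro F a b Λ G x₀ κ hab hF hκ ε hε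
  obtain ⟨hlf, τ, hτ, hw⟩ := hκ
  obtain ⟨-, σ, hσ, hσw, hσφ⟩ := (hS F a b Λ x₀ hab hF.toOkA).2 τ κ hτ hw
  obtain ⟨-, hN2, hN3, hN4, hN5⟩ := hN
  have hσt := tendsto_atTop_mono (fun i => (hσ i).1) hτ
  have hG := hN5 F a b Λ G x₀ κ σ hab hF hlf hσt hσw hσφ
  set K : ℕ → Set E3 := fun n => {z | ‖z‖ ≤ n ∧ ∀ r : ℝ, 0 < r → r ≤ 1 / (n + 1) →
    ENNReal.ofReal ((1 + ε / 2) * Real.pi * r ^ 2) < κ (ball z r)} with hK
  refine measure_mono_null (t := ⋃ n, K n) (fun p hp => ?_) (measure_iUnion_null fun n => ?_)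
  · obtain ⟨δ, hδ, h⟩ := (nhdsGT_basis (0 : ℝ)).eventually_iff.1 (hB _ _ ε κ p hG hε hp).1
    obtain ⟨n, h1, h2⟩ := ((tendsto_natCast_atTop_atTop (R := ℝ)).eventually_ge_atTop ‖p‖ |>.and
      (tendsto_one_div_add_atTop_nhds_zero_nat.eventually_lt_const hδ)).exists
    exact mem_iUnion.2 ⟨n, h1, fun r hr hr' => h ⟨hr, hr'.trans_lt h2⟩⟩
  by_contra hpos
  obtain ⟨m, hm, hmK⟩ : ∃ m > (0 : ℝ), ENNReal.ofReal m ≤ κ (K n) := by
    obtain ⟨x, h1, h2, h3⟩ := ENNReal.lt_iff_exists_real_btwn.1 (pos_iff_ne_zero.2 hpos)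
    exact ⟨x, ENNReal.ofReal_pos.1 h2, h3.le⟩
  have hκA : AR (max Λ 1) κ := Gs.ar_lim (hG.ok.mono fun i hi => hi.2) hσw
  have hΛ := hG.pos
  obtain ⟨R', hR', m', hm', D₀, hD₀, e₀, he₀, J, hP⟩ :=
    hP Λ G (ε / 2) (m / (4 * max Λ 1)) n (by positivity) (by positivity)
  obtain ⟨Cd, hCd, hD⟩ := hD R'
  obtain ⟨i₀, hi₀⟩ := (ev_time hab hσt).exists
  obtain ⟨s, hs⟩ := anti_small (g := fun s => gs (F.rsl x₀ b (max s (σ i₀))).μ 0 1)
    (fun t => gs_nonneg _ _ _) (δ := D₀ / Cd) (by positivity)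
  set t₁ := max s (σ i₀) with ht₁
  have h1 : a < b - Real.exp (-2 * t₁) := by
    have : Real.exp (-2 * t₁) ≤ Real.exp (-2 * σ i₀) :=
      Real.exp_le_exp.2 (by linarith [le_max_right s (σ i₀)])
    linarith
  obtain ⟨e₁, he₁, hNP⟩ := hN2 _ R' (rsl_ok hF.toOkA x₀ h1 le_rfl).1
  set e := min (min e₀ e₁) (1 / (n + 1)) with he
  have he0 : 0 < e := lt_min (lt_min he₀ he₁) (by positivity)
  have h3 : ∀ᶠ i in atTop, ∀ j ∈ Iic J,
      Many (F.rsl x₀ b (σ i)).μ n (ε / 2) (m / (4 * max Λ 1)) (e / 10 / 2 ^ j) := by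
    refine (eventually_all_finite (finite_Iic J)).2 fun j _ => hN3 _ _ _ _ _ _ hlf
      (hG.ok.mono fun k hk => hk.2.fin) hσw (hN4 κ (K n) _ _ _ _ _ hΛ hκA (by positivity)
        (fun z hz => hz.1) hmK fun z hz => hz.2 _ (by positivity) ?_)
    refine le_trans ?_ (min_le_right (min e₀ e₁) _)
    refine (div_le_self (by positivity) (one_le_pow₀ one_le_two)).trans ?_
    linarith
  obtain ⟨i, h4, h5, h6, h7⟩ := (h3.and (hG.ok.and ((hσt.eventually_ge_atTop t₁).and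
    ((hσφ R').eventually_lt_const one_pos)))).exists
  obtain ⟨j, hj1, hj2⟩ := hP F a b b t₁ (σ i) e x₀ hF h6 h1 le_rfl he0
    ((min_le_left _ _).trans (min_le_left _ _))
    ((hD F a b Λ b t₁ (σ i) x₀ hF.toOkA h6 h1 le_rfl).2.1.trans (ENNReal.ofReal_le_ofReal (by
      have h8 := hs (σ i)
      rw [max_eq_left ((le_max_right _ _).trans h6), lt_div_iff₀' hCd] at h8
      exact h8.le)))
    ((hNP e ((min_le_left _ _).trans (min_le_right _ _))).trans_le zero_le)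
    (dsb_le h5.1 h5.2 h7.le)
  exact hj2 (h4 j hj1)

end Vale.Agent.P218E
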