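import Vale.Agent.P218E.Zm

/-!
# P218E: multiplicity one everywhere
-/

open MeasureTheory Metric Filter Topology Set
open scoped ContDiff ENNReal RealInnerProductSpace NNReal
open Vale.Agent.P366.Stmt (E)
open Vale.Agent.P366W (Fr)
open Vale.Agent.P218 (limitSet WeakTendsto Slow)
open Vale.Agent.P218.H552 (NN)
open Vale.Agent.P218R

noncomputable section

namespace Vale.Agent.P218E

theorem Pair.mono {S : Srf} {x : E3} {e e' : ℝ} (h : Pair S x e) (he : e ≤ e') : Pair S x e' := by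
  obtain ⟨y, h1, h2, h3, h4⟩ := h
  exact ⟨y, h1, h2, by linarith, h4⟩

theorem Pair.of_sc {S : Srf} {q x : E3} {l e : ℝ} (hl : 0 < l)
    (h : Pair (S.sc q l) (l • (x - q)) e) : Pair S x (e / l) := by
  obtain ⟨y, h1, h2, h3, h4⟩ := h
  have e1 : y - l • (x - q) = l • (q + l⁻¹ • y - x) := by
    simp only [smul_sub, smul_add, smul_inv_smul₀ hl.ne']; abel
  have e2 : (S.sc q l).n (l • (x - q)) = S.n x := by simp only [Srf.sc, sc_left q hl]
  rw [e2, e1, real_inner_smul_left, abs_mul, abs_of_pos hl, norm_smul,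
    Real.norm_of_nonneg hl.le] at h4
  rw [e1, norm_smul, Real.norm_of_nonneg hl.le] at h3
  refine ⟨q + l⁻¹ • y, h1, fun h => h2 ?_, ?_, ?_⟩
  · rw [← sub_eq_zero, e1, h, sub_self, smul_zero]
  · rw [← mul_div_assoc, le_div_iff₀' hl]; exact h3
  · nlinarith

/-- few points have a close neighbour in the normal direction -/
theorem pair_small {S : ℕ → Srf} {κ : Measure E3} [IsLocallyFiniteMeasure κ] {Λ : ℝ}
    (hA : ∀ᶠ i in atTop, (S i).Ok ∧ AR Λ (S i).μ) (hw : WeakTendsto (fun i => (S i).μ) κ)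
    {Z : Set E3} (hZ : κ Z = 0) (hU : ∀ p ∉ Z, ∃ δ > (0 : ℝ), ∃ e > (0 : ℝ), ∀ᶠ i in atTop,
      ∀ x ∈ ball p δ, (S i).w x = 0 → ¬ Pair (S i) x e) (R : ℝ) {m : ℝ} (hm : 0 < m) :
    ∃ e > (0 : ℝ), ∀ᶠ i in atTop,
      (S i).μ {x ∈ closedBall (0 : E3) R | Pair (S i) x e} ≤ ENNReal.ofReal m := by
  set U : Set E3 := {p | ∃ δ > (0 : ℝ), ∃ e > (0 : ℝ), ∀ᶠ i in atTop,
    ∀ x ∈ ball p δ, (S i).w x = 0 → ¬ Pair (S i) x e} with hUd
  have hUo : IsOpen U := by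
    refine Metric.isOpen_iff.2 fun p ⟨δ, hδ, e, he, h⟩ => ⟨δ / 2, by positivity, fun p' hp' =>
      ⟨δ / 2, by positivity, e, he, h.mono fun i hi x hx => hi x ?_⟩⟩
    exact ball_half_subset p' hp' |> fun _ => by
      rw [mem_ball] at *
      linarith [dist_triangle x p' p]
  have hK0 : IsCompact (closedBall (0 : E3) R \ U) := (isCompact_closedBall _ _).diff hUo
  have h0 : κ (closedBall (0 : E3) R \ U) < ENNReal.ofReal m := by
    rw [measure_mono_null (fun p hp => by_contra fun h => hp.2 (hU p h)) hZ]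
    exact ENNReal.ofReal_pos.2 hm
  obtain ⟨V, hKV, hV, hVm⟩ := Set.exists_isOpen_lt_of_lt _ _ h0
  obtain ⟨K, hK, h1, h2⟩ := exists_compact_between hK0 hV hKV
  have hK2 : IsCompact (closedBall (0 : E3) R \ interior K) :=
    (isCompact_closedBall _ _).diff isOpen_interior
  have key : ∃ e > (0 : ℝ), ∀ᶠ i in atTop, ∀ x ∈ closedBall (0 : E3) R \ interior K,
      (S i).w x = 0 → ¬ Pair (S i) x e := by
    refine hK2.induction_on (p := fun s => ∃ e > (0 : ℝ), ∀ᶠ i in atTop, ∀ x ∈ s,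
      (S i).w x = 0 → ¬ Pair (S i) x e) ⟨1, one_pos, by simp⟩
      (fun s t hst ⟨e, he, h⟩ => ⟨e, he, h.mono fun i hi x hx => hi x (hst hx)⟩)
      (fun s t ⟨e, he, h⟩ ⟨e', he', h'⟩ => ⟨min e e', lt_min he he', ?_⟩) fun p hp => ?_
    · filter_upwards [h, h'] with i hi hi' x hx hx0 hp
      rcases hx with hx | hx
      · exact hi x hx hx0 (hp.mono (min_le_left _ _))
      · exact hi' x hx hx0 (hp.mono (min_le_right _ _))
    · obtain ⟨δ, hδ, e, he, h⟩ : p ∈ U := by_contra fun h => hp.2 (h1 ⟨hp.1, h⟩)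
      exact ⟨ball p δ, mem_nhdsWithin_of_mem_nhds (ball_mem_nhds p hδ), e, he, h⟩
  obtain ⟨e, he, h⟩ := key
  refine ⟨e, he, ?_⟩
  filter_upwards [hA, h, ev_le_of_weak (hA.mono fun i hi => hi.2.fin) hw hK hV h2 hVm]
    with i h3 h4 h5
  refine le_trans (measure_mono_ae (h3.1.ae.mono fun x hx hx' => ?_)) h5
  exact by_contra fun hK' => h4 x ⟨hx'.1, fun h6 => hK' (interior_subset h6)⟩ hx hx'.2

/-- the dilation factor -/
def bt (t : ℝ) : ℝ := √(1 + Real.exp (-2 * t))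

theorem one_le_bt (t : ℝ) : 1 ≤ bt t :=
  Real.one_le_sqrt.2 (by linarith [Real.exp_pos (-2 * t)])

theorem bt_pos (t : ℝ) : 0 < bt t := one_pos.trans_le (one_le_bt t)

theorem bt_sq (t : ℝ) : bt t ^ 2 = 1 + Real.exp (-2 * t) := Real.sq_sqrt (by positivity)

theorem cont_bt : Continuous bt := by unfold bt; fun_prop

theorem rsl_rs (F : Flw) (x₀ p : E3) (b τ t : ℝ) : (F.rs x₀ b (Real.exp τ)).rsl p (-1) t =
    (F.rsl x₀ b (τ - Real.log (bt t))).sc ((bt t)⁻¹ • p) (bt t * Real.exp t) := by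
  have hb := bt_pos t
  have e0 : Real.exp (-2 * t) = (Real.exp t ^ 2)⁻¹ := by
    rw [← Real.exp_nat_mul, ← Real.exp_neg]; norm_num
  have e1 : b + (-1 + -1 / Real.exp t ^ 2) / Real.exp τ ^ 2 =
      b + -1 / Real.exp (τ - Real.log (bt t)) ^ 2 := by
    rw [Real.exp_sub, Real.exp_log hb, div_pow, bt_sq, e0]
    field_simp
    ring
  have e2 : ∀ y : E3, x₀ + (Real.exp τ)⁻¹ • (p + (Real.exp t)⁻¹ • y) =
      x₀ + (Real.exp (τ - Real.log (bt t)))⁻¹ • ((bt t)⁻¹ • p + (bt t * Real.exp t)⁻¹ • y) := by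
    intro y
    rw [Real.exp_sub, Real.exp_log hb, mul_inv, mul_smul, ← smul_add, smul_smul]
    congr 2
    field_simp
  simp only [Flw.rsl, Flw.rs, Flw.sl, Srf.sc, e1, e2]

theorem tendsto_l : Tendsto (fun t => bt t * Real.exp t) atTop atTop :=
  tendsto_atTop_mono (fun t => le_mul_of_one_le_left (Real.exp_pos t).le (one_le_bt t))
    Real.tendsto_exp_atTop

theorem tendsto_q (p : E3) :
    Tendsto (fun t => bt t * Real.exp t * ‖(bt t)⁻¹ • p - p‖) atTop (𝓝 0) := by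
  have h : Tendsto (fun t => Real.exp (-t) * ‖p‖) atTop (𝓝 0) := by
    simpa using Real.tendsto_exp_neg_atTop_nhds_zero.mul_const ‖p‖
  refine squeeze_zero (fun t => by have := bt_pos t; positivity) (fun t => ?_) h
  have hb := bt_pos t
  have h1 := one_le_bt t
  have e1 : (bt t)⁻¹ • p - p = -((bt t - 1) / bt t) • p := by
    rw [neg_div', neg_sub, sub_div, div_self hb.ne', sub_smul, one_smul, one_div]
  have h2 : bt t - 1 ≤ Real.exp (-t) * Real.exp (-t) := by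
    rw [← Real.exp_add, show -t + -t = -2 * t by ring]
    nlinarith [bt_sq t]
  have h3 : Real.exp t * Real.exp (-t) = 1 := by rw [← Real.exp_add]; simp
  rw [e1, norm_smul, norm_neg, Real.norm_of_nonneg (div_nonneg (by linarith) hb.le), ← mul_assoc]
  refine mul_le_mul_of_nonneg_right ?_ (norm_nonneg p)
  calc _ = Real.exp t * (bt t - 1) := by field_simp
    _ ≤ Real.exp t * (Real.exp (-t) * Real.exp (-t)) := by gcongr
    _ = _ := by rw [← mul_assoc, h3, one_mul]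

theorem anti_small {g : ℝ → ℝ} (h0 : ∀ t, 0 ≤ g t) {δ : ℝ} (hδ : 0 < δ) :
    ∃ t₁, ∀ t, g t₁ - g t < δ := by
  have hb : BddBelow (range g) := ⟨0, by rintro _ ⟨t, rfl⟩; exact h0 t⟩
  obtain ⟨t₁, ht⟩ := exists_lt_of_ciInf_lt (f := g) (lt_add_of_pos_right _ hδ)
  exact ⟨t₁, fun t => by linarith [ciInf_le hb t]⟩

theorem den (hP : DPR) (hA : DA) (hS : SLW) (hL : LOC) (hB : BALL) (hN : NOP) (hD : DIS) :
    DEN := by
  intro F a b Λ G x₀ κ hab hF hκ p ε hε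
  by_contra hcon
  have hp : p ∈ Hi κ ε := (not_frequently.1 hcon).mono fun ρ h => not_le.1 h
  obtain ⟨hlf, τ, hτ, hw⟩ := id hκ
  obtain ⟨⟨τ₀, hsl⟩, hgood⟩ := hS F a b Λ x₀ hab hF.toOkA
  obtain ⟨-, σ, hσ, hσw, hσφ⟩ := hgood τ κ hτ hw
  obtain ⟨hN1, -, hN3, -, hN5⟩ := hN
  have hG := hN5 F a b Λ G x₀ κ σ hab hF hlf (tendsto_atTop_mono (fun i => (hσ i).1) hτ) hσw hσφ
  obtain ⟨ε₁, hε₁, hL⟩ := hL Λ
  obtain ⟨C, -, hC, hL⟩ := hL (1 / 10) (by norm_num)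
  obtain ⟨R', hR', m', hm', D₀, hD₀, e₀, he₀, J, hP⟩ :=
    hP Λ G (ε / 2) (1 / 8) 1 (by positivity) (by norm_num)
  obtain ⟨Cd, hCd, hD⟩ := hD R'
  -- shifted sequences
  have shift : ∀ (φ : ℕ → ℕ) (t : ℕ → ℝ) (t' : ℝ), Tendsto φ atTop atTop → Tendsto t atTop (𝓝 t') →
      Tendsto (fun i => τ (φ i) - Real.log (bt (t i))) atTop atTop ∧
      WeakTendsto (fun i => NN 2 F.μ x₀ b (τ (φ i) - Real.log (bt (t i)))) κ := by
    intro φ t t' hφ ht
    have h1 : Tendsto (fun i => Real.log (bt (t i))) atTop (𝓝 (Real.log (bt t'))) :=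
      ((cont_bt.tendsto t').comp ht).log (bt_pos t').ne'
    refine ⟨(hτ.comp hφ).atTop_add h1.neg, hsl.weakTendsto_shift (hτ.comp hφ)
      (h := |Real.log (bt t')| + 1) (by positivity) ?_ fun f hf hfc => (hw f hf hfc).comp hφ⟩
    filter_upwards [h1.abs.eventually_lt_const (lt_add_one _)] with i hi
    simpa using hi.le
  have okA : ∀ s : ℕ → ℝ, Tendsto s atTop atTop → ∀ᶠ i in atTop,
      (F.rsl x₀ b (s i)).Ok ∧ AR Λ (F.rsl x₀ b (s i)).μ := fun s hs =>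
    (ev_time hab hs).mono fun i hi => rsl_ok hF.toOkA x₀ hi le_rfl
  set N : ℕ → ℝ → Srf := fun i t => (F.rs x₀ b (Real.exp (τ i))).rsl p (-1) t with hN
  have lpos : ∀ t, 0 < bt t * Real.exp t := fun t => mul_pos (bt_pos t) (Real.exp_pos t)
  have conv : ∀ (φ : ℕ → ℕ) (t : ℕ → ℝ) (t' : ℝ), Tendsto φ atTop atTop → Tendsto t atTop (𝓝 t') →
      (∀ᶠ i in atTop, AR Λ (N (φ i) (t i)).μ) ∧ WeakTendsto (fun i => (N (φ i) (t i)).μ)
        (zm κ ((bt t')⁻¹ • p) (bt t' * Real.exp t')) := by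
    intro φ t t' hφ ht
    obtain ⟨h1, h2⟩ := shift φ t t' hφ ht
    have h3 := (okA _ h1).mono fun i hi => hi.2
    have h4 := (cont_bt.tendsto t').comp ht
    simp only [hN, rsl_rs, sc_zm _ _ (lpos _)]
    refine ⟨h3.mono fun i hi => zm_ar hi _ (lpos _), zm_weak h3 ?_
      ((h4.inv₀ (bt_pos t').ne').smul_const p)
      (h4.mul ((Real.continuous_exp.tendsto t').comp ht)) (lpos _)⟩
    simpa only [rsl_mu] using h2
  have hκA : AR Λ κ := Gs.ar_lim ((okA τ hτ).mono fun i hi => rsl_mu F x₀ b _ ▸ hi.2) hw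
  set g : ℝ → ℝ := fun t => gs (zm κ ((bt t)⁻¹ • p) (bt t * Real.exp t)) 0 1 with hg
  have glim : ∀ t, Tendsto (fun i => gs (N i t).μ 0 1) atTop (𝓝 (g t)) := fun t => by
    have := (zm_ar hκA ((bt t)⁻¹ • p) (lpos t)).fin
    obtain ⟨h1, h2⟩ := conv id (fun _ => t) t tendsto_id tendsto_const_nhds
    exact Gs.gs_lim h1 h2 0 one_pos
  have good : ∀ i, (F.rs x₀ b (Real.exp (τ i))).Good (Real.exp (τ i) ^ 2 * (a - b))
      (Real.exp (τ i) ^ 2 * (b - b)) Λ G := fun i => hF.rs x₀ b (Real.exp_pos _)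
  have early : ∀ t, ∀ᶠ i in atTop, Real.exp (τ i) ^ 2 * (a - b) < -1 - Real.exp (-2 * t) :=
    fun t => (((tendsto_pow_atTop two_ne_zero).comp (Real.tendsto_exp_atTop.comp hτ)
      ).atTop_mul_const_of_neg (sub_neg.2 hab)).eventually_lt_atBot _
  have late : ∀ i, (-1 : ℝ) ≤ Real.exp (τ i) ^ 2 * (b - b) := fun i => by simp
  obtain ⟨t₁, ht₁⟩ := anti_small (g := g) (fun t => gs_nonneg _ _ _)
    (δ := min D₀ 1 / Cd) (by positivity)
  -- the start time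
  obtain ⟨hs1, hs2⟩ := shift id (fun _ => t₁) t₁ tendsto_id tendsto_const_nhds
  obtain ⟨e, he, hPm⟩ := pair_small (S := fun i => F.rsl x₀ b (τ i - Real.log (bt t₁)))
    (okA _ hs1) (by simpa only [rsl_mu, id] using hs2) (hA F a b Λ G x₀ κ hab hF hκ ε₁ hε₁)
    (fun q hq => by
      obtain ⟨δ, hδ, r, hr, h⟩ := hL F a b x₀ q _ κ hab hF.toOkA hlf hs1 hs2
        ((not_eventually.1 (show ¬ ∀ᶠ ρ in 𝓝[>] (0 : ℝ), 1 + ε₁ < gs κ q ρ from hq)).mono
          fun ρ h => not_lt.1 h)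
      refine ⟨δ, hδ, r / 4, by positivity, h.mono fun i hi x hx hx0 => ?_⟩
      obtain ⟨L, h1, h2⟩ := hi x hx hx0
      exact hN1 _ x L r _ C hC hx0 h1 h2 (by linarith))
    (‖(bt t₁)⁻¹ • p‖ + R' / (bt t₁ * Real.exp t₁)) (m := m' / (bt t₁ * Real.exp t₁) ^ 2)
    (by have := lpos t₁; positivity)
  set e' := min e₀ (e * (bt t₁ * Real.exp t₁)) with he'
  have he'0 : 0 < e' := lt_min he₀ (mul_pos he (lpos t₁))
  have hPm' : ∀ᶠ i in atTop,
      (N i t₁).μ {x ∈ ball (0 : E3) R' | Pair (N i t₁) x e'} ≤ ENNReal.ofReal m' := by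
    filter_upwards [hPm] with i hi
    simp only [hN, rsl_rs]
    rw [mu_sc_apply _ _ (lpos t₁)]
    refine (mul_le_mul_right ((measure_mono fun x hx => ?_).trans hi) _).trans_eq ?_
    · refine ⟨?_, (hx.2.of_sc (lpos t₁)).mono ?_⟩
      · have h1 : x ∈ (fun x => (bt t₁ * Real.exp t₁) • (x - (bt t₁)⁻¹ • p)) ⁻¹' ball 0 R' := hx.1
        rw [sc_ball _ (lpos t₁), smul_zero, add_zero, mem_ball_iff_norm] at h1
        rw [mem_closedBall_zero_iff]
        linarith [norm_sub_norm_le x ((bt t₁)⁻¹ • p)]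
      · rw [div_le_iff₀ (lpos t₁)]
        exact min_le_right _ _
    · rw [← ENNReal.ofReal_mul (sq_nonneg _), mul_div_cancel₀ _ (pow_pos (lpos t₁) 2).ne']
  -- the end time
  have hMany : ∀ᶠ t in atTop, ∀ j ∈ Iic J, ManyS (zm κ ((bt t)⁻¹ • p) (bt t * Real.exp t)) 1
      (ε / 2) (1 / 8) (e' / 10 / 2 ^ j) := (eventually_all_finite (finite_Iic J)).2 fun j _ =>
    (hB _ _ ε κ p hG hε hp).2 _ _ tendsto_l (tendsto_q p) _ (by positivity)
  obtain ⟨T₀, hT₀⟩ := eventually_atTop.1 hMany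
  set t₂ := max T₀ t₁ + 1 with ht₂
  have h12 : t₁ + 1 ≤ t₂ := by linarith [le_max_right T₀ t₁]
  have hdrop : ∀ᶠ i in atTop, Cd * (gs (N i t₁).μ 0 1 - gs (N i t₂).μ 0 1) < min D₀ 1 :=
    (((glim t₁).sub (glim t₂)).const_mul Cd).eventually_lt_const
      (by rw [← lt_div_iff₀' hCd]; exact ht₁ t₂)
  have hbad : ∀ᶠ i in atTop, ∃ t ∈ Icc (t₂ - 1) t₂, ∃ j ≤ J,
      ¬ Many (N i t).μ 1 (ε / 2) (1 / 8) (e' / 10 / 2 ^ j) := by
    filter_upwards [hdrop, hPm', early t₁] with i h1 h2 h3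
    obtain ⟨t, ht, h4⟩ := (hD _ _ _ Λ (-1) t₁ t₂ p (good i).toOkA (by linarith) h3 (late i)).2.2
      h12 (h1.le.trans (min_le_right _ _))
    have h5 : t₁ ≤ t := by linarith [ht.1]
    have h6 := (hD _ _ _ Λ (-1) t t₂ p (good i).toOkA ht.2 (h3.trans_le (by
      have : Real.exp (-2 * t) ≤ Real.exp (-2 * t₁) := Real.exp_le_exp.2 (by linarith)
      linarith)) (late i)).1
    refine ⟨t, ht, hP _ _ _ (-1) t₁ t e' p (good i) h5 h3 (late i) he'0 (min_le_left _ _)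
      ((hD _ _ _ Λ (-1) t₁ t p (good i).toOkA h5 h3 (late i)).2.1.trans
        (ENNReal.ofReal_le_ofReal ?_)) h2 h4⟩
    refine le_trans ?_ (h1.le.trans (min_le_left _ _))
    exact mul_le_mul_of_nonneg_left (sub_le_sub_left h6 _) hCd.le
  obtain ⟨i₀, hi₀⟩ := eventually_atTop.1 hbad
  choose t ht hj using fun i => hi₀ (i + i₀) (Nat.le_add_left _ _)
  obtain ⟨t', ht', φ, hφ, hlim⟩ := isCompact_Icc.tendsto_subseq ht
  obtain ⟨h1, h2⟩ := conv (fun k => φ k + i₀) (t ∘ φ) t'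
    ((tendsto_add_atTop_nat i₀).comp hφ.tendsto_atTop) hlim
  have h3 : ∀ᶠ k in atTop, ∀ j ∈ Iic J,
      Many (N (φ k + i₀) (t (φ k))).μ 1 (ε / 2) (1 / 8) (e' / 10 / 2 ^ j) :=
    (eventually_all_finite (finite_Iic J)).2 fun j hj' => hN3 _ _ _ _ _ _
      (zm_ar hκA _ (lpos t')).fin (h1.mono fun k hk => hk.fin) h2
      (hT₀ t' (by linarith [ht'.1, le_max_left T₀ t₁]) j hj')
  obtain ⟨k, hk⟩ := h3.exists
  obtain ⟨j, hj1, hj2⟩ := hj (φ k)
  exact hj2 (hk j hj1)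

end Vale.Agent.P218E
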