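import Vale.Agent.P218E.Spec
import Vale.Agent.P218R.Base

/-!
# P218E: the geometry of a shrinker at infinity
-/

open MeasureTheory Metric Filter Topology Set
open scoped ContDiff ENNReal RealInnerProductSpace
open Vale.Agent.P218R

noncomputable section

namespace Vale.Agent.P218E

namespace Dir

variable {S : Srf} {e e' p x y : E3}

theorem rad_le (he : ‖e‖ = 1) (x : E3) (l : ℝ) : rad e x ≤ ‖x - l • e‖ := by
  have h : ‖x - l • e‖ ^ 2 = rad e x ^ 2 + (⟪e, x⟫ - l) ^ 2 := by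
    simp only [rad, norm_sub_sq_real, real_inner_smul_right, norm_smul, he, Real.norm_eq_abs,
      mul_one, sq_abs, real_inner_comm e x]
    ring
  exact le_of_sq_le_sq₀' (by nlinarith [sq_nonneg (⟪e, x⟫ - l)])
where le_of_sq_le_sq₀' {a : ℝ} {v : E3} (h : a ^ 2 ≤ ‖v‖ ^ 2) : a ≤ ‖v‖ :=
  (le_abs_self a).trans (abs_le_of_sq_le_sq' h (norm_nonneg v) |> fun h => abs_le.2 h)

theorem rad_lip (he : ‖e‖ = 1) (x y : E3) : rad e x ≤ rad e y + ‖x - y‖ := by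
  refine (rad_le he x ⟪e, y⟫).trans ?_
  rw [show x - ⟪e, y⟫ • e = (y - ⟪e, y⟫ • e) + (x - y) by abel]
  exact norm_add_le _ _

theorem rad_smul (e x : E3) {l : ℝ} (hl : 0 ≤ l) : rad e (l • x) = l * rad e x := by
  rw [rad, rad, real_inner_smul_right, mul_smul, ← smul_sub, norm_smul, Real.norm_of_nonneg hl]

theorem dirn (he : ‖e‖ = 1) {l D : ℝ} (hl : 0 ≤ l) (hp : 0 < ‖p‖) (h : ‖p - l • e‖ ≤ D) :
    ‖‖p‖⁻¹ • p - e‖ ≤ 2 * D / ‖p‖ := by
  have h1 : |‖p‖ - l| ≤ D := by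
    have := abs_norm_sub_norm_le p (l • e)
    rw [norm_smul, he, mul_one, Real.norm_of_nonneg hl] at this
    linarith
  have e1 : ‖p‖⁻¹ • p - e = ‖p‖⁻¹ • ((p - l • e) - (‖p‖ - l) • e) := by
    rw [sub_smul, sub_sub_sub_cancel_right, smul_sub, smul_smul, inv_mul_cancel₀ hp.ne', one_smul]
  rw [e1, norm_smul, norm_inv, norm_norm, inv_mul_eq_div]
  refine div_le_div_of_nonneg_right ((norm_sub_le _ _).trans ?_) hp.le
  rw [norm_smul, he, mul_one, Real.norm_eq_abs]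
  linarith

theorem inner_half (he : ‖e‖ = 1) (he' : ‖e'‖ = 1) (h : ‖e' - e‖ < 1) : 1 / 2 < ⟪e, e'⟫ := by
  have h1 : ‖e' - e‖ ^ 2 < 1 := by nlinarith [norm_nonneg (e' - e)]
  rw [norm_sub_sq_real, he, he', real_inner_comm] at h1
  linarith

theorem norm_dir (hp : 0 < ‖p‖) : ‖‖p‖⁻¹ • p‖ = 1 := by
  rw [norm_smul, norm_inv, norm_norm, inv_mul_cancel₀ hp.ne']

/-- the surface stays near the ray -/
def Nr (S : Srf) (e : E3) : Prop := ∀ᶠ l : ℝ in atTop, ∃ p ∈ S.G, ‖p - l • e‖ ≤ 2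

theorem nr_of_pl (h : PlD S e) : Nr S e := h 2 two_pos

theorem nr_of_cy (he : ‖e‖ = 1) (h : CyD S e) : Nr S e := by
  obtain ⟨L, hL⟩ := ex_fr he
  set a : E3 := L (EuclideanSpace.single 0 1) with ha
  have ha1 : ‖a‖ = 1 := by simp [ha]
  have h2 : √2 ≤ 3 / 2 := Real.sqrt_le_iff.2 (by norm_num)
  have h3 : ‖√2 • a‖ = √2 := by rw [norm_smul, ha1, mul_one, Real.norm_of_nonneg (by positivity)]
  filter_upwards [h 2 (1 / 2) (by norm_num)] with l hl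
  obtain ⟨p, hp, h4⟩ := hl.2 (l • e + √2 • a) (by
    rw [rad, inner_add_right, real_inner_smul_right, real_inner_smul_right, hL.ort, hL.ee]
    simpa using h3) (by rw [add_sub_cancel_left, h3]; linarith)
  refine ⟨p, hp, ?_⟩
  rw [show p - l • e = (p - (l • e + √2 • a)) + √2 • a by abel]
  linarith [norm_add_le (p - (l • e + √2 • a)) (√2 • a)]

theorem Nr.pts (h : Nr S e) (he : ‖e‖ = 1) {δ : ℝ} (hδ : 0 < δ) (R : ℝ) : ∀ᶠ l : ℝ in atTop,
    ∃ p ∈ S.G, ‖p - l • e‖ ≤ 2 ∧ R ≤ ‖p‖ ∧ ‖‖p‖⁻¹ • p - e‖ < δ := by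
  filter_upwards [h, eventually_ge_atTop (R + 2), eventually_gt_atTop (4 / δ + 2)]
    with l ⟨p, hp, h1⟩ h2 h3
  have h0 : 0 < 4 / δ := by positivity
  have h4 : l - 2 ≤ ‖p‖ := by
    have := norm_sub_norm_le (l • e) p
    rw [norm_smul, he, mul_one, Real.norm_of_nonneg (by linarith), norm_sub_rev] at this
    linarith
  refine ⟨p, hp, h1, by linarith, (dirn he (by linarith) (by linarith) h1).trans_lt ?_⟩
  rw [div_lt_iff₀ (by linarith)]
  have : 4 / δ < ‖p‖ := by linarith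
  rw [div_lt_iff₀ hδ] at this
  linarith

theorem iso' (he : ‖e‖ = 1) {δ R : ℝ} (hδ : 0 < δ)
    (h : ∀ x ∈ S.G, R ≤ ‖x‖ → ‖‖x‖⁻¹ • x - e‖ < δ → rad e x ≤ 3) :
    ∃ δ' > (0 : ℝ), ∀ e', ‖e'‖ = 1 → ‖e' - e‖ < δ' → Nr S e' → e' = e := by
  refine ⟨min (δ / 2) 1, by positivity, fun e' he' h1 h2 => ?_⟩
  have h3 : ∀ᶠ l : ℝ in atTop, l * rad e e' ≤ 5 := by
    filter_upwards [h2.pts he' (half_pos hδ) R, eventually_ge_atTop 0] with l ⟨p, hp, a, b, c⟩ hl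
    have h4 := h p hp b (by
      linarith [norm_sub_le_norm_sub_add_norm_sub (‖p‖⁻¹ • p) e' e, min_le_left (δ / 2) 1])
    have h5 := rad_lip he (l • e') p
    rw [rad_smul _ _ hl, norm_sub_rev] at h5
    linarith
  have h4 : rad e e' = 0 := by
    by_contra h5
    have h6 : 0 < rad e e' := (norm_nonneg _).lt_of_ne' h5
    obtain ⟨l, h7, h8⟩ := (h3.and (eventually_gt_atTop (5 / rad e e'))).exists
    rw [div_lt_iff₀ h6] at h8
    linarith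
  have h5 := inner_half he he' (h1.trans_le (min_le_right _ _))
  have h6 : e' = ⟪e, e'⟫ • e := sub_eq_zero.1 (norm_eq_zero.1 h4)
  have h7 := congrArg norm h6
  rw [norm_smul, he, he', mul_one, Real.norm_of_nonneg (by linarith)] at h7
  rw [h6, ← h7, one_smul]

theorem emp' {δ R : ℝ} (hδ : 0 < δ) (h : ∀ x ∈ S.G, R ≤ ‖x‖ → δ ≤ ‖‖x‖⁻¹ • x - e‖) :
    ∃ δ' > (0 : ℝ), ∀ e', ‖e'‖ = 1 → ‖e' - e‖ < δ' → ¬ Nr S e' := by
  refine ⟨δ / 2, by positivity, fun e' he' h1 h2 => ?_⟩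
  obtain ⟨l, p, hp, -, b, c⟩ := (h2.pts he' (half_pos hδ) R).exists
  linarith [h p hp b, norm_sub_le_norm_sub_add_norm_sub (‖p‖⁻¹ • p) e' e]

theorem rg_mono {r r' : ℝ} {C : ℕ → ℝ} (h : RG S p r C) (hr : r' ≤ r) : RG S p r' C := by
  obtain ⟨s, h1, h2⟩ := h
  exact ⟨s, hr.trans h1, h2⟩

theorem hasL_mono {w : E3 → ℝ} {c : ℝ} {B B' : ℕ → ℝ} (h : HasL w p c B) (hB : ∀ k, B k ≤ B' k) :
    HasL w p c B' := by
  obtain ⟨e, F, h⟩ := h
  exact ⟨e, F, h.unit, h.sm, h.neg, h.zero, h.tilt, fun k x hx => (h.bd k x hx).trans (hB k)⟩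

end Dir

open Dir

theorem dir (hR : RAY) (hT : TRI) (hN : NCY) (hI : ISO) (hL : LDF) : DIR := by
  intro S Λ G hS
  obtain ⟨C₁, hC₁, hR⟩ := hR Λ
  obtain ⟨C₂, hC₂, hN⟩ := hN Λ
  set A₀ : Set E3 := {e | ‖e‖ = 1 ∧ CyD S e} with hA₀
  set Γ : Set E3 := {e | ‖e‖ = 1 ∧ FlD S e ∧ PlD S e} with hΓ
  have isoC : ∀ e, ‖e‖ = 1 → CyD S e →
      ∃ δ' > (0 : ℝ), ∀ e', ‖e'‖ = 1 → ‖e' - e‖ < δ' → Nr S e' → e' = e := fun e he h => by
    obtain ⟨δ, hδ, R, h⟩ := hI S Λ G e hS he h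
    exact iso' he hδ h
  have hfin : A₀.Finite := by
    have h := (isCompact_sphere (0 : E3) 1).induction_on (p := fun s => (s ∩ A₀).Finite)
      (by simp) (fun s t hst h => h.subset (inter_subset_inter_left _ hst))
      (fun s t h h' => by rw [union_inter_distrib_right]; exact h.union h') fun e he => by
        have he1 : ‖e‖ = 1 := by simpa using he
        rcases hT S Λ G e hS he1 with h | ⟨h, -⟩
        · obtain ⟨δ, hδ, h⟩ := isoC e he1 h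
          exact ⟨ball e δ, mem_nhdsWithin_of_mem_nhds (ball_mem_nhds e hδ),
            (finite_singleton e).subset fun e' h' =>
              h e' h'.2.1 (mem_ball_iff_norm.1 h'.1) (nr_of_cy h'.2.1 h'.2.2)⟩
        · obtain ⟨δ, hδ, h⟩ := (hN S G e hS he1 h).2.1
          exact ⟨ball e δ, mem_nhdsWithin_of_mem_nhds (ball_mem_nhds e hδ),
            finite_empty.subset fun e' h' => h e' h'.2.1 (mem_ball_iff_norm.1 h'.1) h'.2.2⟩
    exact h.subset fun e he => ⟨by simpa using he.1, he⟩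
  have hcl : IsClosed Γ := by
    refine isClosed_of_closure_subset fun e he => ?_
    have he1 : ‖e‖ = 1 := closure_minimal (fun x hx => hx.1)
      (isClosed_eq continuous_norm continuous_const) he
    rw [Metric.mem_closure_iff] at he
    rcases hT S Λ G e hS he1 with h | ⟨h, h' | h'⟩
    · obtain ⟨δ, hδ, h⟩ := isoC e he1 h
      obtain ⟨g, hg, h1⟩ := he δ hδ
      rwa [← h g hg.1 (by rwa [← dist_eq_norm, dist_comm]) (nr_of_pl hg.2.2)]
    · exact ⟨he1, h, h'⟩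
    · obtain ⟨δ, hδ, R, h⟩ := (hN S G e hS he1 h).2.2 h'
      obtain ⟨δ', hδ', h⟩ := emp' hδ h
      obtain ⟨g, hg, h1⟩ := he δ' hδ'
      exact (h g hg.1 (by rwa [← dist_eq_norm, dist_comm]) (nr_of_pl hg.2.2)).elim
  have hcpt : IsCompact Γ := (isCompact_sphere (0 : E3) 1).of_isClosed_subset hcl
    fun e he => by simpa using he.1
  have hsep : ∀ e ∈ A₀, e ∉ Γ := fun e he hg => by
    obtain ⟨δ, hδ, h⟩ := (hN S G e hS he.1 hg.2.1).2.1
    exact h e he.1 (by simpa using hδ) he.2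
  have hcov : ∀ η > (0 : ℝ), ∀ R₁ : ℝ, ∃ R : ℝ, ∀ p ∈ S.G, R ≤ ‖p‖ →
      (∃ e ∈ A₀, R₁ ≤ ⟪e, p⟫ ∧ rad e p ≤ 3) ∨ ∃ g ∈ Γ, ‖‖p‖⁻¹ • p - g‖ ≤ η := by
    intro η hη R₁
    obtain ⟨R, h⟩ := (isCompact_sphere (0 : E3) 1).induction_on
      (p := fun s => ∃ R : ℝ, ∀ p ∈ S.G, R ≤ ‖p‖ → ‖p‖⁻¹ • p ∈ s →
        (∃ e ∈ A₀, R₁ ≤ ⟪e, p⟫ ∧ rad e p ≤ 3) ∨ ∃ g ∈ Γ, ‖‖p‖⁻¹ • p - g‖ ≤ η)
      ⟨0, by simp⟩ (fun s t hst ⟨R, h⟩ => ⟨R, fun p a b c => h p a b (hst c)⟩)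
      (fun s t ⟨R, h⟩ ⟨R', h'⟩ => ⟨max R R', fun p a b c => c.elim
        (h p a ((le_max_left _ _).trans b)) (h' p a ((le_max_right _ _).trans b))⟩) fun e he => by
        have he1 : ‖e‖ = 1 := by simpa using he
        rcases hT S Λ G e hS he1 with h | ⟨h, h' | h'⟩
        · obtain ⟨δ, hδ, R, h2⟩ := hI S Λ G e hS he1 h
          refine ⟨ball e (min δ 1), mem_nhdsWithin_of_mem_nhds (ball_mem_nhds e (by positivity)),
            max R (2 * |R₁| + 1), fun p a b c => Or.inl ⟨e, ⟨he1, h⟩, ?_, h2 p a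
              ((le_max_left _ _).trans b) ((mem_ball_iff_norm.1 c).trans_le (min_le_left _ _))⟩⟩
          have h3 := (le_max_right _ _).trans b
          have h4 : 0 < ‖p‖ := by linarith [abs_nonneg R₁]
          have h5 := inner_half he1 (norm_dir h4)
            ((mem_ball_iff_norm.1 c).trans_le (min_le_right _ _))
          rw [real_inner_smul_right, inv_mul_eq_div, lt_div_iff₀ h4] at h5
          linarith [le_abs_self R₁]
        · exact ⟨ball e η, mem_nhdsWithin_of_mem_nhds (ball_mem_nhds e hη), 0,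
            fun p a b c => Or.inr ⟨e, ⟨he1, h, h'⟩, (mem_ball_iff_norm.1 c).le⟩⟩
        · obtain ⟨δ, hδ, R, h⟩ := (hN S G e hS he1 h).2.2 h'
          exact ⟨ball e δ, mem_nhdsWithin_of_mem_nhds (ball_mem_nhds e hδ), R,
            fun p a b c => absurd (mem_ball_iff_norm.1 c) (not_lt.2 (h p a b))⟩
    refine ⟨max R 1, fun p a b => h p a ((le_max_left _ _).trans b) ?_⟩
    simpa using norm_dir (one_pos.trans_le ((le_max_right _ _).trans b))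
  obtain ⟨δ₁, hδ₁, r₁, hr₁, hcreg⟩ : ∃ δ > (0 : ℝ), ∃ r > (0 : ℝ), ∀ᶠ μ : ℝ in atTop, ∀ p,
      (∃ g ∈ Γ, ‖p - g‖ ≤ δ) → wm S μ p = 0 → RG S (μ • p) (r * μ) C₂ := by
    refine hcpt.induction_on (p := fun s => ∃ δ > (0 : ℝ), ∃ r > (0 : ℝ), ∀ᶠ μ : ℝ in atTop, ∀ p,
      (∃ g ∈ s, ‖p - g‖ ≤ δ) → wm S μ p = 0 → RG S (μ • p) (r * μ) C₂)
      ⟨1, one_pos, 1, one_pos, by simp⟩
      (fun s t hst ⟨δ, hδ, r, hr, h⟩ => ⟨δ, hδ, r, hr, h.mono fun μ h p ⟨g, a, b⟩ =>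
        h p ⟨g, hst a, b⟩⟩)
      (fun s t ⟨δ, hδ, r, hr, h⟩ ⟨δ', hδ', r', hr', h'⟩ =>
        ⟨min δ δ', lt_min hδ hδ', min r r', lt_min hr hr', ?_⟩) fun e he => ?_
    · filter_upwards [h, h', eventually_ge_atTop 0] with μ h h' hμ p ⟨g, a, b⟩ c
      rcases a with a | a
      · exact rg_mono (h p ⟨g, a, b.trans (min_le_left _ _)⟩ c) (by gcongr; exact min_le_left _ _)
      · exact rg_mono (h' p ⟨g, a, b.trans (min_le_right _ _)⟩ c)
          (by gcongr; exact min_le_right _ _)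
    · obtain ⟨δ, hδ, r, hr, h⟩ := (hN S G e hS he.1 he.2.1).1
      refine ⟨ball e (δ / 2), mem_nhdsWithin_of_mem_nhds (ball_mem_nhds e (half_pos hδ)), δ / 2,
        half_pos hδ, r, hr, h.mono fun μ h p ⟨g, a, b⟩ => h p ?_⟩
      linarith [norm_sub_le_norm_sub_add_norm_sub p g e, mem_ball_iff_norm.1 a]
  obtain ⟨d, hd, hdA⟩ : ∃ d > (0 : ℝ), ∀ e ∈ A₀, ∀ g ∈ Γ, d ≤ ‖e - g‖ := by
    obtain ⟨d, hd, h⟩ := Metric.isOpen_iff.1 isOpen_univ (0 : ℝ) trivial |> fun _ =>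
      (disjoint_left.2 hsep).exists_thickenings hfin.isCompact hcl
    refine ⟨d, hd, fun e he g hg => le_of_not_gt fun h1 => disjoint_left.1 h
      (mem_thickening_iff.2 ⟨e, he, by rwa [dist_comm, dist_eq_norm]⟩)
      (self_subset_thickening hd _ hg)⟩
  obtain ⟨r₀, hr₀, l₀, hax⟩ : ∃ r > (0 : ℝ), ∃ l₀ : ℝ, ∀ e ∈ A₀, ∀ p ∈ S.G, l₀ ≤ ⟪e, p⟫ →
      rad e p ≤ 3 → RG S p r C₁ := by
    have h : ∀ᶠ q : ℝ × ℝ in 𝓝[>] 0 ×ˢ atTop, ∀ e ∈ A₀, ∀ p ∈ S.G, q.2 ≤ ⟪e, p⟫ →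
        rad e p ≤ 3 → RG S p q.1 C₁ := (eventually_all_finite hfin).2 fun e he => by
      obtain ⟨r, hr, h⟩ := (hR S G e hS).1 3
      obtain ⟨l, hl⟩ := eventually_atTop.1 h
      filter_upwards [prod_mem_prod (mem_nhdsWithin_of_mem_nhds (Iic_mem_nhds hr))
        (Ici_mem_atTop l)] with q hq p a b c
      exact rg_mono (hl _ (le_trans hq.2 b) p a c) hq.1
    obtain ⟨q, h1, h2⟩ := (h.and (tendsto_fst.eventually self_mem_nhdsWithin)).exists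
    exact ⟨q.1, h2, q.2, h1⟩
  obtain ⟨μ₀, hμ₀⟩ := eventually_atTop.1 hcreg
  obtain ⟨R, hRc⟩ := hcov δ₁ hδ₁ l₀
  obtain ⟨r₂, hr₂, hbd⟩ := (hR S G 0 hS).1 (max R (max μ₀ 1))
  obtain ⟨l, hbd⟩ := hbd.exists
  set c := min r₀ (min r₁ r₂) with hc
  have hc0 : 0 < c := lt_min hr₀ (lt_min hr₁ hr₂)
  have hc1 : c ≤ r₁ := (min_le_right _ _).trans (min_le_left _ _)
  obtain ⟨B₁, hB₁⟩ := hL.1 c hc0 C₁ hC₁
  obtain ⟨B₂, hB₂⟩ := hL.1 c hc0 C₂ hC₂
  have w1 : wm S 1 = S.w := by ext x; simp [wm]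
  refine ⟨hfin.toFinset, Γ, c, min δ₁ (min (d / 4) (1 / 4)), fun k => max (B₁ k) (B₂ k), hc0,
    by positivity, fun e he => (hfin.mem_toFinset.1 he).1, hcpt, fun g hg => hg.1,
    fun e he => hsep e (hfin.mem_toFinset.1 he), fun p hp => ?_, ?_, fun η hη => ?_,
    fun η hη => ?_, fun e he η hη => ?_, fun e he η hη => ?_, fun η hη R₁ => ?_⟩
  · have k1 : RG S p c C₁ → HasL S.w p c fun k => max (B₁ k) (B₂ k) := fun h =>
      hasL_mono (w1 ▸ hB₁ S 1 p one_pos (w1 ▸ hp) (by simpa using h)) fun k => le_max_left _ _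
    rcases le_total ‖p‖ (max R (max μ₀ 1)) with h | h
    · exact k1 (rg_mono (hbd p hp (by simpa using h))
        ((min_le_right _ _).trans (min_le_right _ _)))
    · rw [max_le_iff, max_le_iff] at h
      rcases hRc p hp h.1 with ⟨e, a, b, c'⟩ | h'
      · exact k1 (rg_mono (hax e a p hp b c') (min_le_left _ _))
      · have h0 : ‖p‖ ≠ 0 := by linarith [h.2.2]
        have h1 := hμ₀ _ h.2.1 _ h' (by rw [wm, smul_inv_smul₀ h0]; exact hp)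
        rw [smul_inv_smul₀ h0] at h1
        refine hasL_mono (w1 ▸ hB₂ S 1 p one_pos (w1 ▸ hp) ?_) fun k => le_max_right _ _
        rw [one_smul]
        exact rg_mono h1 (by nlinarith [h.2.2])
  · filter_upwards [hcreg, eventually_gt_atTop 0] with μ h hμ p ⟨g, a, b⟩ h0
    exact hasL_mono (hB₂ S μ p hμ h0 (rg_mono (h p ⟨g, a, b.trans (min_le_left _ _)⟩ h0)
      (by gcongr))) fun k => le_max_right _ _
  · obtain ⟨R', h⟩ := hcov (η / 2) (half_pos hη) 0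
    filter_upwards [eventually_ge_atTop (2 * |R'|), eventually_gt_atTop (24 / d)]
      with μ h1 h2 x ⟨g, a, b⟩ h0
    have b1 : ‖x - g‖ ≤ d / 4 := b.trans ((min_le_right _ _).trans (min_le_left _ _))
    have b2 : ‖x - g‖ ≤ 1 / 4 := b.trans ((min_le_right _ _).trans (min_le_right _ _))
    have hμ : 0 < μ := lt_trans (by positivity) h2
    have n1 := abs_le.1 (abs_norm_sub_norm_le x g)
    rw [a.1] at n1
    have n0 : 0 < ‖x‖ := by linarith [n1.1]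
    have n2 : ‖μ • x‖ = μ * ‖x‖ := by rw [norm_smul, Real.norm_of_nonneg hμ.le]
    have n3 : μ / 2 ≤ ‖μ • x‖ := by rw [n2]; nlinarith [n1.1]
    have n4 : ‖μ • x‖⁻¹ • μ • x = ‖x‖⁻¹ • x := by
      rw [n2, smul_smul]; congr 1; field_simp
    rcases h _ h0 (by linarith [le_abs_self R']) with ⟨e, a1, a2, a3⟩ | ⟨g', a1, a2⟩
    · exfalso
      have h3 := dirn a1.1 a2 (by linarith) a3
      rw [n4] at h3
      have h4 : 2 * 3 / ‖μ • x‖ < d / 2 := by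
        rw [div_lt_iff₀ (by linarith)]
        rw [div_lt_iff₀ hd] at h2
        nlinarith
      have h6 : ‖‖x‖⁻¹ • x - g‖ ≤ d / 2 := by
        have e1 : ‖x‖⁻¹ • x - g = (x - g) + (1 - ‖x‖) • ‖x‖⁻¹ • x := by
          rw [sub_smul, one_smul, smul_inv_smul₀ n0.ne']; abel
        rw [e1]
        refine (norm_add_le _ _).trans ?_
        rw [norm_smul, norm_dir n0, mul_one, Real.norm_eq_abs]
        have : |1 - ‖x‖| ≤ ‖x - g‖ := abs_le.2 ⟨by linarith [n1.2], by linarith [n1.1]⟩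
        linarith
      have h7 := hdA e a1 g a
      have h8 := norm_sub_le_norm_sub_add_norm_sub e (‖x‖⁻¹ • x) g
      rw [norm_sub_rev e (‖x‖⁻¹ • x)] at h8
      linarith
    · refine ⟨g', a1, ?_⟩
      rw [n4] at a2
      rw [show x - ‖x‖ • g' = ‖x‖ • (‖x‖⁻¹ • x - g') by rw [smul_sub, smul_inv_smul₀ n0.ne'],
        norm_smul, norm_norm]
      nlinarith [n1.2, norm_nonneg (‖x‖⁻¹ • x - g')]
  · refine hcpt.induction_on (p := fun s => ∀ᶠ μ : ℝ in atTop, ∀ g ∈ s,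
      ∃ p, wm S μ p = 0 ∧ ‖p - g‖ ≤ η) (by simp)
      (fun s t hst h => h.mono fun μ h g a => h g (hst a))
      (fun s t h h' => (h.and h').mono fun μ h g a => a.elim (h.1 g) (h.2 g)) fun e he =>
      ⟨ball e (η / 2), mem_nhdsWithin_of_mem_nhds (ball_mem_nhds e (half_pos hη)), ?_⟩
    filter_upwards [he.2.2 1 one_pos, eventually_ge_atTop (2 / η)] with μ ⟨p, a, b⟩ h g hg
    have hμ : 0 < μ := lt_of_lt_of_le (by positivity) h
    refine ⟨μ⁻¹ • p, by rw [wm, smul_inv_smul₀ hμ.ne']; exact a, ?_⟩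
    have h1 : ‖μ⁻¹ • p - e‖ ≤ η / 2 := by
      rw [show μ⁻¹ • p - e = μ⁻¹ • (p - μ • e) by rw [smul_sub, inv_smul_smul₀ hμ.ne'], norm_smul,
        Real.norm_of_nonneg (by positivity), inv_mul_le_iff₀ hμ]
      rw [div_le_iff₀ hη] at h
      linarith
    linarith [norm_sub_le_norm_sub_add_norm_sub (μ⁻¹ • p) e g, mem_ball_iff_norm'.1 hg]
  · obtain ⟨R', h⟩ := eventually_atTop.1 ((hfin.mem_toFinset.1 he).2 3 η hη)
    exact ⟨R', fun p a b c => (h _ b).1 p a c⟩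
  · obtain ⟨R', h⟩ := eventually_atTop.1 ((hfin.mem_toFinset.1 he).2 √2 η hη)
    exact ⟨R', fun q a b => (h _ b).2 q a a.le⟩
  · obtain ⟨R', h⟩ := hcov η hη R₁
    exact ⟨R', fun p a b => (h p a b).imp_left fun ⟨e, a1, a2⟩ =>
      ⟨e, hfin.mem_toFinset.2 a1, a2⟩⟩

end Vale.Agent.P218E
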