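import Vale.Agent.P218E.Spec

/-!
# P218E: the ends of a shrinker, from the blocks
-/

open MeasureTheory Metric Filter Topology Set
open scoped ContDiff ENNReal RealInnerProductSpace
open Vale.Agent.P218R
open Vale.Agent.P218T (Decays cylPt axis IsLink conePt IsEndedShrinker)

noncomputable section

namespace Vale.Agent.P218E

theorem exists_axis {e : E3} (he : ‖e‖ = 1) : ∃ Q : E3 ≃ₗᵢ[ℝ] E3, axis Q = e := by
  have h1 : ‖(!₂[0, 0, 1] : E3)‖ = ‖e‖ := by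
    rw [he, EuclideanSpace.norm_eq]
    simp [Fin.sum_univ_three]
  exact ⟨(ℝ ∙ ((!₂[0, 0, 1] : E3) - e))ᗮ.reflection, Submodule.reflection_sub h1⟩

theorem ends (hD : DIR) (hT : TUBE) (hC : CYLE) (hO : OMEGA) (hL : LINK) (hK : CONE) : ENDS := by
  intro S Λ G hS
  obtain ⟨A, Γ, c, δ, B, hG⟩ := hD S Λ G hS
  obtain ⟨w, δ', C, hw, hws⟩ := hT S c B hS.ok hS.eq hG.cpos hG.ureg
  obtain ⟨om, U, h1, h2, h3, h4, h5⟩ := hO S A Γ c δ B hG
  obtain ⟨n₂, γ, n, hγ, hinj, hΓ⟩ := hL Γ U om hG.cpt hG.sph h1 h2 h3 h4 h5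
  have hsub : ∀ j, range (γ j) ⊆ Γ := fun j => hΓ ▸ subset_iUnion (fun j => range (γ j)) j
  choose g Rg η hη hgd hgm hgc using fun j =>
    hK S A Γ c δ B hG (γ j) (n j) (hγ j).1 (hγ j).2 (hsub j)
  set a : Fin A.card → E3 := fun i => (A.equivFin.symm i : E3) with ha
  have haA : ∀ i, a i ∈ A := fun i => (A.equivFin.symm i).2
  choose Q hQ using fun i => exists_axis (hG.unit _ (haA i))
  choose f Rf hfd hfm hfc using fun i => hC S A Γ c δ B hG (Q i) (by rw [hQ i]; exact haA i)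
  obtain ⟨R₁, hR₁⟩ := (finite_range Rf).bddAbove
  obtain ⟨R₂, hR₂⟩ := (finite_range Rg).bddAbove
  have hf : ∀ i, Rf i ≤ max R₁ R₂ := fun i => (hR₁ ⟨i, rfl⟩).trans (le_max_left _ _)
  have hg : ∀ j, Rg j ≤ max R₁ R₂ := fun j => (hR₂ ⟨j, rfl⟩).trans (le_max_right _ _)
  obtain ⟨η₀, hη₀, hη₁⟩ : ∃ η₀ > (0 : ℝ), ∀ j, η₀ ≤ η j := by
    have h : ∀ᶠ x in 𝓝[>] (0 : ℝ), ∀ j, x ≤ η j := by
      rw [eventually_all]
      exact fun j => mem_nhdsWithin_of_mem_nhds (Iic_mem_nhds (hη j))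
    obtain ⟨x, hx1, hx2⟩ := (h.and self_mem_nhdsWithin).exists
    exact ⟨x, hx2, hx1⟩
  obtain ⟨R, hR⟩ := hG.cov η₀ hη₀ (max R₁ R₂)
  refine ⟨w, δ', C, A.card, n₂, Q, f, γ, n, g, max R₁ R₂, hw, hws, hfd, fun j => (hγ j).1, hgd,
    fun i y hy => hfm i y ((hf i).trans hy), fun j y hy => hgm j y ((hg j).trans hy), ?_, ?_, ?_,
    hinj⟩
  · refine (isBounded_closedBall (x := (0 : E3))
      (r := max R (2 * Real.exp (max R₁ R₂)))).subset fun p hp => ?_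
    rw [mem_closedBall_zero_iff]
    by_contra hcon
    rw [not_le, max_lt_iff] at hcon
    refine hp.2 ?_
    rcases hR p hp.1 hcon.1.le with ⟨e, he, he1, he2⟩ | ⟨q, hq, hq1⟩
    · obtain ⟨i, rfl⟩ : ∃ i, a i = e := ⟨A.equivFin ⟨e, he⟩, by simp [ha]⟩
      rw [← hQ i] at he1 he2
      obtain ⟨θ, hθ⟩ := hfc i p hp.1 ((hf i).trans he1) he2
      exact Or.inl (mem_iUnion.2 ⟨i, _, he1, hθ.symm⟩)
    · rw [hΓ] at hq
      obtain ⟨j, θ, rfl⟩ := mem_iUnion.1 hq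
      obtain ⟨y, hy1, hy2⟩ := hgc j p hp.1 θ _ (hg j) hcon.2.le (hq1.trans (hη₁ j))
      exact Or.inr (mem_iUnion.2 ⟨j, y, hy1, hy2.symm⟩)
  · intro i i' h
    have h' : a i = a i' := by rw [← hQ i, ← hQ i']; exact h
    exact A.equivFin.symm.injective (Subtype.ext h')
  · intro i j θ h
    refine hG.sep _ (haA i) ?_
    rw [← hQ i, h]
    exact hsub j ⟨θ, rfl⟩

end Vale.Agent.P218E
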