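import Vale.Agent.P218E.Zm

/-!
# P218E: area ratios at points of high density
-/

set_option linter.all false

open MeasureTheory Metric Filter Topology Set
open scoped ContDiff ENNReal RealInnerProductSpace NNReal
open Vale.Agent.P366.Stmt (E)
open Vale.Agent.P366W
open Vale.Agent.P218 (limitSet WeakTendsto)
open Vale.Agent.P218R

noncomputable section

namespace Vale.Agent.P218E

theorem nq {ν : E3} {L : E 2 →ₗᵢ[ℝ] E3} (hL : Fr ν L) (x : E3) :
    ‖x‖ ^ 2 = ‖adj L x‖ ^ 2 + ⟪ν, x⟫ ^ 2 := by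
  rw [← hL.norm_sq, hL.dec]

theorem slab {κ : Measure E3} {Λ θ d : ℝ} {ν : E3} {L : E 2 →ₗᵢ[ℝ] E3} {c : ℝ≥0} (hΛ : 0 ≤ Λ)
    (hA : AR Λ κ) (hν : ‖ν‖ = 1) (hL : Fr ν L) (hθ : ∀ ρ ∈ Ioc (0 : ℝ) 1, θ ≤ gs κ 0 ρ)
    (d0 : 0 < d) (hc : (κ.restrict {x | |⟪ν, x⟫| ≤ d}).map (adj L) = c • volume) : θ ≤ c := by
  set T : Set E3 := {x | |⟪ν, x⟫| ≤ d}
  have mT : MeasurableSet T := measurableSet_le (by fun_prop) measurable_const
  have ma : Measurable (adj L) := (adj L).continuous.measurable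
  have t : Tendsto (fun ρ : ℝ => c + Real.exp (-d ^ 2 / 8 * (ρ ^ 2)⁻¹) * (2 * Gs.C0 * Λ / Real.pi))
      (𝓝[>] 0) (𝓝 (c + 0 * (2 * Gs.C0 * Λ / Real.pi))) :=
    ((Real.tendsto_exp_atBot.comp ((tendsto_inv_nhdsGT_zero.comp (tendsto_nhdsWithin_iff.2
      ⟨by simpa using ((continuous_pow 2).tendsto (0 : ℝ)).mono_left nhdsWithin_le_nhds,
        eventually_mem_nhdsWithin.mono fun x (h : 0 < x) => pow_pos h 2⟩)).const_mul_atTop_of_neg
          (by nlinarith [pow_pos d0 2]))).mul_const _).const_add _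
  rw [zero_mul, add_zero] at t
  refine ge_of_tendsto t (mem_of_superset (Ioc_mem_nhdsGT one_pos) fun ρ hρ => (hθ ρ hρ).trans ?_)
  have ρ0 := hρ.1
  have ha : 0 < 4 * ρ ^ 2 := by positivity
  have i := Gs.intg hΛ hA 0 ha
  have h1 : ∫ y in T, Real.exp (-‖y - 0‖ ^ 2 / (4 * ρ ^ 2)) ∂κ ≤ c * (4 * Real.pi * ρ ^ 2) := by
    have g : Integrable (fun a : E 2 => Real.exp (-(4 * ρ ^ 2)⁻¹ * ‖a‖ ^ 2)) := .of_integral_ne_zero (by
      rw [GaussianFourier.integral_rexp_neg_mul_sq_norm (inv_pos.2 ha)]; positivity)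
    have g' := g.smul_measure_nnreal (c := c)
    rw [← hc] at g'
    refine (integral_mono i.integrableOn (g'.comp_measurable ma) fun y => Real.exp_le_exp.2 ?_).trans_eq ?_
    · rw [sub_zero, nq hL, div_eq_inv_mul]
      nlinarith [mul_nonneg (inv_pos.2 ha).le (sq_nonneg ⟪ν, y⟫)]
    refine (integral_map ma.aemeasurable g'.1).symm.trans ?_
    rw [hc, integral_smul_nnreal_measure,
      GaussianFourier.integral_rexp_neg_mul_sq_norm (inv_pos.2 ha)]
    simp [NNReal.smul_def]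
    exact .inl (by field_simp)
  have h2 := (le_abs_self _).trans (Gs.tail (x := 0) hΛ hA ha d0.le (f := Tᶜ.indicator fun y =>
    Real.exp (-‖y - 0‖ ^ 2 / (4 * ρ ^ 2))) (.of_forall fun y => ⟨by
      rw [← Real.norm_eq_abs]
      exact (norm_indicator_le_norm_self _ _).trans_eq (Real.norm_of_nonneg (Real.exp_pos _).le),
    fun h => indicator_of_notMem (not_not.2 ((abs_real_inner_le_norm _ _).trans
      (by rw [hν, one_mul]; simpa using h.le))) _⟩))
  rw [integral_indicator mT.compl] at h2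
  rw [gs, ← integral_add_compl mT i, inv_mul_le_iff₀ (by positivity)]
  refine (add_le_add h1 h2).trans_eq ?_
  rw [show -d ^ 2 / (2 * (4 * ρ ^ 2)) = -d ^ 2 / 8 * (ρ ^ 2)⁻¹ by field_simp; norm_num]
  field_simp

/-- **FLAT** -/
theorem flat : FLAT := by
  intro κ Λ θ ν _ hΛ hA hν hi hθ z r hz hr
  obtain ⟨L, hL⟩ := ex_fr hν
  have c0 : Continuous fun r' : ℝ => ENNReal.ofReal (θ * Real.pi * r' ^ 2) :=
    ENNReal.continuous_ofReal.comp (by fun_prop)
  refine le_of_tendsto ((c0.tendsto r).mono_left (nhdsWithin_le_nhds (s := Iio r))) ?_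
  filter_upwards [Ioo_mem_nhdsLT hr] with s ⟨s0, s1⟩
  obtain ⟨d, d0, hd⟩ : ∃ d : ℝ, 0 < d ∧ d ^ 2 = r ^ 2 - s ^ 2 :=
    have : 0 < r ^ 2 - s ^ 2 := by nlinarith
    ⟨_, Real.sqrt_pos.2 this, Real.sq_sqrt this.le⟩
  set T : Set E3 := {x | |⟪ν, x⟫| ≤ d}
  have mT : MeasurableSet T := measurableSet_le (by fun_prop) measurable_const
  have ma : Measurable (adj L) := (adj L).continuous.measurable
  obtain ⟨m, hm⟩ : ∃ m, m = (κ.restrict T).map (adj L) := ⟨_, rfl⟩
  have ap : ∀ B, MeasurableSet B → m B = κ (adj L ⁻¹' B ∩ T) := fun B hB => by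
    rw [hm, Measure.map_apply ma hB, Measure.restrict_apply (ma hB)]
  have : IsFiniteMeasureOnCompacts m := ⟨fun K hK => by
    obtain ⟨R, R0, hR⟩ := hK.isBounded.subset_closedBall_lt 0 0
    refine (ap K hK.measurableSet).trans_lt ((measure_mono fun x hx => ?_).trans_lt
      (isCompact_closedBall (0 : E3) (R + d)).measure_lt_top)
    have h1 := pow_le_pow_left₀ (norm_nonneg _) (mem_closedBall_zero_iff.1 (hR (mem_preimage.1 hx.1))) 2
    have h3 : |⟪ν, x⟫| ≤ d := hx.2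
    have h2 := sq_le_sq' (abs_le.1 h3).1 (abs_le.1 h3).2
    exact mem_closedBall_zero_iff.2 (abs_le_of_sq_le_sq' (by rw [nq hL]; nlinarith) (by positivity)).2⟩
  have : m.IsAddLeftInvariant := ⟨fun a => Measure.ext fun B hB => by
    rw [Measure.map_apply (measurable_const_add a) hB, ap _ (measurable_const_add a hB), ap _ hB]
    conv_rhs => rw [← hi (L a) (hL.ort a), Measure.map_apply (measurable_add_const _) ((ma hB).inter mT)]
    congr 1
    ext x
    simp [T, adj_L, inner_add_right, hL.ort, add_comm]⟩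
  obtain ⟨c, hc⟩ : ∃ c : ℝ≥0, m = c • volume := ⟨_, Measure.isAddLeftInvariant_eq_smul m volume⟩
  have key : θ ≤ c := slab hΛ hA hν hL hθ d0 (hm.symm.trans hc)
  refine le_trans ?_ ((ap _ (measurableSet_ball (x := adj L z) (ε := s))).le.trans
    (measure_mono fun x hx => ?_))
  · rw [hc, Measure.smul_apply, EuclideanSpace.volume_ball_fin_two, ENNReal.smul_def, smul_eq_mul,
      ← ENNReal.ofReal_pow s0.le, ← ENNReal.ofReal_mul (by positivity), ← ENNReal.ofReal_coe_nnreal,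
      ← ENNReal.ofReal_mul c.coe_nonneg]
    refine ENNReal.ofReal_le_ofReal ?_
    rw [mul_assoc, mul_comm Real.pi]
    gcongr
  have h1 := pow_lt_pow_left₀ (mem_ball_iff_norm.1 (mem_preimage.1 hx.1)) (norm_nonneg _) two_ne_zero
  have h3 : |⟪ν, x⟫| ≤ d := hx.2
  have h2 := sq_le_sq' (abs_le.1 h3).1 (abs_le.1 h3).2
  refine mem_ball_iff_norm.2 (lt_of_pow_lt_pow_left₀ 2 hr.le ?_)
  rw [nq hL, map_sub, inner_sub_right, hz, sub_zero]
  linarith

theorem tang (bl : BLOW) {S : ℕ → Srf} {Λ ε : ℝ} {κ : Measure E3} {p : E3} (h : GSeq S Λ κ)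
    (hp : p ∈ Hi κ ε) {l : ℕ → ℝ} (hl : Tendsto l atTop atTop) :
    ∃ (ψ : ℕ → ℕ) (ν : E3), StrictMono ψ ∧ ‖ν‖ = 1 ∧ ∀ z r a, ⟪ν, z⟫ = 0 → 0 < r → 0 ≤ a →
      a < (1 + ε) * Real.pi * r ^ 2 →
      ∀ᶠ k in atTop, ENNReal.ofReal a < zm κ p (l (ψ k)) (ball z r) := by
  obtain ⟨ψ, κ', ν, h1, h2, h3, h4, h5⟩ := bl S Λ κ p l h hl
  have := h.lf
  have hA : AR Λ κ := Gs.ar_lim (h.ok.mono fun _ h => h.2) h.wk
  have l1 := hl.comp h1.tendsto_atTop
  have l0 := l1.eventually_gt_atTop 0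
  have hA' := l0.mono fun k hk => zm_ar hA p hk
  refine ⟨ψ, ν, h1, h3, fun z r a hz hr a0 ha => ev_lt_of_weak h4 isOpen_ball
    (((ENNReal.ofReal_lt_ofReal_iff_of_nonneg a0).2 ha).trans_le (flat κ' Λ _ ν h2 h.pos.le
      (Gs.ar_lim hA' h4) h3 h5 (fun ρ hρ => ge_of_tendsto (Gs.gs_lim hA' h4 0 hρ.1) ?_) z r hz hr))⟩
  filter_upwards [l0, (tendsto_nhdsWithin_iff.2 ⟨l1.const_div_atTop ρ,
    l0.mono fun k hk => div_pos hρ.1 hk⟩).eventually hp] with k a b
  rw [gs_zm κ p a, smul_zero, add_zero]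
  exact b.le

/-- **BALL** -/
theorem ball' (bl : BLOW) : BALL := by
  intro S Λ ε κ p h e0 hp
  have := Real.pi_pos
  refine ⟨by_contra fun c => ?_, fun l q hl hq r r0 => by_contra fun c => ?_⟩
  · obtain ⟨r, r1, r2⟩ := exists_seq_forall_of_frequently (not_eventually.1 c)
    obtain ⟨ψ, ν, h1, -, h3⟩ := tang bl h hp (tendsto_inv_nhdsGT_zero.comp r1)
    obtain ⟨k, a, b⟩ := ((h3 0 1 ((1 + ε / 2) * Real.pi) (inner_zero_right _) one_pos (by positivity)
      (by nlinarith)).and (h1.tendsto_atTop.eventually (tendsto_nhdsWithin_iff.1 r1).2)).exists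
    have b : 0 < r (ψ k) := b
    rw [Function.comp, zm_ball κ p (inv_pos.2 b), smul_zero, add_zero, one_div, inv_inv] at a
    refine a.not_ge ((mul_le_mul_right (not_lt.1 (r2 _)) _).trans_eq ?_)
    rw [← ENNReal.ofReal_mul (sq_nonneg _)]
    congr 1
    field_simp
  obtain ⟨b, b1, b2⟩ := exists_seq_forall_of_frequently (not_eventually.1 c)
  obtain ⟨ψ, ν, h1, h2, h3⟩ := tang bl h hp (hl.comp b1)
  obtain ⟨L, hL⟩ := ex_fr h2
  obtain ⟨s, s1, s2, s0⟩ := ((((continuous_const.mul (continuous_pow 2)).tendsto r).eventually_const_lt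
    (show (1 + ε / 2) * Real.pi * r ^ 2 < (1 + ε) * Real.pi * r ^ 2 by gcongr; linarith)).filter_mono
      (nhdsWithin_le_nhds (s := Iio r))).and (Ioo_mem_nhdsLT r0) |>.exists
  let N := ⌊√(1 / (8 * r ^ 2))⌋₊
  let g : ℕ × ℕ → E3 := fun x => L !₂[2 * r * x.1, 2 * r * x.2]
  have sq : √(1 / (8 * r ^ 2)) ^ 2 = 1 / (8 * r ^ 2) := Real.sq_sqrt (by positivity)
  have sep : ∀ x y, x ≠ y → 2 * r ≤ dist (g x) (g y) := fun x y e => by
    rw [L.isometry.dist_eq]
    have : ∀ i j : ℕ, i ≠ j → 2 * r ≤ dist (2 * r * i) (2 * r * j) := fun i j e => by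
      rw [Real.dist_eq, ← mul_sub, abs_mul, abs_of_pos (by positivity)]
      have := Int.one_le_abs (sub_ne_zero.2 (Nat.cast_injective.ne e : (i : ℤ) ≠ j))
      refine le_mul_of_one_le_right (by positivity) ?_
      rw [← Int.cast_natCast, ← Int.cast_natCast j]
      exact_mod_cast this
    by_cases k : x.1 = y.1
    · exact (this _ _ fun k' => e (Prod.ext k k')).trans
        (PiLp.dist_apply_le (!₂[2 * r * x.1, 2 * r * x.2] : E 2) !₂[2 * r * y.1, 2 * r * y.2] 1)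
    · exact (this _ _ k).trans
        (PiLp.dist_apply_le (!₂[2 * r * x.1, 2 * r * x.2] : E 2) !₂[2 * r * y.1, 2 * r * y.2] 0)
  have t := b1.comp h1.tendsto_atTop
  obtain ⟨k, k1, k2, k3⟩ := (((Finset.range (N + 1) ×ˢ Finset.range (N + 1)).eventually_all.2
    fun x _ => h3 (g x) s _ (hL.ort _) s2 (by positivity) s1).and
      (((hq.comp t).eventually_lt_const (sub_pos.2 s0)).and
        ((hl.comp t).eventually_gt_atTop 0))).exists
  refine b2 (ψ k) ⟨(Finset.range (N + 1) ×ˢ Finset.range (N + 1)).image g, ?_, ?_, ?_, ?_⟩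
  · simp only [Finset.mem_image, Finset.mem_product, Finset.mem_range]
    rintro _ ⟨x, ⟨a1, a2⟩, rfl⟩
    have n : ∀ i < N + 1, (2 * r * (i : ℝ)) ^ 2 ≤ 1 / 2 := fun i hi => by
      have := pow_le_pow_left₀ i.cast_nonneg ((Nat.cast_le.2 (Nat.lt_succ_iff.1 hi)).trans
        (Nat.floor_le (Real.sqrt_nonneg _))) 2
      rw [sq, le_div_iff₀ (by positivity)] at this
      nlinarith
    refine (abs_le_of_sq_le_sq' ?_ one_pos.le).2
    rw [L.norm_map, EuclideanSpace.real_norm_sq_eq, Fin.sum_univ_two]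
    simpa using (add_le_add (n _ a1) (n _ a2)).trans_eq (add_halves 1)
  · rintro _ a _ a' e
    obtain ⟨x, -, rfl⟩ := Finset.mem_image.1 a
    obtain ⟨y, -, rfl⟩ := Finset.mem_image.1 a'
    exact sep x y fun c => e (c ▸ rfl)
  · rw [Finset.card_image_of_injective _ fun x y e => by_contra fun c => by
      have := sep x y c
      rw [e, dist_self] at this
      linarith]
    have := pow_le_pow_left₀ (Real.sqrt_nonneg _) (Nat.lt_floor_add_one √(1 / (8 * r ^ 2))).le 2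
    rw [sq, div_le_iff₀ (by positivity)] at this
    simp only [Finset.card_product, Finset.card_range]
    push_cast
    nlinarith
  · intro z a
    obtain ⟨x, hx, rfl⟩ := Finset.mem_image.1 a
    refine (k1 x hx).trans_le ?_
    simp only [Function.comp] at *
    rw [zm_apply _ _ k3, zm_apply _ _ k3]
    refine mul_le_mul_right (measure_mono fun y hy => ?_) _
    rw [mem_preimage, mem_ball_iff_norm] at hy ⊢
    have := norm_sub_le_norm_sub_add_norm_sub (l (b (ψ k)) • (y - q (b (ψ k))))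
      (l (b (ψ k)) • (y - p)) (g x)
    rw [← smul_sub, sub_sub_sub_cancel_left, norm_smul, Real.norm_of_nonneg k3.le, norm_sub_rev p] at this
    linarith

end Vale.Agent.P218E
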