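import Vale.Agent.P218E.Spec
import Vale.Agent.P218R.Base

/-!
# P218E, row INV: shrinkers which are invariant under the translations of a line (helper24)
-/

set_option linter.all false

open Set Metric Filter Topology ComplexConjugate
open scoped ContDiff RealInnerProductSpace
open Vale.Agent.P366W Vale.Agent.P218R

noncomputable section

namespace Vale.Agent.P218E

namespace Iv

variable {e a u v : E3}

lemma cr_unit (he : ‖e‖ = 1) (ha : ‖a‖ = 1) (h : ⟪e, a⟫ = 0) : ⟪cr e a, cr e a⟫ = 1 := by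
  rw [real_inner_self_eq_norm_sq, norm_cr_sq, he, ha, h]
  norm_num

lemma par (he : ‖e‖ = 1) (ha : ‖a‖ = 1) (h : ⟪e, a⟫ = 0) (h1 : ⟪v, e⟫ = 0) (h2 : ⟪v, a⟫ = 0) :
    v = ⟪cr e a, v⟫ • cr e a := by
  have := cr_cr (cr e a) v (cr e a)
  rwa [cr_cr v, h1, h2, zero_smul, zero_smul, sub_zero, cr_zero_right, cr_unit he ha h, one_smul,
    eq_comm, sub_eq_zero] at this

/-- the complex coordinate on the plane orthogonal to `e` -/
lemma ex_coord (he : ‖e‖ = 1) : ∃ ζ : E3 →L[ℝ] ℂ, (∀ v, ζ (cr e v) = Complex.I * ζ v) ∧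
    ∀ u v, (ζ u * conj (ζ v)).re = ⟪u, v⟫ - ⟪e, u⟫ * ⟪e, v⟫ := by
  obtain ⟨L, hL⟩ := ex_fr he
  obtain ⟨a, ha, h⟩ : ∃ a : E3, ‖a‖ = 1 ∧ ⟪e, a⟫ = 0 :=
    ⟨L (EuclideanSpace.single 0 1), by simp, hL.2 _⟩
  have ee : ⟪e, e⟫ = 1 := by simp [he]
  have aa : ⟪a, a⟫ = 1 := by simp [ha]
  refine ⟨(innerSL ℝ a).smulRight 1 + (innerSL ℝ (cr e a)).smulRight Complex.I, fun v => ?_,
    fun u v => ?_⟩
  · have : ⟪a, cr e v⟫ = -⟪cr e a, v⟫ := by simp [inner3]; ring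
    have h' : ⟪cr e a, cr e v⟫ = ⟪a, v⟫ := by rw [inner_cr_cr, ee, real_inner_comm e a, h]; ring
    apply Complex.ext <;> simp [this, h']
  · have := congrArg (⟪·, v⟫) (par (v := u - ⟪e, u⟫ • e - ⟪a, u⟫ • a) he ha h
      (by simp [inner_sub_left, inner_smul_left, he, real_inner_comm, h])
      (by simp [inner_sub_left, inner_smul_left, ha, real_inner_comm, h]))
    simp only [inner_sub_left, inner_sub_right, real_inner_smul_left, real_inner_smul_right,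
      real_inner_comm _ (cr e a), inner_cr_left, inner_cr_right] at this
    simp [real_inner_comm _ (cr e a)]
    linarith

variable {S : Srf} (h : S.Ok) (he : ‖e‖ = 1) (hi : ∀ x (t : ℝ), S.w x = 0 → S.w (x + t • e) = 0)
  {x : E3} (hx : S.w x = 0)
include h hi hx

lemma e_n : ⟪e, S.n x⟫ = 0 := by
  have h1 := (h.dw (x + (0 : ℝ) • e)).hasFDerivAt.comp_hasDerivAt (0 : ℝ)
    (((hasDerivAt_id (0 : ℝ)).smul_const e).const_add x)
  have h2 := h1.unique ((hasDerivAt_const (0 : ℝ) (0 : ℝ)).congr_of_eventuallyEq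
    (.of_forall fun t => hi x t hx))
  simpa [h.fderiv_w hx, (h.gpos hx).ne', real_inner_comm] using h2

lemma A_e (v : E3) : ⟪S.A x v, e⟫ = 0 := by
  have h1 := (innerSL ℝ e).hasFDerivAt.comp x (h.dn x).hasFDerivAt
  have := DFunLike.congr_fun (h.tan hx h1.differentiableAt (differentiableAt_const (0 : ℝ))
    (.of_forall fun y hy => e_n h hi hy)) v
  rw [h1.fderiv] at this
  simpa [real_inner_comm, Srf.A_apply] using this

include he in
lemma dn_eq : fderiv ℝ S.n x (cr e (S.n x)) = S.H x • cr e (S.n x) := by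
  have h1 := fun v => par he (h.norm_n hx) (e_n h hi hx) (A_e h hi hx v)
    (real_inner_comm (S.A x v) _ ▸ h.n_A hx v)
  have h2 : S.A x = (innerSL ℝ (cr e (S.n x)) ∘L S.A x).smulRight (cr e (S.n x)) :=
    ContinuousLinearMap.ext h1
  rw [Srf.H, h2, trc_smulRight, ← Srf.P_tan (inner_cr_right e (S.n x)), ← Srf.A_apply,
    Srf.P_tan (inner_cr_right e (S.n x))]
  exact h1 _

end Iv

open Iv in
/-- **Row INV.** -/
theorem inv' (cv : CURVE) (od : ODEG) : INV := fun S e h hφ he hi => by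
  obtain ⟨ζ, z1, z2⟩ := ex_coord he
  have ee : ⟪e, e⟫ = 1 := by simp [he]
  have nz : ∀ x, ‖ζ x‖ ^ 2 = ‖x‖ ^ 2 - ⟪e, x⟫ ^ 2 := fun x => by
    rw [← real_inner_self_eq_norm_sq x, sq ⟪e, x⟫, ← z2, Complex.mul_conj']
    norm_cast
  have ze : ζ e = 0 := by simpa [he] using nz e
  have pe : ∀ x, ⟪e, x - ⟪e, x⟫ • e⟫ = 0 := fun x => by simp [inner_sub_right, inner_smul_right, he]
  have pz : ∀ x, ζ (x - ⟪e, x⟫ • e) = ζ x := fun x => by simp [ze]
  have rd : ∀ x, rad e x = ‖ζ x‖ := fun x =>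
    (sq_eq_sq₀ (norm_nonneg _) (norm_nonneg _)).1 (by rw [← pz, nz, pe]; simp)
  have inj : ∀ x y, ζ x = ζ y → x = y + ⟪e, x - y⟫ • e := fun x y q => by
    have := rd (x - y)
    rw [map_sub, q, sub_self, norm_zero, rad, norm_eq_zero, sub_eq_zero] at this
    rw [← this, add_sub_cancel]
  have inj' : ∀ x y, ⟪e, x⟫ = 0 → ⟪e, y⟫ = 0 → ζ x = ζ y → x = y := fun x y a b q => by
    simpa [inner_sub_right, a, b] using inj x y q
  have mem : ∀ x y, S.w y = 0 → ζ y = ζ x → x ∈ S.G := fun x y a q => inj x y q.symm ▸ hi y _ a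
  have n1 : ∀ x, S.w x = 0 → ‖ζ (S.n x)‖ = 1 := fun x hx =>
    (pow_eq_one_iff_of_nonneg (norm_nonneg _) two_ne_zero).1
      (by simp [nz, h.norm_n hx, e_n h hi hx])
  have ode := (od (fun y => cr e (S.n y)) S.G (fun y => (S.w y, 0))
    (contDiff_cr contDiff_const h.sn) h.closed (fun y => (h.dw y).prodMk (differentiableAt_const _))
    (fun y hy => (norm_cr_le _ _).trans (by rw [he, h.norm_n hy, one_mul])) fun y hy =>
      (h.ev_grad hy).mono fun y' q => ⟨by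
        rw [((h.dw y').hasFDerivAt.prodMk (hasFDerivAt_const _ _)).fderiv]
        simp only [ContinuousLinearMap.prod_apply, ← inner_grad]
        rw [q, real_inner_smul_left, inner_cr_right, mul_zero]
        rfl, fun q => (congrArg Prod.fst q).trans hy⟩).1
  have key : ∀ x ∈ S.G, (∃ ν, ‖ν‖ = 1 ∧ (ζ x * conj ν).re = 0 ∧ ∀ z, (z * conj ν).re = 0 →
      ∃ p ∈ S.G, ⟪e, p⟫ = 0 ∧ ζ p = z ∧ ζ (S.n p) = ν) ∨ (‖ζ x‖ = √2 ∧ ∀ z, ‖z‖ = √2 →
      ∃ p ∈ S.G, ⟪e, p⟫ = 0 ∧ ζ p = z ∧ (z * conj (ζ (S.n p))).re ≠ 0) := fun x hx => by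
    obtain ⟨c, c0, -, hc⟩ := ode _ (mem _ x hx (pz x).symm)
    have d := fun t => (innerSL ℝ e).hasFDerivAt.comp_hasDerivAt t (hc t).1
    have ce : ∀ t, ⟪e, c t⟫ = 0 := fun t =>
      (is_const_of_deriv_eq_zero (fun t => (d t).differentiableAt)
        (fun t => (d t).deriv.trans (inner_cr_left _ _)) t 0).trans (c0 ▸ pe x : ⟪e, c 0⟫ = 0)
    have x0 : ζ x ∈ range fun t => ζ (c t) := ⟨0, by simp only [c0, pz]⟩
    rcases cv (fun t => ζ (c t)) (fun t => ζ (S.n (c t)))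
      (fun t => (ζ.hasFDerivAt.comp_hasDerivAt t (hc t).1).congr_deriv (z1 _))
      (fun t => (ζ.hasFDerivAt.comp_hasDerivAt t
        ((h.dn _).hasFDerivAt.comp_hasDerivAt t (hc t).1)).congr_deriv (by
          rw [dn_eq h he hi (hc t).2, map_smul, z1, z2, ce, zero_mul, sub_zero,
            sub_eq_zero.1 (hφ _ (hc t).2), Complex.real_smul]))
      (fun t => n1 _ (hc t).2) fun s s' q => by rw [inj' _ _ (ce s) (ce s') q] with q | q
    · refine .inl ⟨_, n1 _ (hc 0).2, q.2.subset x0, fun z hz => ?_⟩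
      obtain ⟨s, rfl⟩ := q.2.superset hz
      exact ⟨c s, (hc s).2, ce s, rfl, q.1 s⟩
    · refine .inr ⟨mem_sphere_zero_iff_norm.1 (q.2.subset x0), fun z hz => ?_⟩
      obtain ⟨s, rfl⟩ := q.2.superset (mem_sphere_zero_iff_norm.2 hz)
      refine ⟨c s, (hc s).2, ce s, rfl, ?_⟩
      rcases q.1 with r | r <;> simp [r s, mul_assoc, Complex.mul_conj', n1 _ (hc s).2]
  by_cases hL : ∃ ν : ℂ, ‖ν‖ = 1 ∧ ∀ z, (z * conj ν).re = 0 →
      ∃ p ∈ S.G, ⟪e, p⟫ = 0 ∧ ζ p = z ∧ ζ (S.n p) = ν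
  · obtain ⟨ν, l1, l2⟩ := hL
    obtain ⟨p, p1, p2, p3, rfl⟩ := l2 0 (by simp)
    have r : ∀ x, (ζ x * conj (ζ (S.n p))).re = ⟪S.n p, x⟫ := fun x => by
      rw [z2, e_n h hi p1, mul_zero, sub_zero, real_inner_comm]
    refine .inr (.inl ⟨S.n p, h.norm_n p1, subset_antisymm (fun x hx => ?_) fun x hx => ?_⟩)
    · rcases key x hx with ⟨ν, -, q1, q2⟩ | ⟨-, q⟩
      · obtain ⟨p', -, q3, q4, rfl⟩ := q2 0 (by simp)
        rwa [inj' _ _ q3 p2 (q4.trans p3.symm), r] at q1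
      · obtain ⟨y, -, y1, y2, y3⟩ := l2 ((√2 : ℝ) * Complex.I * ζ (S.n p))
          (by simp [mul_assoc, Complex.mul_conj', l1])
        obtain ⟨y', -, y4, y5, y6⟩ := q ((√2 : ℝ) * Complex.I * ζ (S.n p))
          (by simp [l1, abs_of_nonneg (Real.sqrt_nonneg 2)])
        rw [inj' _ _ y4 y1 (y5.trans y2.symm), y3] at y6
        simp [mul_assoc, Complex.mul_conj', l1] at y6
    · obtain ⟨y, y0, -, y2, -⟩ := l2 (ζ x) ((r x).trans hx)
      exact mem x y y0 y2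
  · replace key := fun x hx => (key x hx).resolve_left fun ⟨ν, q1, _, q2⟩ => hL ⟨ν, q1, q2⟩
    refine S.G.eq_empty_or_nonempty.imp_right fun ⟨p, hp⟩ => .inr
      (subset_antisymm (fun x hx => (rd x).trans (key x hx).1) fun x hx => ?_)
    obtain ⟨y, y0, -, y2, -⟩ := (key p hp).2 (ζ x) ((rd x).symm.trans hx)
    exact mem x y y0 y2

end Vale.Agent.P218E

end
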