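import Vale.Agent.P218E.Calc
import Vale.Agent.P218R.Base
import Vale.Agent.P220.R2.H481.Flow

/-!
# P218E: the rows LDF, FAR, ODEG
-/

open MeasureTheory Metric Filter Topology Set
open scoped ContDiff ENNReal RealInnerProductSpace NNReal
open Vale.Agent.P366.Stmt (E)
open Vale.Agent.P366W
open Vale.Agent.P218R

noncomputable section

namespace Vale.Agent.P218E

/-- derivatives of `a • f ∘ g` for a linear map `g` -/
theorem lin_le {X Y Z : Type} [NormedAddCommGroup X] [NormedSpace ℝ X] [NormedAddCommGroup Y]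
    [NormedSpace ℝ Y] [NormedAddCommGroup Z] [NormedSpace ℝ Z] {f : Y → Z} {s : Set Y}
    (hs : IsOpen s) (hf : ContDiffOn ℝ ∞ f s) (g : X →L[ℝ] Y) {x : X} (hx : g x ∈ s) (a : ℝ)
    (k : ℕ) : ‖iteratedFDeriv ℝ k (fun y => a • f (g y)) x‖ ≤
      |a| * ‖g‖ ^ k * ‖iteratedFDeriv ℝ k f (g x)‖ := by
  have ho := hs.preimage g.continuous
  have h1 : ContDiffAt ℝ k (f ∘ g) x :=
    ((hf.contDiffAt (hs.mem_nhds hx)).of_le (Calc.nat_le k)).comp x g.contDiff.contDiffAt
  rw [show (fun y => a • f (g y)) = fun y => a • (f ∘ g) y from rfl,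
    iteratedFDeriv_const_smul_apply' h1, norm_smul, ← iteratedFDerivWithin_of_isOpen k ho hx,
    g.iteratedFDerivWithin_comp_right hf hs.uniqueDiffOn ho.uniqueDiffOn hx (Calc.nat_le k),
    iteratedFDerivWithin_of_isOpen k hs hx, mul_assoc, Real.norm_eq_abs]
  refine mul_le_mul_of_nonneg_left
    ((ContinuousMultilinearMap.norm_compContinuousLinearMap_le _ _).trans_eq ?_) (abs_nonneg a)
  simp [mul_comm]

namespace Ldf

variable {w F : E3 → ℝ} {p e N x y : E3} {c c' : ℝ} {B B' : ℕ → ℝ}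

theorem mono (h : Ldf w p e c B F) (hc : c' ≤ c) (hB : ∀ k, B k ≤ B' k) : Ldf w p e c' B' F :=
  have s := ball_subset_ball (x := p) hc
  ⟨h.unit, h.sm.mono s, fun x a => h.neg x (s a), fun x a => h.zero x (s a),
    fun x a => h.tilt x (s a), fun k x a => (h.bd k x (s a)).trans (hB k)⟩

theorem cda (h : Ldf w p e c B F) (hx : x ∈ ball p c) : ContDiffAt ℝ ∞ F x :=
  h.sm.contDiffAt (isOpen_ball.mem_nhds hx)

theorem mv (h : Ldf w p e c B F) (hx : x ∈ ball p c) (hy : y ∈ ball p c) :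
    |F x - F y - ⟪e, x - y⟫| ≤ ‖x - y‖ / 100 := by
  have := (convex_ball p c).norm_image_sub_le_of_norm_fderiv_le' (𝕜 := ℝ)
    (fun x hx => (h.cda hx).differentiableAt (by simp)) h.tilt hy hx
  rw [Real.norm_eq_abs, innerSL_apply_apply] at this
  linarith

theorem root (h : Ldf w p e c B F) (hx : ‖x - p‖ + 2 * |F x| < c) :
    ∃ s, |s| ≤ 2 * |F x| ∧ w (x + s • e) = 0 := by
  set a := 2 * |F x| with ha
  have a0 : 0 ≤ a := by positivity
  have hm : ∀ s : ℝ, |s| ≤ a → x + s • e ∈ ball p c := fun s hs => by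
    rw [mem_ball_iff_norm, add_sub_right_comm]
    refine (norm_add_le _ _).trans_lt ?_
    rw [norm_smul, h.unit, Real.norm_eq_abs]
    linarith
  have h0 : x ∈ ball p c := by simpa using hm 0 (by simpa using a0)
  have hv : ∀ s : ℝ, |s| ≤ a → |F (x + s • e) - F x - s| ≤ |s| / 100 := fun s hs => by
    have := h.mv (hm s hs) h0
    rwa [add_sub_cancel_left, real_inner_smul_right, real_inner_self_eq_norm_sq, norm_smul, h.unit,
      one_pow, mul_one, mul_one, Real.norm_eq_abs] at this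
  have hc : ContinuousOn (fun s : ℝ => F (x + s • e)) (Icc (-a) a) :=
    h.sm.continuousOn.comp (by fun_prop) fun s hs => hm s (abs_le.2 hs)
  have h1 := abs_le.1 (hv a (abs_of_nonneg a0).le)
  have h2 := abs_le.1 (hv (-a) (by rw [abs_neg, abs_of_nonneg a0]))
  rw [abs_neg] at h2
  rw [abs_of_nonneg a0] at h1 h2
  obtain ⟨s, hs, h3⟩ := intermediate_value_Icc (by linarith) hc (show (0 : ℝ) ∈ Icc _ _ from
    ⟨by linarith [le_abs_self (F x), h2.2], by linarith [neg_abs_le (F x), h1.1]⟩)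
  exact ⟨s, abs_le.2 hs, (h.zero _ (hm s (abs_le.2 hs))).2 h3⟩

theorem align (h : Ldf w p e c B F) (hp : w p = 0) (hN : ‖N‖ = 1) (h0 : 0 < c') (hc : 2 * c' < c)
    (hx : ∀ x, ‖x - p‖ ≤ 2 * c' → w x = 0 → |⟪x - p, N⟫| ≤ c' / 50) : 9 / 10 ≤ |⟪e, N⟫| := by
  by_contra! ha
  set a : ℝ := ⟪e, N⟫ with ha'
  have ee : ⟪e, e⟫ = 1 := by rw [real_inner_self_eq_norm_sq, h.unit, one_pow]
  have nn : ⟪N, N⟫ = 1 := by rw [real_inner_self_eq_norm_sq, hN, one_pow]
  have a2 : a ^ 2 < 81 / 100 := by rw [← sq_abs]; nlinarith [abs_nonneg a]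
  have m1 : ⟪e, N - a • e⟫ = 0 := by rw [inner_sub_right, real_inner_smul_right, ee]; ring
  have m2 : ⟪N - a • e, N⟫ = 1 - a ^ 2 := by
    rw [inner_sub_left, real_inner_smul_left, nn]; ring
  have m3 : ‖N - a • e‖ ≤ 1 := by
    refine abs_le_of_sq_le_sq' ?_ zero_le_one |>.2
    rw [← real_inner_self_eq_norm_sq, inner_sub_right, m2, real_inner_smul_right,
      real_inner_comm, m1]
    nlinarith [sq_nonneg a]
  set m := N - a • e
  have m4 : ‖p + c' • m - p‖ ≤ c' := by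
    rw [add_sub_cancel_left, norm_smul, Real.norm_of_nonneg h0.le]
    nlinarith
  have hp' : p ∈ ball p c := mem_ball_self (by linarith)
  have h1 := h.mv (mem_ball_iff_norm.2 (m4.trans_lt (by linarith))) hp'
  rw [(h.zero p hp').1 hp, sub_zero, add_sub_cancel_left, real_inner_smul_right, m1, mul_zero,
    sub_zero] at h1
  rw [add_sub_cancel_left] at m4
  obtain ⟨s, hs, h2⟩ := h.root (x := p + c' • m) (by rw [add_sub_cancel_left]; linarith)
  have h3 := hx _ (by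
    rw [add_assoc, add_sub_cancel_left]
    refine (norm_add_le _ _).trans ?_
    rw [norm_smul s, h.unit, Real.norm_eq_abs]
    linarith) h2
  rw [add_assoc, add_sub_cancel_left, inner_add_left, real_inner_smul_left, real_inner_smul_left,
    m2, ← ha'] at h3
  have h4 : |s * a| ≤ c' / 50 := by
    rw [abs_mul]
    nlinarith [abs_nonneg s, abs_nonneg a]
  nlinarith [(abs_le.1 h3).2, (abs_le.1 h4).1]

end Ldf

theorem HasL.mono {w : E3 → ℝ} {p : E3} {c c' : ℝ} {B B' : ℕ → ℝ} (h : HasL w p c B) (hc : c' ≤ c)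
    (hB : ∀ k, B k ≤ B' k) : HasL w p c' B' :=
  let ⟨e, F, h⟩ := h
  ⟨e, F, h.mono hc hB⟩

theorem reg_sc {S : Srf} {b p e : E3} {L : E 2 →ₗᵢ[ℝ] E3} {l r : ℝ} {C : ℕ → ℝ} (hl : 0 < l)
    (h : (S.sc b l).Reg p e L r C) : S.Reg (b + l⁻¹ • p) e L (r / l) C := by
  obtain ⟨v, h1, h2, h3⟩ := h
  have hn : ∀ y : E 2, ‖y‖ < r / l → ‖l • y‖ < r := fun y hy => by
    rwa [norm_smul, Real.norm_of_nonneg hl.le, ← lt_div_iff₀' hl]
  refine ⟨fun y => l⁻¹ • v (l • y), (h1.comp (contDiff_const_smul l).contDiffOn fun y hy =>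
    mem_ball_zero_iff.2 (hn y (mem_ball_zero_iff.1 hy))).const_smul _, fun y hy => ?_,
    fun k y hy => ?_⟩
  · obtain ⟨a1, a2⟩ := h2 _ (hn y hy)
    beta_reduce
    refine ⟨by rwa [smul_eq_mul, abs_mul, abs_of_pos (inv_pos.2 hl), inv_mul_eq_div,
      div_lt_div_iff_of_pos_right hl], fun s hs => ?_⟩
    have := a2 (l * s) (by rwa [abs_mul, abs_of_pos hl, ← lt_div_iff₀' hl])
    simp only [Srf.sc, smul_add, map_smul, smul_smul, inv_mul_cancel₀ hl.ne', one_smul,
      inv_mul_cancel_left₀ hl.ne', ← add_assoc] at this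
    rwa [smul_eq_mul, lt_inv_mul_iff₀ hl, eq_inv_mul_iff_mul_eq₀ hl.ne']
  · have r0 : 0 < r := (norm_nonneg _).trans_lt (hn y hy)
    have g := lin_le isOpen_ball h1 (l • ContinuousLinearMap.id ℝ (E 2)) (x := y)
      (mem_ball_zero_iff.2 (hn y hy)) l⁻¹ k
    rw [norm_smul, ContinuousLinearMap.norm_id, mul_one, Real.norm_of_nonneg hl.le,
      abs_of_pos (inv_pos.2 hl)] at g
    refine g.trans ((mul_le_mul_of_nonneg_left (h3 k _ (hn y hy)) (by positivity)).trans_eq ?_)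
    rw [div_pow]
    field_simp

theorem hasL_of_rg {c : ℝ} (hc : 0 < c) {C : ℕ → ℝ} (hC : C 1 ≤ 1 / 100) {S : Srf} {μ : ℝ} {p : E3}
    (hμ : 0 < μ) (hp : wm S μ p = 0) (h : RG S (μ • p) (c * μ) C) :
    HasL (wm S μ) p c fun k => 2 * c + 1 + |C k| * c / c ^ k := by
  obtain ⟨r, hr, L, hL, v, h1, h2, h3⟩ := h
  set e := S.n (μ • p)
  have r0 : 0 < r := (mul_pos hc hμ).trans_le hr
  set g : E3 →L[ℝ] E 2 := μ • adj L with hg
  have gn : ‖g‖ ≤ μ := ContinuousLinearMap.opNorm_le_bound _ hμ.le fun x => by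
    rw [hg, smul_apply, norm_smul, Real.norm_of_nonneg hμ.le]
    exact mul_le_mul_of_nonneg_left (hL.norm_adj x) hμ.le
  have b1 : ∀ x ∈ ball p c, μ * ‖x - p‖ < r := fun x hx => by
    nlinarith [mem_ball_iff_norm.1 hx]
  have b2 : ∀ x ∈ ball p c, ‖g (x - p)‖ < r := fun x hx =>
    (g.le_of_opNorm_le gn _).trans_lt (b1 x hx)
  have key : ∀ x ∈ ball p c, (wm S μ x < 0 ↔ ⟪e, x - p⟫ - μ⁻¹ • v (g (x - p)) < 0) ∧
      (wm S μ x = 0 ↔ ⟪e, x - p⟫ - μ⁻¹ • v (g (x - p)) = 0) := fun x hx => by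
    have := (h2 _ (b2 x hx)).2 (μ * ⟪e, x - p⟫) (by
      rw [abs_mul, abs_of_pos hμ]
      refine lt_of_le_of_lt (mul_le_mul_of_nonneg_left ?_ hμ.le) (b1 x hx)
      simpa [hL.one] using abs_real_inner_le_norm e (x - p))
    rw [hg, smul_apply, map_smul, mul_smul, add_assoc, ← smul_add, hL.dec, ← smul_add,
      add_sub_cancel] at this
    rwa [sub_neg, sub_eq_zero, smul_eq_mul, lt_inv_mul_iff₀ hμ, eq_inv_mul_iff_mul_eq₀ hμ.ne']
  have s1 : ContDiff ℝ ∞ fun x : E3 => ⟪e, x - p⟫ := contDiff_const.inner ℝ (by fun_prop)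
  have s2 : ∀ x ∈ ball p c, ContDiffAt ℝ ∞ (fun x => μ⁻¹ • v (g (x - p))) x := fun x hx =>
    ((h1.contDiffAt (isOpen_ball.mem_nhds (mem_ball_zero_iff.2 (b2 x hx)))).comp x
      (f := fun x => g (x - p)) (by fun_prop)).const_smul _
  have d2 : ∀ k, ∀ x ∈ ball p c, ‖iteratedFDeriv ℝ k (fun x => μ⁻¹ • v (g (x - p))) x‖ ≤
      μ⁻¹ * μ ^ k * (C k * r / r ^ k) := fun k x hx => by
    rw [iteratedFDeriv_comp_sub (f := fun x => μ⁻¹ • v (g x))]
    refine (lin_le isOpen_ball h1 g (mem_ball_zero_iff.2 (b2 x hx)) _ k).trans ?_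
    rw [abs_of_pos (inv_pos.2 hμ)]
    gcongr
    exact h3 k _ (b2 x hx)
  have tl : ∀ x ∈ ball p c, ‖fderiv ℝ (fun x => ⟪e, x - p⟫ - μ⁻¹ • v (g (x - p))) x -
      innerSL ℝ e‖ ≤ 1 / 100 := fun x hx => by
    have a := d2 1 x hx
    rw [norm_iteratedFDeriv_one, pow_one, pow_one, inv_mul_cancel₀ hμ.ne', one_mul,
      mul_div_cancel_right₀ _ r0.ne'] at a
    have b : HasFDerivAt (fun x : E3 => ⟪e, x - p⟫) (innerSL ℝ e) x := by
      simpa only [inner_sub_right] using! (innerSL ℝ e).hasFDerivAt.sub_const ⟪e, p⟫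
    rw [fderiv_fun_sub b.differentiableAt ((s2 x hx).differentiableAt (by simp)), b.fderiv,
      sub_sub_cancel_left, norm_neg]
    exact a.trans hC
  have hp' : p ∈ ball p c := mem_ball_self hc
  refine ⟨e, _, hL.one, fun x hx => (s1.contDiffAt.sub (s2 x hx)).contDiffWithinAt,
    fun x hx => (key x hx).1, fun x hx => (key x hx).2, tl, fun k x hx => ?_⟩
  have c0 : 0 ≤ |C k| * c / c ^ k := by positivity
  rcases k with _ | k
  · have a := (convex_ball p c).norm_image_sub_le_of_norm_fderiv_le' (𝕜 := ℝ)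
      (fun x hx => (s1.contDiffAt.sub (s2 x hx)).differentiableAt (by simp)) tl hp' hx
    rw [(key p hp').2.1 hp, sub_zero, innerSL_apply_apply, Real.norm_eq_abs] at a
    have b := abs_real_inner_le_norm e (x - p)
    rw [hL.one, one_mul] at b
    rw [norm_iteratedFDeriv_zero, Real.norm_eq_abs]
    have := abs_sub_abs_le_abs_sub (⟪e, x - p⟫ - μ⁻¹ • v (g (x - p))) ⟪e, x - p⟫
    linarith [mem_ball_iff_norm.1 hx]
  · rw [fun_iteratedFDeriv_sub_apply (s1.contDiffAt.of_le (Calc.nat_le _))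
      ((s2 x hx).of_le (Calc.nat_le _))]
    have a := lin_le isOpen_univ contDiffOn_id (innerSL ℝ e) (x := x - p) trivial 1 (k + 1)
    have b := Calc.id_le (k + 1) (by omega) (innerSL ℝ e (x - p))
    rw [innerSL_apply_norm, hL.one, abs_one, one_pow, one_mul, one_mul,
      ← iteratedFDeriv_comp_sub] at a
    simp only [one_smul, id, innerSL_apply_apply] at a b
    have d : μ⁻¹ * μ ^ (k + 1) * (C (k + 1) * r / r ^ (k + 1)) ≤ |C (k + 1)| * c / c ^ (k + 1) := by
      calc _ = C (k + 1) * (μ / r) ^ k := by rw [div_pow]; field_simp; ring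
        _ ≤ |C (k + 1)| * c⁻¹ ^ k := by
          refine mul_le_mul (le_abs_self _) (pow_le_pow_left₀ (by positivity) ?_ k) (by positivity)
            (abs_nonneg _)
          rw [div_le_iff₀ r0, le_inv_mul_iff₀ hc]
          exact hr
        _ = _ := by rw [inv_pow]; field_simp; ring
    linarith [norm_sub_le (iteratedFDeriv ℝ (k + 1) (fun x : E3 => ⟪e, x - p⟫) x)
      (iteratedFDeriv ℝ (k + 1) (fun x => μ⁻¹ • v (g (x - p))) x), d2 (k + 1) x hx, a.trans b]

theorem ldf : LDF :=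
  ⟨fun _ hc _ hC => ⟨_, fun _ _ _ => hasL_of_rg hc hC⟩, fun _ _ _ _ _ _ _ _ h => h.align,
    fun _ _ _ _ _ _ h => ⟨fun _ a _ b => h.mv a b, fun _ => h.root⟩,
    fun _ _ _ _ _ _ _ _ => reg_sc⟩

theorem far (gsl : GSL) : FAR := fun Λ => by
  obtain ⟨C, hC, h⟩ := gsl.1
  have h0 : 0 ≤ C * max Λ 0 := by positivity
  refine ⟨8 + 4 * (C * max Λ 0), by positivity, fun μ y ρ hA hρ h1 hz => ?_⟩
  set D := 8 + 4 * (C * max Λ 0) with hD
  have hA' : AR (max Λ 0) μ := fun x r hr => (hA x r hr).trans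
    (ENNReal.ofReal_le_ofReal (mul_le_mul_of_nonneg_right (le_max_left _ _) (sq_nonneg r)))
  obtain ⟨i1, -⟩ := h _ μ (le_max_right _ _) hA' y ρ hρ
  obtain ⟨i2, b, -⟩ := h _ μ (le_max_right _ _) hA' y (2 * ρ) (by positivity)
  have a : ∫ x, Real.exp (-‖x - y‖ ^ 2 / (4 * ρ ^ 2)) ∂μ ≤
      ∫ x, D⁻¹ * Real.exp (-‖x - y‖ ^ 2 / (4 * (2 * ρ) ^ 2)) ∂μ := by
    refine integral_mono_ae i1 (i2.const_mul _) ?_
    filter_upwards [measure_eq_zero_iff_ae_notMem.1 hz] with x hx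
    rw [mem_ball_iff_norm, not_lt] at hx
    set t := ‖x - y‖
    have e1 : -t ^ 2 / (4 * ρ ^ 2) = -(3 / 16 * (t ^ 2 / ρ ^ 2)) + -t ^ 2 / (4 * (2 * ρ) ^ 2) := by
      field_simp
      ring
    have e2 : t ^ 2 ≤ t ^ 2 / ρ ^ 2 := le_div_self (sq_nonneg t) (by positivity) (by nlinarith)
    rw [e1, Real.exp_add, Real.exp_neg]
    refine mul_le_mul_of_nonneg_right (inv_anti₀ (by positivity) ?_) (Real.exp_pos _).le
    nlinarith [Real.add_one_le_exp (3 / 16 * (t ^ 2 / ρ ^ 2))]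
  rw [integral_const_mul] at a
  rw [gs] at b ⊢
  refine (mul_le_mul_of_nonneg_left a (by positivity)).trans ?_
  rw [mul_left_comm, inv_mul_le_iff₀ (by positivity), show (4 * Real.pi * ρ ^ 2)⁻¹ =
    4 * (4 * Real.pi * (2 * ρ) ^ 2)⁻¹ by field_simp; norm_num, mul_assoc]
  linarith

open Vale.Agent.P220.R2.H481

/-- uniqueness of bounded integral curves -/
theorem ode_uniq {X : E3 → E3} (hX : ContDiff ℝ ∞ X) {f g : ℝ → E3} {a b t₀ R : ℝ} {x : E3}
    (ht : t₀ ∈ Ioo a b) (hf : ∀ t ∈ Ioo a b, HasDerivAt f (X (f t)) t ∧ f t ∈ closedBall x R)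
    (hg : ∀ t ∈ Ioo a b, HasDerivAt g (X (g t)) t ∧ g t ∈ closedBall x R) (h : f t₀ = g t₀) :
    EqOn f g (Ioo a b) := by
  obtain ⟨K, hK⟩ := (hX.of_le one_le).contDiffOn.exists_lipschitzOnWith one_ne_zero
    (convex_closedBall x R) (isCompact_closedBall x R)
  exact ODE_solution_unique_of_mem_Ioo (v := fun _ => X) (fun _ _ => hK) ht hf hg h

theorem odeg : ODEG := fun X K g hX hK hg h1 h2 => by
  refine ⟨fun x hx => ?_, fun c c' hc hc' t t' h s => ?_⟩
  · have key : ∀ n : ℕ, ∃ c : ℝ → E3, c 0 = x ∧ ContDiff ℝ ∞ c ∧ (∀ t, c t ∈ K) ∧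
        ∀ t ∈ Ioo (-(n : ℝ)) n, HasDerivAt c (X (c t)) t ∧ c t ∈ closedBall x n := fun n => by
      let β : ContDiffBump x := ⟨n + 1, n + 2, by positivity, by linarith⟩
      obtain ⟨⟨φ, hφ⟩, -⟩ := exists_gf_of_compactSupport (Y := fun y => β y • X y)
        (β.contDiff.smul hX) 0 (by simpa only [sub_zero] using! β.hasCompactSupport.smul_right)
      have cc := hφ.continuous_curve x
      have hin : ∀ t, φ (t, x) ∈ K := by
        have : IsClopen {t | φ (t, x) ∈ K} := by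
          refine ⟨hK.preimage cc, isOpen_iff_eventually.2 fun t ht => ?_⟩
          have a := (cc.tendsto t).eventually (h2 _ ht)
          obtain ⟨ε, hε, b⟩ := Metric.eventually_nhds_iff_ball.1 a
          filter_upwards [ball_mem_nhds t hε] with u hu
          refine (b u hu).2 ?_
          refine isOpen_ball.is_const_of_deriv_eq_zero (𝕜 := ℝ) (f := fun s => g (φ (s, x)))
            (convex_ball t ε).isPreconnected (fun s _ => ((hg _).hasFDerivAt.comp_hasDerivAt s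
              (hφ.deriv s x)).differentiableAt.differentiableWithinAt) (fun s hs => ?_) hu
            (mem_ball_self hε)
          have := ((hg _).hasFDerivAt.comp_hasDerivAt s (hφ.deriv s x)).deriv
          rwa [map_smul, (b s hs).1, smul_zero] at this
        exact fun t => (this.eq_univ ⟨0, by simpa [hφ.zero] using hx⟩).ge (mem_univ t)
      refine ⟨fun t => φ (t, x), hφ.zero x, hφ.smooth.comp (by fun_prop), hin, fun t ht => ?_⟩
      have a := convex_univ.norm_image_sub_le_of_norm_hasDerivWithin_le (C := 1)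
        (fun s _ => (hφ.deriv s x).hasDerivWithinAt) (fun s _ => by
          rw [norm_smul, Real.norm_of_nonneg β.nonneg]
          exact mul_le_one₀ β.le_one (norm_nonneg _) (h1 _ (hin s))) (mem_univ 0) (mem_univ t)
      rw [hφ.zero, sub_zero, one_mul, Real.norm_eq_abs] at a
      have b : φ (t, x) ∈ closedBall x n := mem_closedBall_iff_norm.2 (a.trans (abs_lt.2 ht).le)
      have d := hφ.deriv t x
      rw [β.one_of_mem_closedBall (closedBall_subset_closedBall (by simp [β]) b), one_smul] at d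
      exact ⟨d, b⟩
    choose c c0 cs cK cd using key
    have hm : ∀ n m : ℕ, n ≤ m → EqOn (c n) (c m) (Ioo (-(n : ℝ)) n) := fun n m hnm t ht => by
      have a : (n : ℝ) ≤ m := by exact_mod_cast hnm
      have n0 : (0 : ℝ) < n := by linarith [ht.1, ht.2]
      exact ode_uniq hX (t₀ := 0) ⟨by linarith, n0⟩
        (fun t ht => ⟨(cd n t ht).1, closedBall_subset_closedBall a (cd n t ht).2⟩)
        (fun t ht => cd m t ⟨by linarith [ht.1], by linarith [ht.2]⟩) (by rw [c0, c0]) ht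
    have hl : ∀ (t : ℝ), t ∈ Ioo (-((⌊|t|⌋₊ + 1 : ℕ) : ℝ)) (⌊|t|⌋₊ + 1 : ℕ) := fun t => by
      rw [mem_Ioo, ← abs_lt]
      exact_mod_cast Nat.lt_floor_add_one _
    have he : ∀ t, (fun t => c (⌊|t|⌋₊ + 1) t) =ᶠ[𝓝 t] c (⌊|t|⌋₊ + 1) := fun t => by
      filter_upwards [isOpen_Ioo.mem_nhds (hl t)] with u hu
      rcases le_total (⌊|u|⌋₊ + 1) (⌊|t|⌋₊ + 1) with a | a
      exacts [hm _ _ a (hl u), (hm _ _ a hu).symm]
    exact ⟨fun t => c (⌊|t|⌋₊ + 1) t, c0 _, contDiff_iff_contDiffAt.2 fun t =>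
      (cs _).contDiffAt.congr_of_eventuallyEq (he t),
      fun t => ⟨(cd _ t (hl t)).1.congr_of_eventuallyEq (he t), cK _ _⟩⟩
  · have bd : ∀ (c : ℝ → E3) (t : ℝ), (∀ t, HasDerivAt c (X (c t)) t) → ∃ R, ∀ R' ≥ R,
        ∀ u ∈ Ioo (-(|s| + 1)) (|s| + 1), HasDerivAt (fun u => c (t + u)) (X (c (t + u))) u ∧
          c (t + u) ∈ closedBall 0 R' := fun c t hc => by
      have cc : Continuous c := continuous_iff_continuousAt.2 fun t => (hc t).continuousAt
      obtain ⟨R, hR⟩ := (isCompact_Icc (a := -(|s| + 1)) (b := |s| + 1)).exists_bound_of_continuousOn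
        (f := fun u => c (t + u)) (by fun_prop)
      exact ⟨R, fun R' hR' u hu => ⟨(hc _).comp_const_add t u,
        mem_closedBall_zero_iff.2 ((hR u (Ioo_subset_Icc_self hu)).trans hR')⟩⟩
    obtain ⟨R, a⟩ := bd c t hc
    obtain ⟨R', b⟩ := bd c' t' hc'
    have := abs_nonneg s
    exact ode_uniq hX (t₀ := 0) ⟨by linarith, by linarith⟩ (a _ (le_max_left R R'))
      (b _ (le_max_right R R')) (by simpa using h) (abs_lt.1 (by linarith))

end Vale.Agent.P218E
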