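import Vale.Agent.P218E.Spec
import Vale.Agent.P218R.Base0

/-!
# P218E, row LINK: the link is a finite union of closed curves
-/

open MeasureTheory Metric Filter Topology Set
open scoped ContDiff ENNReal RealInnerProductSpace
open Vale.Agent.P366W
open Vale.Agent.P218R
open Vale.Agent.P218T (IsLink)

noncomputable section

namespace Vale.Agent.P218E

namespace Link

/-- a compact set in the sphere with a unit normal field and uniform flatness -/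
structure Dat (Γ : Set E3) (ν : E3 → E3) : Prop where
  cpt : IsCompact Γ
  sph : ∀ g ∈ Γ, ‖g‖ = 1
  sm : ContDiff ℝ ∞ ν
  unit : ∀ g ∈ Γ, ‖ν g‖ = 1
  perp : ∀ g ∈ Γ, ⟪ν g, g⟫ = 0
  flat : ∀ ε > (0 : ℝ), ∃ δ > (0 : ℝ), ∀ p ∈ Γ, ∀ x ∈ Γ, ∀ y ∈ Γ, ‖x - p‖ ≤ δ → ‖y - p‖ ≤ δ →
    |⟪ν p, y - x⟫| ≤ ε * ‖y - x‖

/-- integral curves -/
structure Crv (Γ : Set E3) (ν : E3 → E3) (c : ℝ → E3) : Prop where
  sm : ContDiff ℝ ∞ c
  der : ∀ t, HasDerivAt c (cr (c t) (ν (c t))) t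
  mem : ∀ t, c t ∈ Γ

variable {Γ : Set E3} {ν : E3 → E3}

theorem norm_dec {p n : E3} (hp : ‖p‖ = 1) (hn : ‖n‖ = 1) (h : ⟪n, p⟫ = 0) (d : E3) :
    ‖d‖ ^ 2 = ⟪p, d⟫ ^ 2 + ⟪n, d⟫ ^ 2 + ⟪cr p n, d⟫ ^ 2 := by
  have h1 := norm_cr_sq (cr p n) d
  have h2 : cr (cr p n) d = ⟪p, d⟫ • n - ⟪n, d⟫ • p := by
    rw [cr_anti, cr_cr, real_inner_comm p d, real_inner_comm n d, neg_sub]
  have h3 : ‖cr p n‖ ^ 2 = 1 := by rw [norm_cr_sq, hp, hn, real_inner_comm, h]; norm_num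
  rw [h2, h3, norm_sub_sq_real, norm_smul, norm_smul, hp, hn, inner_smul_left, inner_smul_right, h,
    Real.norm_eq_abs, Real.norm_eq_abs, mul_one, mul_one, sq_abs, sq_abs] at h1
  simp only [mul_zero, sub_zero] at h1
  linarith

theorem Dat.norm_X (h : Dat Γ ν) {g : E3} (hg : g ∈ Γ) : ‖cr g (ν g)‖ = 1 := by
  have h3 : ‖cr g (ν g)‖ ^ 2 = 1 := by
    rw [norm_cr_sq, h.sph g hg, h.unit g hg, real_inner_comm, h.perp g hg]; norm_num
  exact (pow_eq_one_iff_of_nonneg (norm_nonneg _) two_ne_zero).1 h3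

theorem Dat.inj (h : Dat Γ ν) : ∃ δ > (0 : ℝ), ∀ p ∈ Γ, ∀ x ∈ Γ, ∀ y ∈ Γ, ‖x - p‖ ≤ δ →
    ‖y - p‖ ≤ δ → ⟪cr p (ν p), x⟫ = ⟪cr p (ν p), y⟫ → x = y := by
  obtain ⟨δ, hδ, hf⟩ := h.flat (1 / 2) (by norm_num)
  refine ⟨min δ (1 / 2), by positivity, fun p hp x hx y hy h1 h2 h3 => ?_⟩
  have h4 := hf p hp x hx y hy (h1.trans (min_le_left _ _)) (h2.trans (min_le_left _ _))
  have h5 := norm_dec (h.sph p hp) (h.unit p hp) (h.perp p hp) (y - x)
  rw [inner_sub_right (cr p (ν p)), h3, sub_self] at h5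
  have h6 : ⟪p, y - x⟫ = -(⟪x - p, y - x⟫ + ⟪y - p, y - x⟫) / 2 := by
    simp only [inner_sub_left, inner_sub_right, real_inner_self_eq_norm_sq, h.sph x hx, h.sph y hy,
      real_inner_comm x y]
    ring
  have h7 : ∀ z, ‖z - p‖ ≤ min δ (1 / 2) → |⟪z - p, y - x⟫| ≤ 1 / 2 * ‖y - x‖ := fun z hz =>
    (abs_real_inner_le_norm _ _).trans
      (mul_le_mul_of_nonneg_right (hz.trans (min_le_right _ _)) (norm_nonneg _))
  have h8 : |⟪p, y - x⟫| ≤ 1 / 2 * ‖y - x‖ := by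
    have a1 := abs_le.1 (h7 x h1)
    have a2 := abs_le.1 (h7 y h2)
    rw [h6, abs_le]
    constructor <;> linarith
  have h9 := sq_le_sq' (abs_le.1 h8).1 (abs_le.1 h8).2
  have h10 := sq_le_sq' (abs_le.1 h4).1 (abs_le.1 h4).2
  have h11 : ‖y - x‖ ^ 2 = 0 := by nlinarith [sq_nonneg ‖y - x‖]
  exact (sub_eq_zero.1 (norm_eq_zero.1 (pow_eq_zero_iff two_ne_zero |>.1 h11))).symm

/-- near a point of an integral curve the set is the curve -/
theorem Dat.loc (h : Dat Γ ν) {c : ℝ → E3} (hc : Crv Γ ν c) (t₀ : ℝ) {ε : ℝ} (hε : 0 < ε) :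
    ∀ᶠ y in 𝓝 (c t₀), y ∈ Γ → ∃ t, |t - t₀| < ε ∧ c t = y := by
  obtain ⟨δ, hδ, hi⟩ := h.inj
  obtain ⟨v, hv⟩ : ∃ v, v = cr (c t₀) (ν (c t₀)) := ⟨_, rfl⟩
  have h1 : HasStrictDerivAt (fun t => ⟪v, c t⟫) 1 t₀ := by
    have a1 : ContDiff ℝ ∞ fun t => ⟪v, c t⟫ := contDiff_const.inner ℝ hc.sm
    have a2 : HasDerivAt (fun t => ⟪v, c t⟫) 1 t₀ := by
      have a3 := (hasDerivAt_const t₀ v).inner ℝ (hc.der t₀)
      rwa [← hv, inner_zero_left, add_zero, real_inner_self_eq_norm_sq, hv, h.norm_X (hc.mem t₀),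
        one_pow, ← hv] at a3
    have a4 := a1.contDiffAt.hasStrictDerivAt (x := t₀) (by simp)
    rwa [a2.deriv] at a4
  have h2 : {t | |t - t₀| < ε ∧ ‖c t - c t₀‖ ≤ δ} ∈ 𝓝 t₀ := by
    filter_upwards [ball_mem_nhds t₀ hε,
      hc.sm.continuous.continuousAt.eventually (closedBall_mem_nhds (c t₀) hδ)] with t a1 a2
    exact ⟨a1, by rwa [dist_eq_norm] at a2⟩
  have h3 := image_mem_map (m := fun t => ⟪v, c t⟫) h2
  rw [h1.map_nhds_eq one_ne_zero] at h3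
  have h4 : ContinuousAt (fun y : E3 => ⟪v, y⟫) (c t₀) := by fun_prop
  filter_upwards [h4.eventually h3, closedBall_mem_nhds (c t₀) hδ] with y a1 a2 hy
  obtain ⟨t, ⟨b1, b2⟩, b3⟩ := a1
  rw [mem_closedBall, dist_eq_norm] at a2
  exact ⟨t, b1, hi _ (hc.mem t₀) _ (hc.mem t) _ hy b2 a2 (by rw [← hv]; exact b3)⟩

/-- existence and uniqueness of integral curves -/
structure Ode (Γ : Set E3) (ν : E3 → E3) : Prop where
  ex : ∀ x ∈ Γ, ∃ c, c 0 = x ∧ Crv Γ ν c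
  uniq : ∀ c c', Crv Γ ν c → Crv Γ ν c' → ∀ t t', c t = c' t' → ∀ s, c (t + s) = c' (t' + s)

theorem Dat.ret (h : Dat Γ ν) (o : Ode Γ ν) {c : ℝ → E3} (hc : Crv Γ ν c) :
    ∃ T > (0 : ℝ), c T = c 0 := by
  obtain ⟨p, hp, φ, hφ, hl⟩ := h.cpt.tendsto_subseq (x := fun n : ℕ => c n) fun n => hc.mem n
  obtain ⟨c', rfl, hc'⟩ := o.ex p hp
  obtain ⟨N, hN⟩ := eventually_atTop.1 (hl.eventually (h.loc hc' 0 (ε := 1 / 4) (by norm_num)))
  obtain ⟨t, a1, a2⟩ := hN N le_rfl (hc.mem _)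
  obtain ⟨t', b1, b2⟩ := hN (N + 1) (by omega) (hc.mem _)
  have h1 : (φ N : ℝ) + 1 ≤ φ (N + 1) := by exact_mod_cast hφ (Nat.lt_succ_self N)
  have h2 := o.uniq _ _ hc hc' _ _ a2.symm (-(φ N : ℝ))
  have h3 := o.uniq _ _ hc hc' _ _ b2.symm (t - t' - φ N)
  rw [sub_zero, abs_lt] at a1 b1
  refine ⟨φ (N + 1) + (t - t' - φ N), by linarith, ?_⟩
  rw [add_neg_cancel] at h2
  rw [h3, h2]
  congr 1
  ring

theorem Dat.per (h : Dat Γ ν) (o : Ode Γ ν) {c : ℝ → E3} (hc : Crv Γ ν c) :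
    ∃ l > (0 : ℝ), (∀ s, c (s + l) = c s) ∧ InjOn c (Ico 0 l) := by
  obtain ⟨T, hT, hT'⟩ := h.ret o hc
  have h1 : ∀ᶠ z in 𝓝[≠] (0 : ℝ), c z ≠ c 0 := (hc.der 0).eventually_ne (by
    rw [← norm_pos_iff, h.norm_X (hc.mem 0)]; exact one_pos)
  obtain ⟨δ, hδ, h2⟩ := Metric.eventually_nhds_iff.1 (eventually_nhdsWithin_iff.1 h1)
  have h3 : ∀ t > (0 : ℝ), c t = c 0 → δ ≤ t := fun t ht e => not_lt.1 fun a =>
    h2 (y := t) (by rwa [Real.dist_eq, sub_zero, abs_of_pos ht]) ht.ne' e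
  have hcl : IsClosed {t | δ ≤ t ∧ c t = c 0} :=
    isClosed_Ici.inter (isClosed_eq hc.sm.continuous continuous_const)
  have hb : BddBelow {t | δ ≤ t ∧ c t = c 0} := ⟨δ, fun t ht => ht.1⟩
  obtain ⟨a1, a2⟩ := hcl.csInf_mem ⟨T, h3 T hT hT', hT'⟩ hb
  refine ⟨_, hδ.trans_le a1, fun s => ?_, ?_⟩
  · have := o.uniq _ _ hc hc _ _ a2 s
    rwa [zero_add, add_comm] at this
  · have key : ∀ s s', s ∈ Ico 0 (sInf {t | δ ≤ t ∧ c t = c 0}) →
        s' ∈ Ico 0 (sInf {t | δ ≤ t ∧ c t = c 0}) → c s' = c s → ¬ s < s' := by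
      intro s s' hs hs' e hlt
      have b1 := o.uniq _ _ hc hc _ _ e (-s)
      rw [add_neg_cancel] at b1
      have b2 := csInf_le hb (a := s' + -s) ⟨h3 _ (by linarith) b1, b1⟩
      linarith [hs.1, hs'.2]
    exact fun s hs s' hs' e =>
      le_antisymm (not_lt.1 (key s' s hs' hs e)) (not_lt.1 (key s s' hs hs' e.symm))

theorem Dat.lnk (h : Dat Γ ν) (o : Ode Γ ν) {c : ℝ → E3} (hc : Crv Γ ν c) :
    ∃ γ n : ℝ → E3, IsLink γ n ∧ Flt Γ γ n ∧ range γ = range c := by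
  obtain ⟨l, hl, h1, h2⟩ := h.per o hc
  have hπ := Real.pi_pos
  obtain ⟨k, hk⟩ : ∃ k, k = l / (2 * Real.pi) := ⟨_, rfl⟩
  have hk0 : 0 < k := by rw [hk]; positivity
  have hkl : k * (2 * Real.pi) = l := by rw [hk]; field_simp
  have hs : ContDiff ℝ ∞ fun θ : ℝ => c (k * θ) := hc.sm.comp (contDiff_const.mul contDiff_id)
  have hd : ∀ θ, deriv (fun θ : ℝ => c (k * θ)) θ = k • cr (c (k * θ)) (ν (c (k * θ))) := by
    intro θ
    have a1 : HasDerivAt (fun θ : ℝ => k * θ) k θ := by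
      simpa using (hasDerivAt_id θ).const_mul k
    exact ((hc.der (k * θ)).scomp θ a1).deriv
  have hp : ∀ θ, c (k * (θ + 2 * Real.pi)) = c (k * θ) := fun θ => by rw [mul_add, hkl, h1]
  refine ⟨fun θ => c (k * θ), fun θ => ν (c (k * θ)), ⟨hs, h.sm.comp hs, hp, fun θ => by rw [hp],
    fun θ => h.sph _ (hc.mem _), ⟨k, hk0, fun θ => ?_⟩, fun θ hθ θ' hθ' e => ?_,
    fun θ => h.unit _ (hc.mem _), fun θ => h.perp _ (hc.mem _), fun θ => ?_⟩,
    fun ε hε => ?_, ?_⟩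
  · rw [hd, norm_smul, h.norm_X (hc.mem _), mul_one, Real.norm_eq_abs, abs_of_pos hk0]
  · have a1 : ∀ θ ∈ Ico 0 (2 * Real.pi), k * θ ∈ Ico 0 l := fun θ hθ =>
      ⟨mul_nonneg hk0.le hθ.1, hkl ▸ mul_lt_mul_of_pos_left hθ.2 hk0⟩
    exact mul_left_cancel₀ hk0.ne' (h2 (a1 θ hθ) (a1 θ' hθ') e)
  · rw [hd, inner_smul_right, inner_cr_right, mul_zero]
  · obtain ⟨δ, hδ, hf⟩ := h.flat ε hε
    refine ⟨δ, hδ, fun θ g hg a1 => ?_⟩
    rw [real_inner_comm]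
    exact hf _ (hc.mem _) _ (hc.mem _) g hg (by simpa using hδ.le) a1
  · refine (range_comp_subset_range (fun θ : ℝ => k * θ) c).antisymm ?_
    rintro _ ⟨t, rfl⟩
    exact ⟨t / k, congrArg c (mul_div_cancel₀ _ hk0.ne')⟩

theorem Dat.main (h : Dat Γ ν) (o : Ode Γ ν) :
    ∃ (n₂ : ℕ) (γ n : Fin n₂ → ℝ → E3), (∀ j, IsLink (γ j) (n j) ∧ Flt Γ (γ j) (n j)) ∧
      (∀ j j' θ θ', γ j θ = γ j' θ' → j = j') ∧ Γ = ⋃ j, range (γ j) := by
  classical
  choose! c hc0 hc using o.ex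
  obtain ⟨t, ht, hcov⟩ := h.cpt.elim_nhds_subcover (fun x => {y | y ∈ Γ → y ∈ range (c x)})
    fun x hx => by
      have a1 := h.loc (hc x hx) 0 one_pos
      rw [hc0 x hx] at a1
      exact a1.mono fun y a2 hy => (a2 hy).imp fun _ a3 => a3.2
  obtain ⟨O, hO⟩ : ∃ O : Finset (Set E3), O = t.image fun x => range (c x) := ⟨_, rfl⟩
  have h1 : ∀ j : Fin O.card, ∃ x ∈ Γ, range (c x) = (O.equivFin.symm j).1 := by
    intro j
    obtain ⟨s, hs⟩ := O.equivFin.symm j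
    rw [hO, Finset.mem_image] at hs
    obtain ⟨x, hx, e⟩ := hs
    exact ⟨x, ht x hx, e⟩
  choose x hx hx' using h1
  choose γ n a1 a2 a3 using fun j => h.lnk o (hc _ (hx j))
  refine ⟨O.card, γ, n, fun j => ⟨a1 j, a2 j⟩, fun j j' θ θ' e => ?_, ?_⟩
  · obtain ⟨s, hs⟩ : γ j θ ∈ range (c (x j)) := a3 j ▸ mem_range_self θ
    obtain ⟨s', hs'⟩ : γ j' θ' ∈ range (c (x j')) := a3 j' ▸ mem_range_self θ'
    have b1 := o.uniq _ _ (hc _ (hx j)) (hc _ (hx j')) s s' (by rw [hs, hs', e])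
    apply O.equivFin.symm.injective
    apply Subtype.ext
    rw [← hx', ← hx']
    apply Subset.antisymm
    · rintro _ ⟨u, rfl⟩
      exact ⟨s' + (u - s), by rw [← b1, add_sub_cancel]⟩
    · rintro _ ⟨u, rfl⟩
      exact ⟨s + (u - s'), by rw [b1, add_sub_cancel]⟩
  · apply Subset.antisymm
    · intro y hy
      obtain ⟨z, hz, b1⟩ := mem_iUnion₂.1 (hcov hy)
      have b2 : range (c z) ∈ O := hO ▸ Finset.mem_image_of_mem _ hz
      refine mem_iUnion.2 ⟨O.equivFin ⟨_, b2⟩, ?_⟩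
      rw [a3, hx', Equiv.symm_apply_apply]
      exact b1 hy
    · refine iUnion_subset fun j => ?_
      rw [a3]
      rintro _ ⟨u, rfl⟩
      exact (hc _ (hx j)).mem u

end Link

open Link in
/-- row LINK -/
theorem link (ode : ODEG) : LINK := by
  intro Γ U om hK hs hom hU hΓU hz hg
  have hG := smooth_gradient hom
  obtain ⟨a, ha, hag⟩ := hK.exists_forall_le' (f := fun x => ‖gradient om x‖) (a := 0)
    hG.continuous.norm.continuousOn fun g h => norm_pos_iff.2 (hg g h).1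
  obtain ⟨ν, hν⟩ : ∃ ν : E3 → E3, ν = fun x => qq (a, gradient om x) • gradient om x := ⟨_, rfl⟩
  have hq : ∀ g ∈ Γ, ν g = ‖gradient om g‖⁻¹ • gradient om g := fun g h => by
    rw [hν]
    simp only
    rw [qq_eq (by rw [abs_of_pos ha]; exact hag g h)]
  have hsm : ContDiff ℝ ∞ ν := by
    rw [hν]
    have h1 : ContDiff ℝ ∞ fun x => qq (a, gradient om x) := contDiff_iff_contDiffAt.2 fun x =>
      (contDiffAt_qq (z := (a, gradient om x)) fun h => absurd h ha.ne').comp x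
        (f := fun x => (a, gradient om x)) (contDiffAt_const.prodMk hG.contDiffAt)
    exact h1.smul hG
  have hd : Differentiable ℝ om := hom.differentiable (by simp)
  have D : Dat Γ ν := by
    refine ⟨hK, hs, hsm, fun g h => ?_, fun g h => ?_, fun ε hε => ?_⟩
    · rw [hq g h]
      exact norm_smul_inv_norm (hg g h).1
    · rw [hq g h, inner_smul_left, real_inner_comm, (hg g h).2, mul_zero]
    · have h1 : UniformContinuousOn (fderiv ℝ om) (closedBall 0 1) :=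
        (isCompact_closedBall 0 1).uniformContinuousOn_of_continuous
          (hom.continuous_fderiv (by simp)).continuousOn
      obtain ⟨δ, hδ, h2⟩ := Metric.uniformContinuousOn_iff_le.1 h1 (ε * a) (by positivity)
      refine ⟨δ, hδ, fun p hp x hx y hy a1 a2 => ?_⟩
      have hb : ∀ g ∈ Γ, g ∈ closedBall (0 : E3) 1 := fun g h => by simp [hs g h]
      have h3 := Convex.norm_image_sub_le_of_norm_fderiv_le' (𝕜 := ℝ) (f := om)
        (s := closedBall 0 1 ∩ closedBall p δ) (φ := fderiv ℝ om p) (C := ε * a) (x := x) (y := y)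
        (fun z _ => hd z) (fun z hz => by rw [← dist_eq_norm]; exact h2 z hz.1 p (hb p hp) hz.2)
        ((convex_closedBall _ _).inter (convex_closedBall _ _))
        ⟨hb x hx, by rwa [mem_closedBall, dist_eq_norm]⟩
        ⟨hb y hy, by rwa [mem_closedBall, dist_eq_norm]⟩
      rw [(hz x (hΓU hx) (hs x hx)).2 hx, (hz y (hΓU hy) (hs y hy)).2 hy, sub_self, zero_sub,
        norm_neg, Real.norm_eq_abs, ← inner_grad] at h3
      have h4 := ha.trans_le (hag p hp)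
      rw [hq p hp, inner_smul_left, abs_mul, conj_trivial, abs_of_pos (inv_pos.2 h4),
        inv_mul_le_iff₀ h4]
      refine h3.trans ?_
      have := mul_le_mul_of_nonneg_right (hag p hp) (mul_nonneg hε.le (norm_nonneg (y - x)))
      linarith
  have hn : Differentiable ℝ fun y : E3 => ‖y‖ ^ 2 := differentiable_id.norm_sq ℝ
  obtain ⟨o1, o2⟩ := ode (fun x => cr x (ν x)) Γ (fun y => (‖y‖ ^ 2, om y))
    (contDiff_cr contDiff_id hsm) hK.isClosed (hn.prodMk hd) (fun x hx => (D.norm_X hx).le)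
    fun x hx => by
      filter_upwards [hU.mem_nhds (hΓU hx)] with y hy
      refine ⟨?_, fun e => ?_⟩
      · rw [(hn y).fderiv_prodMk (hd y), ContinuousLinearMap.prod_apply, ← inner_grad om,
          (hasStrictFDerivAt_norm_sq y).hasFDerivAt.fderiv, hν]
        simp only [cr_smul_right, inner_smul_right, inner_cr_right]
        simp [inner_cr_left]
      · have e1 : ‖y‖ ^ 2 = ‖x‖ ^ 2 := congrArg Prod.fst e
        have e2 : om y = om x := congrArg Prod.snd e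
        rw [hs x hx, one_pow] at e1
        rw [(hz x (hΓU hx) (hs x hx)).2 hx] at e2
        exact (hz y hy ((pow_eq_one_iff_of_nonneg (norm_nonneg _) two_ne_zero).1 e1)).1 e2
  refine D.main ⟨fun x hx => ?_, fun c c' hc hc' => o2 c c' hc.der hc'.der⟩
  obtain ⟨c, a1, a2, a3⟩ := o1 x hx
  exact ⟨c, a1, a2, fun t => (a3 t).1, fun t => (a3 t).2⟩

end Vale.Agent.P218E
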