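import Vale.Agent.P218E.Ray

/-!
# P218E: rows NCY and ISO
-/

open MeasureTheory Metric Filter Topology Set
open scoped ContDiff ENNReal RealInnerProductSpace
open Vale.Agent.P366.Stmt (E)
open Vale.Agent.P366W (Fr adj inner_adj)
open Vale.Agent.P218R

noncomputable section

namespace Vale.Agent.P218E

namespace Ncy

variable {S : Srf} {e x : E3} {Λ G : ℝ}

theorem perp {m : ℕ} (z : E (m + 2)) {c : ℝ} (hc : 0 ≤ c) : ∃ y, ‖y‖ = c ∧ ⟪z, y⟫ = 0 := by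
  obtain ⟨e, he, t, rfl⟩ : ∃ e : E (m + 2), ‖e‖ = 1 ∧ ∃ t : ℝ, z = t • e := by
    by_cases h : z = 0
    · exact (exists_norm_eq _ zero_le_one).imp fun e he => ⟨he, 0, by simp [h]⟩
    · exact ⟨_, norm_smul_inv_norm h, ‖z‖, (smul_inv_smul₀ (norm_ne_zero_iff.2 h) z).symm⟩
  obtain ⟨L, h⟩ := ex_fr he
  obtain ⟨y, hy⟩ := exists_norm_eq (E (m + 1)) hc
  exact ⟨L y, by simpa, by simp [inner_smul_left, h.ort]⟩

theorem rad_le (he : ‖e‖ = 1) (x y : E3) : rad e x ≤ rad e y + ‖x - y‖ := by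
  obtain ⟨L, h⟩ := ex_fr he
  have : ∀ z, rad e z = ‖adj L z‖ := fun z => by
    rw [rad, sub_eq_of_eq_add (h.dec z).symm, L.norm_map]
  rw [this, this]
  exact (norm_le_insert' _ _).trans (add_le_add_right (map_sub (adj L) x y ▸ h.norm_adj _) _)

theorem rad_perp (he : ‖e‖ = 1) (l : ℝ) (h : ⟪e, x⟫ = 0) : rad e (l • e + x) = ‖x‖ := by
  simp [rad, inner_add_right, inner_smul_right, h, he]

theorem rad_smul {c : ℝ} (hc : 0 ≤ c) (x : E3) : rad e (c • x) = c * rad e x := by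
  rw [rad, rad, inner_smul_right, mul_smul, ← smul_sub, norm_smul, Real.norm_of_nonneg hc]

theorem graph {L : E 2 →ₗᵢ[ℝ] E3} {r : ℝ} {C : ℕ → ℝ} (hx : S.w x = 0) (h : S.Reg x e L r C)
    (c1 : C 1 ≤ 1 / 100) {y : E 2} (hy : ‖y‖ < r) :
    ∃ s, |s| ≤ 1 / 100 * ‖y‖ ∧ S.w (x + L y + s • e) = 0 := by
  obtain ⟨v, v1, v2, v3⟩ := h
  have r0 := (norm_nonneg y).trans_lt hy
  have := (convex_ball (0 : E 2) r).norm_image_sub_le_of_norm_fderiv_le (f := v) (C := 1 / 100)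
    (fun z hz => (v1.contDiffAt (isOpen_ball.mem_nhds hz)).differentiableAt (by simp))
    (fun z hz => by
      have := v3 1 z (mem_ball_zero_iff.1 hz)
      rw [norm_iteratedFDeriv_one, pow_one, mul_div_cancel_right₀ _ r0.ne'] at this
      exact this.trans c1) (mem_ball_self r0) (mem_ball_zero_iff.2 hy)
  rw [← ((v2 0 (by simpa)).2 0 (by simpa)).2.1 (by simpa using hx), sub_zero, sub_zero] at this
  exact ⟨v y, this, ((v2 y hy).2 _ (v2 y hy).1).2.2 rfl⟩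

theorem sl {β : ℝ} (h : 0 < β) : S.flow.sl (-β ^ 2) = S.sc 0 β := by
  rw [flow_sl, neg_neg, Real.sqrt_sq h.le]

/-- White's theorem for the flow of a shrinker -/
theorem whs (wh : WH) (Λ : ℝ) : ∃ ε > (0 : ℝ), ∃ c > (0 : ℝ), ∃ C : ℕ → ℝ, C 1 ≤ 1 / 100 ∧
    ∀ (S : Srf) (G r τ β α : ℝ) (x y : E3), Shr S Λ G → 0 < r → 0 ≤ τ → 0 < β →
      β ^ 2 = τ + 4 * r ^ 2 →
      (∀ y ∈ ball x (2 * r), ∀ ρ ∈ Icc r (2 * r), gs S.μ (β⁻¹ • y) (ρ / β) ≤ 1 + ε) → 0 < α →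
      τ < α ^ 2 → α ^ 2 < τ + r ^ 2 → y ∈ ball x r → S.w (α⁻¹ • y) = 0 →
      RG S (α⁻¹ • y) (c * r / α) C ∧ ∃ γ > 0, c * r ≤ 2 * γ ∧ γ ≤ α + c * r ∧
        ∃ z, ‖z - y‖ ≤ c * r ∧ S.w (γ⁻¹ • z) = 0 := by
  obtain ⟨ε, e0, wh⟩ := wh Λ
  obtain ⟨c, c0, C, -, c1, wh⟩ := wh (1 / 100) (by norm_num)
  refine ⟨ε, e0, c, c0, C, c1, fun S G r τ β α x y hS r0 t0 b0 hb hg a0 a1 a2 hy hw => ?_⟩
  have p := mul_pos c0 r0
  obtain ⟨L, h1, h2⟩ := wh _ _ _ (-τ) r x (ssf S Λ G (-β ^ 2 - 1) hS).toOkA r0 (by linarith)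
    (by linarith) (fun y hy ρ hρ => by
      rw [show -τ - 4 * r ^ 2 = -β ^ 2 by linarith, Flw.μ, sl b0, gs_sc _ _ b0, zero_add]
      exact hg y hy ρ hρ) (-α ^ 2) ⟨by linarith, by linarith⟩ y hy
    (by simpa [Srf.flow, Real.sqrt_sq a0.le] using hw)
  rw [show S.flow.n (-α ^ 2, y) = S.n (α⁻¹ • y) by simp [Srf.flow, Real.sqrt_sq a0.le]] at h1 h2
  have g0 : 0 < α ^ 2 + (c * r) ^ 2 / 2 := by positivity
  have g1 := Real.sq_sqrt g0.le
  have g2 := Real.sqrt_pos.2 g0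
  generalize √(α ^ 2 + (c * r) ^ 2 / 2) = γ at g1 g2
  obtain ⟨v, -, h3, -⟩ := h2 (-γ ^ 2) ⟨by nlinarith, by nlinarith⟩
  obtain ⟨h4, h5⟩ := h3 0 (by simpa)
  refine ⟨⟨_, le_rfl, L, h1, (reg_sc 0 a0).1 ?_⟩, γ, g2, by nlinarith, by nlinarith [mul_pos a0 p],
    y + v 0 • S.n (α⁻¹ • y), by simp [norm_smul, h1.one, h4.le], ?_⟩
  · simpa [sl a0, smul_smul, a0.ne', mul_div_cancel₀] using h2 _ ⟨by nlinarith, le_rfl⟩
  · simpa [sl g2, Srf.sc] using (h5 _ h4).2.2 rfl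

theorem emp (he : ‖e‖ = 1) {R l : ℝ} {p : E3}
    (hl : ∀ y, l ≤ y → ∀ p ∈ S.G, ‖p - y • e‖ ≤ R → |rad e p - √2| ≤ 1) (l1 : 1 ≤ l)
    (p0 : 0 < ‖p‖) (p2 : ‖‖p‖⁻¹ • p - e‖ < (2 * l)⁻¹) (β m : ℝ) (q : E3) (b0 : 0 < β)
    (b1 : β ≤ rad e p) (hq : S.w q = 0) (h1 : ‖β • q - p‖ ≤ m) (h2 : rad e p + m ≤ R * β) :
    rad e p ≤ m + 5 / 2 * β := by
  have p3 : 2 * l * ‖p - ‖p‖ • e‖ ≤ ‖p‖ := by
    rw [inv_eq_one_div (2 * l), lt_div_iff₀' (by positivity)] at p2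
    nth_rw 1 [← smul_inv_smul₀ p0.ne' p]
    rw [← smul_sub, norm_smul, norm_norm]
    nlinarith
  have p4 := rad_le he p (‖p‖ • e + 0)
  rw [rad_perp he _ (by simp), add_zero, norm_zero, zero_add] at p4
  have p5 := (abs_le.1 (abs_real_inner_le_norm e (p - ‖p‖ • e))).1
  rw [inner_sub_right, inner_smul_right, real_inner_self_eq_norm_sq, he] at p5
  have p6 : l * rad e p ≤ ⟪e, p⟫ := by nlinarith [norm_nonneg (p - ‖p‖ • e)]
  have h3 := (abs_le.1 (hl (⟪e, p⟫ / β) (by rw [le_div_iff₀ b0]; nlinarith) q hq (by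
    refine le_of_mul_le_mul_left ?_ b0
    rw [← norm_smul_of_nonneg b0.le, smul_sub, smul_smul, mul_div_cancel₀ _ b0.ne']
    linarith [norm_sub_le_norm_sub_add_norm_sub (β • q) p (⟪e, p⟫ • e),
      show ‖p - ⟪e, p⟫ • e‖ = rad e p from rfl]))).2
  have h4 := rad_le he p (β • q)
  rw [rad_smul b0.le, norm_sub_rev] at h4
  have s2 : √2 ≤ 3 / 2 := Real.sqrt_le_iff.2 (by norm_num)
  nlinarith

end Ncy

open Ncy

theorem ncy (wh : WH) : NCY := fun Λ => by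
  obtain ⟨ε, e0, c, c0, C, c1, wh⟩ := whs wh Λ
  refine ⟨C, c1, fun S G e hS he hf => ?_⟩
  have core : ∀ᶠ l : ℝ in atTop, ∀ μ, 2 * l < μ → ∀ p, ‖p - e‖ < (2 * l)⁻¹ → S.w (μ • p) = 0 →
      RG S (μ • p) (c * (2 * l)⁻¹ * μ) C ∧ ∃ γ > 0, c * (2 * l)⁻¹ ≤ 2 * γ ∧
        γ ≤ (1 + c) * (2 * l)⁻¹ ∧ ∃ z, ‖z - p‖ ≤ c * (2 * l)⁻¹ ∧ S.w (γ⁻¹ • z) = 0 := by
    filter_upwards [hf ε e0, eventually_gt_atTop 0] with l h l0 μ hμ p hp hw
    have m0 : 0 < μ := by linarith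
    have m1 := inv_strictAnti₀ (by positivity) hμ
    have e2 : 2 * (2 * l)⁻¹ = l⁻¹ := by field_simp
    obtain ⟨h1, γ, h2, h3, h4, h5⟩ := wh S G (2 * l)⁻¹ 0 l⁻¹ μ⁻¹ e p hS (by positivity) le_rfl
      (by positivity) (by rw [← e2]; ring) (fun y hy ρ ⟨a, b⟩ => h _ (by
        rw [e2, mem_ball_iff_norm, inv_eq_one_div, lt_div_iff₀' l0] at hy
        rwa [inv_inv, mem_ball_iff_norm, ← smul_sub, norm_smul, Real.norm_of_nonneg l0.le]) _
        ⟨by rwa [div_inv_eq_mul, ← div_le_iff₀ l0, div_div, one_div],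
          by rwa [div_le_one (by positivity), ← e2]⟩) (by positivity) (by positivity)
      (by rw [zero_add]; gcongr) (mem_ball_iff_norm.2 hp) (by rwa [inv_inv])
    exact ⟨by rwa [inv_inv, div_inv_eq_mul] at h1, γ, h2, h3, by linarith, h5⟩
  obtain ⟨l, hl, l0⟩ := (core.and (eventually_gt_atTop 0)).exists
  refine ⟨⟨(2 * l)⁻¹, by positivity, c * (2 * l)⁻¹, by positivity,
    (eventually_gt_atTop _).mono fun μ h p a b => (hl μ h p a b).1⟩,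
    ⟨(2 * l)⁻¹ / 2, by positivity, fun e' he' hd hc => ?_⟩, fun hE => ?_⟩
  · obtain ⟨μ, ⟨h1, h2⟩, h3, h4⟩ := ((hc 10 (1 / 2) (by norm_num)).and
      ((eventually_gt_atTop (8 * l)).and (eventually_gt_atTop (10 * l / c)))).exists
    obtain ⟨a, a1, a2⟩ := perp (m := 1) e' (Real.sqrt_nonneg 2)
    have s2 : √2 ≤ 3 / 2 := Real.sqrt_le_iff.2 (by norm_num)
    obtain ⟨p, p1, p2⟩ := h2 (μ • e' + a) (a1 ▸ rad_perp he' μ a2) (by simp [a1]; linarith)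
    have p3 : ‖p - μ • e'‖ ≤ 2 := by
      rw [show p - μ • e' = p - (μ • e' + a) + a by abel]
      linarith [norm_add_le (p - (μ • e' + a)) a]
    have m0 : 0 < μ := by linarith
    obtain ⟨⟨r, r1, L, hL, hr⟩, -⟩ := hl μ (by linarith) (μ⁻¹ • p) (by
      have b1 : μ⁻¹ ≤ (8 * l)⁻¹ := by gcongr
      have b2 : (2 * l)⁻¹ = 4 * (8 * l)⁻¹ := by field_simp; norm_num
      have b3 : ‖μ⁻¹ • p - e'‖ ≤ μ⁻¹ * 2 := by
        rw [← inv_smul_smul₀ m0.ne' e', ← smul_sub, norm_smul, Real.norm_of_nonneg (by positivity)]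
        gcongr
      linarith [norm_sub_le_norm_sub_add_norm_sub (μ⁻¹ • p) e' e]) (by rwa [smul_inv_smul₀ m0.ne'])
    rw [smul_inv_smul₀ m0.ne'] at hL hr
    obtain ⟨y, y1, y2⟩ := perp (m := 0) (adj L e') (c := 5) (by norm_num)
    rw [real_inner_comm, inner_adj, real_inner_comm] at y2
    obtain ⟨s, s1, s3⟩ := graph p1 hr c1 (y := y) (y1.trans_lt (lt_of_lt_of_le (by
      rw [div_lt_iff₀ c0] at h4
      rw [mul_right_comm, ← div_eq_mul_inv, lt_div_iff₀ (by positivity)]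
      linarith) r1))
    have b1 : ‖p - μ • e' + s • S.n p‖ ≤ 2 + 1 / 20 := (norm_add_le _ _).trans (by
      rw [norm_smul, hL.one, Real.norm_eq_abs]; linarith)
    have b2 := rad_le he' (μ • e' + L y) (p + L y + s • S.n p)
    have b3 := (abs_le.1 (h1 _ s3 (by
      rw [show p + L y + s • S.n p - μ • e' = p - μ • e' + s • S.n p + L y by abel]
      linarith [norm_add_le (p - μ • e' + s • S.n p) (L y), L.norm_map y]))).2
    rw [rad_perp he' _ y2, L.norm_map, norm_sub_rev,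
      show p + L y + s • S.n p - (μ • e' + L y) = p - μ • e' + s • S.n p by abel] at b2
    linarith
  obtain ⟨l₀, h0⟩ := eventually_atTop.1 (hE (2 * (1 + c) / c + 1))
  obtain ⟨l, hl, l0, l1⟩ := (core.and ((eventually_gt_atTop 0).and
    (eventually_ge_atTop ((1 + c) * l₀)))).exists
  refine ⟨(2 * l)⁻¹, by positivity, 2 * l + 1, fun x hx h => not_lt.1 fun hd => ?_⟩
  obtain ⟨-, γ, g0, g1, g2, z, z1, z2⟩ := hl ‖x‖ (by linarith) _ hd
    (by rwa [smul_inv_smul₀ (by linarith : 0 < ‖x‖).ne'])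
  have h1 := h0 γ⁻¹ (by
    rw [← div_eq_mul_inv, le_div_iff₀ (by positivity)] at g2
    rw [inv_eq_one_div, le_div_iff₀ g0]
    nlinarith [mul_pos g0 l0, mul_le_mul_of_nonneg_left l1 g0.le]) _ z2
  rw [← smul_sub, norm_smul, Real.norm_of_nonneg (by positivity), inv_mul_eq_div,
    le_div_iff₀ g0, div_add_one c0.ne', div_mul_eq_mul_div, div_le_iff₀ c0] at h1
  have h2 := mul_le_mul_of_nonneg_right ((norm_sub_le_norm_sub_add_norm_sub z _ e).trans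
    (add_le_add z1 hd.le)) c0.le
  nlinarith [mul_pos c0 g0]

theorem iso (wh : WH) (far : FAR) : ISO := fun S Λ G e hS he hc => by
  obtain ⟨ε, e0, c, c0, C, -, wh⟩ := whs wh Λ
  obtain ⟨D, D0, far⟩ := far Λ
  obtain ⟨M, hM⟩ : ∃ M, M = 3 * D + 5 * c + 17 := ⟨_, rfl⟩
  have M0 : 0 < M := by linarith
  have k0 : 0 < M / c := by positivity
  obtain ⟨l, hl, l1⟩ := ((eventually_forall_ge_atTop.2
    (hc (M + D + 3 + 2 * (M / c)) 1 one_pos)).and (eventually_ge_atTop 1)).exists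
  refine ⟨(2 * l)⁻¹, by positivity, 1, fun p hp p1 p2 => not_lt.1 fun hd => ?_⟩
  have emp := emp he (fun y h => (hl y h).1) l1 (by linarith) p2
  by_cases hb : rad e p ≤ M
  · linarith [emp 1 0 p one_pos (by linarith) hp (by simp) (by linarith)]
  obtain ⟨r, hr⟩ : ∃ r, rad e p = M * r := ⟨_, (mul_div_cancel₀ _ M0.ne').symm⟩
  rw [hr] at emp hb
  have r1 : 1 < r := (lt_mul_iff_one_lt_right M0).1 (not_le.1 hb)
  have g0 : 0 < 1 / 2 + 4 * r ^ 2 := by positivity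
  have g1 := Real.sq_sqrt g0.le
  have g2 := Real.sqrt_pos.2 g0
  generalize √(1 / 2 + 4 * r ^ 2) = β at g1 g2
  have b1 : 2 * r ≤ β := by nlinarith
  have b2 : β ≤ 3 * r := by nlinarith
  refine (wh S G r (1 / 2) β 1 p p hS (by linarith) (by norm_num) g2
    g1 (fun y hy ρ ⟨a, b⟩ => (far _ _ _ hS.ar (div_pos (by linarith) g2)
      ((div_le_one g2).2 (by linarith)) (by_contra fun h => ?_)).trans (by linarith)) one_pos
    (by norm_num) (by nlinarith) (mem_ball_self (by linarith)) (by simpa using! hp)).2.elim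
    fun γ ⟨g3, g4, g5, z, z1, z2⟩ => ?_
  swap
  · have := emp γ (c * r) _ g3 (by nlinarith) z2 (by rwa [smul_inv_smul₀ g3.ne']) (by
      have := mul_le_mul_of_nonneg_left g4 k0.le
      rw [← mul_assoc, div_mul_cancel₀ _ c0.ne'] at this
      nlinarith)
    nlinarith
  · obtain ⟨q, q1, q2⟩ := Ray.meets hS.ok (pos_iff_ne_zero.2 h)
    have : ‖β • q - y‖ ≤ β * D := by
      rw [← smul_inv_smul₀ g2.ne' y, ← smul_sub, norm_smul, Real.norm_of_nonneg g2.le]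
      exact mul_le_mul_of_nonneg_left (mem_ball_iff_norm.1 q1).le g2.le
    have := emp β (β * D + β) q g2 (by nlinarith) q2 (by
      linarith [norm_sub_le_norm_sub_add_norm_sub (β • q) y p, mem_ball_iff_norm.1 hy])
      (by nlinarith)
    nlinarith

end Vale.Agent.P218E
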