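import Vale.Agent.P218E.Zm

/-!
# P218E: the rows NOP and DIS
-/

open MeasureTheory Metric Filter Topology Set
open scoped ContDiff ENNReal RealInnerProductSpace NNReal
open Vale.Agent.P366.Stmt (E)
open Vale.Agent.P366W (Fr adj)
open Vale.Agent.P218 (limitSet WeakTendsto)
open Vale.Agent.P218R

noncomputable section

namespace Vale.Agent.P218E

namespace Nop

theorem one {S : Srf} {y : E3} {L : E 2 →ₗᵢ[ℝ] E3} {r e : ℝ} {C : ℕ → ℝ} (hC : C 1 ≤ 1 / 10)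
    (hy : S.w y = 0) (hF : Fr (S.n y) L) (hR : S.Reg y (S.n y) L r C) (he : 2 * e < r) :
    ¬ Pair S y e := by
  rintro ⟨z, hz, hne, h1, h2⟩
  obtain ⟨v, v1, v2, v3⟩ := hR
  have p0 : 0 < ‖z - y‖ := norm_pos_iff.2 (sub_ne_zero.2 hne)
  have hr : 0 < r := by linarith
  have a1 : ‖adj L (z - y)‖ ≤ ‖z - y‖ := hF.norm_adj _
  have a2 : |⟪S.n y, z - y⟫| ≤ ‖z - y‖ := by
    simpa [hF.one] using abs_real_inner_le_norm (S.n y) (z - y)
  have e1 : ⟪S.n y, z - y⟫ = v (adj L (z - y)) :=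
    ((v2 _ (by linarith)).2 _ (by linarith)).2.1 (by
      rw [add_assoc, hF.dec, add_sub_cancel]
      exact hz)
  have e2 : 0 = v 0 := ((v2 0 (by simpa using hr)).2 0 (by simpa using hr)).2.1 (by simpa using hy)
  have l1 := (convex_ball (0 : E 2) r).norm_image_sub_le_of_norm_fderiv_le (𝕜 := ℝ) (f := v)
    (C := 1 / 10) (fun x hx => (v1.contDiffAt (isOpen_ball.mem_nhds hx)).differentiableAt (by simp))
    (fun x hx => by
      have h3 := v3 1 x (mem_ball_zero_iff.1 hx)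
      rw [norm_iteratedFDeriv_one, pow_one, mul_div_assoc, div_self hr.ne', mul_one] at h3
      exact h3.trans hC) (mem_ball_self hr)
    (mem_ball_zero_iff.2 (show ‖adj L (z - y)‖ < r by linarith))
  rw [← e1, ← e2, sub_zero, sub_zero, Real.norm_eq_abs, real_inner_comm] at l1
  linarith

/-- chords between nearby points of a smooth surface are almost tangent -/
theorem chord {S : Srf} (h : S.Ok) {p : E3} (hp : S.w p = 0) : ∃ δ > (0 : ℝ), ∀ x ∈ ball p δ,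
    ∀ z ∈ ball p δ, S.w x = 0 → S.w z = 0 → |⟪z - x, S.n x⟫| ≤ ‖z - x‖ / 4 := by
  have g := h.gpos hp
  have h1 := ((h.sw.contDiffAt (x := p)).hasStrictFDerivAt (by simp)).isLittleO.bound
    (show 0 < ‖gradient S.w p‖ / 8 by positivity)
  have h2 : ∀ᶠ x in 𝓝 p, ‖S.n x - S.n p‖ < 1 / 8 :=
    (tendsto_iff_norm_sub_tendsto_zero.1 h.sn.continuous.continuousAt).eventually_lt_const
      (by norm_num)
  rw [nhds_prod_eq] at h1
  obtain ⟨δ, hδ, hb⟩ := ((nhds_basis_ball (x := p)).prod_self).eventually_iff.1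
    (h1.and (h2.prod_inr (𝓝 p)))
  refine ⟨δ, hδ, fun x hx z hz wx wz => ?_⟩
  obtain ⟨h3, h4⟩ := hb (x := (z, x)) ⟨hz, hx⟩
  simp only [wx, wz, sub_self, zero_sub, norm_neg] at h3 h4
  rw [h.fderiv_w hp, norm_mul, norm_norm, Real.norm_eq_abs, div_mul_eq_mul_div, mul_div_assoc] at h3
  have h5 := le_of_mul_le_mul_left h3 g
  have h6 := abs_real_inner_le_norm (z - x) (S.n x - S.n p)
  have h7 := mul_le_mul_of_nonneg_left h4.le (norm_nonneg (z - x))
  have h8 := abs_add_le ⟪z - x, S.n x - S.n p⟫ ⟪z - x, S.n p⟫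
  rw [← inner_add_right, sub_add_cancel] at h8
  rw [real_inner_comm] at h5
  linarith

theorem two {S : Srf} (R : ℝ) (h : S.Ok) : ∃ e₀ > (0 : ℝ), ∀ e ≤ e₀,
    S.μ {x ∈ ball (0 : E3) R | Pair S x e} = 0 := by
  have hK : IsCompact (S.G ∩ closedBall 0 R) := (isCompact_closedBall _ _).inter_left h.closed
  choose! δ hδ hc using fun p hp => chord h (p := p) hp
  obtain ⟨ρ, hρ, hl⟩ := lebesgue_number_lemma_of_metric (c := fun p : S.G => ball p.1 (δ p)) hK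
    (fun _ => isOpen_ball) fun x hx => mem_iUnion.2 ⟨⟨x, hx.1⟩, mem_ball_self (hδ x hx.1)⟩
  refine ⟨ρ / 4, by positivity, fun e he => ?_⟩
  rw [h.apply, eq_empty_of_forall_notMem (s := _ ∩ S.G), measure_empty]
  rintro x ⟨⟨hx, z, hz, hne, h1, h2⟩, hG⟩
  obtain ⟨p, hp⟩ := hl x ⟨hG, ball_subset_closedBall hx⟩
  have h3 := hc p p.2 x (hp (mem_ball_self hρ)) z (hp (mem_ball_iff_norm.2 (by linarith))) hG hz
  have p0 : 0 < ‖z - x‖ := norm_pos_iff.2 (sub_ne_zero.2 hne)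
  linarith

/-- maximal separated sets -/
theorem net {X : Type*} [PseudoMetricSpace X] {K : Set X} (hK : TotallyBounded K) {r : ℝ}
    (hr : 0 < r) : ∃ Z : Finset X, ↑Z ⊆ K ∧ (Z : Set X).Pairwise (fun z z' => 2 * r ≤ dist z z') ∧
      K ⊆ ⋃ z ∈ Z, ball z (2 * r) := by
  classical
  by_contra hc
  have h1 : ∀ n : ℕ, ∃ Z : Finset X, ↑Z ⊆ K ∧
      (Z : Set X).Pairwise (fun z z' => 2 * r ≤ dist z z') ∧ Z.card = n := by
    intro n
    induction n with
    | zero => exact ⟨∅, by simp, by simp, rfl⟩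
    | succ n ih =>
      obtain ⟨Z, z1, z2, z3⟩ := ih
      obtain ⟨x, hx, hx'⟩ := not_subset.1 fun h => hc ⟨Z, z1, z2, h⟩
      have h2 : ∀ z ∈ Z, 2 * r ≤ dist x z := fun z hz =>
        not_lt.1 fun h => hx' (mem_iUnion₂.2 ⟨z, hz, h⟩)
      have h3 : x ∉ Z := fun h => by
        have h4 := h2 x h
        rw [dist_self] at h4
        linarith
      refine ⟨insert x Z, ?_, ?_, by rw [Finset.card_insert_of_notMem h3, z3]⟩
      · rw [Finset.coe_insert]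
        exact insert_subset hx z1
      · rw [Finset.coe_insert]
        exact z2.insert fun z hz _ => ⟨h2 z hz, dist_comm x z ▸ h2 z hz⟩
  obtain ⟨t, ht, hcov⟩ := Metric.totallyBounded_iff.1 hK r hr
  obtain ⟨Z, z1, z2, z3⟩ := h1 (ht.toFinset.card + 1)
  choose! f f1 f2 using fun z (hz : z ∈ K) => mem_iUnion₂.1 (hcov hz)
  have h4 := Finset.card_le_card_of_injOn (s := Z) (t := ht.toFinset) f
    (fun z hz => ht.mem_toFinset.2 (f1 z (z1 hz))) fun z hz z' hz' e => by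
      by_contra hne
      have h5 := z2 hz hz' hne
      have h6 := mem_ball.1 (f2 z (z1 hz))
      have h7 := mem_ball.1 (f2 z' (z1 hz'))
      rw [e] at h6
      linarith [dist_triangle_right z z' (f z')]
  omega

theorem four {κ : Measure E3} {K : Set E3} {Λ R₀ k m r : ℝ} (hΛ : 0 < Λ) (hA : AR Λ κ) (hr : 0 < r)
    (hK : ∀ z ∈ K, ‖z‖ ≤ R₀) (hm : ENNReal.ofReal m ≤ κ K)
    (hb : ∀ z ∈ K, ENNReal.ofReal ((1 + k) * Real.pi * r ^ 2) < κ (ball z r)) :
    ManyS κ R₀ k (m / (4 * Λ)) r := by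
  obtain ⟨Z, z1, z2, z3⟩ := net ((isCompact_closedBall (0 : E3) R₀).totallyBounded.subset
    fun z hz => mem_closedBall_zero_iff.2 (hK z hz)) hr
  refine ⟨Z, fun z hz => hK z (z1 hz), z2, ?_, fun z hz => hb z (z1 hz)⟩
  have h1 : κ K ≤ ENNReal.ofReal (Z.card * (Λ * (2 * r) ^ 2)) := by
    refine (measure_mono z3).trans ((measure_biUnion_finset_le _ _).trans
      ((Finset.sum_le_sum fun z _ => (measure_mono ball_subset_closedBall).trans
        (hA z _ (by positivity))).trans_eq ?_))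
    rw [Finset.sum_const, nsmul_eq_mul, ENNReal.ofReal_mul (Nat.cast_nonneg _),
      ENNReal.ofReal_natCast]
  have h2 := (ENNReal.ofReal_le_ofReal_iff (by positivity)).1 (hm.trans h1)
  rw [div_le_iff₀ (by positivity)]
  linarith

theorem rsl_gb {F : Flw} {a b t₀ τ Λ G : ℝ} (h : F.Good a b Λ G) (x₀ : E3)
    (h1 : a < t₀ - Real.exp (-2 * τ)) (h2 : t₀ ≤ b) : (F.rsl x₀ t₀ τ).GBd G := by
  refine (h.rs x₀ t₀ (Real.exp_pos τ)).gb _ ?_
  rw [rs_mem (Real.exp_pos τ)]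
  have e : -1 / Real.exp τ ^ 2 = -Real.exp (-2 * τ) := by
    rw [← Real.exp_nat_mul, neg_div, one_div, ← Real.exp_neg]
    norm_num
  rw [e]
  exact ⟨by linarith, by linarith [Real.exp_pos (-2 * τ)]⟩

theorem energy {S : Srf} {Λ G R : ℝ} (h : S.Ok) (hΛ : 0 ≤ Λ) (hA : AR Λ S.μ) (hG : S.GBd G)
    (hR : 0 < R) (h1 : ∫ x in closedBall (0 : E3) (20 * R), S.φ x ^ 2 ∂S.μ ≤ 1) :
    ∫ x in ball (0 : E3) R, S.A2 x ∂S.μ ≤
      G * (1 + (2 + Λ * (20 * R) ^ 2 * ((20 * R) ^ 2 / 2))) := by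
  have := hA.fin
  have hc := isCompact_closedBall (0 : E3) (20 * R)
  have i1 : IntegrableOn (fun x => 2 * S.φ x ^ 2) (closedBall (0 : E3) (20 * R)) S.μ :=
    (continuous_const.mul (h.sφ.continuous.pow 2)).continuousOn.integrableOn_compact hc
  have i2 : IntegrableOn (fun _ => (20 * R) ^ 2 / 2) (closedBall (0 : E3) (20 * R)) S.μ :=
    continuousOn_const.integrableOn_compact hc
  have h2 : ∫ x in closedBall (0 : E3) (20 * R), S.H x ^ 2 ∂S.μ ≤
      ∫ x in closedBall (0 : E3) (20 * R), (2 * S.φ x ^ 2 + (20 * R) ^ 2 / 2) ∂S.μ := by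
    refine setIntegral_mono_on_ae ((h.sH.continuous.pow 2).continuousOn.integrableOn_compact hc)
      (i1.add i2) measurableSet_closedBall (h.ae.mono fun x hx hx' => ?_)
    have h3 := abs_real_inner_le_norm x (S.n x)
    rw [h.norm_n hx, mul_one] at h3
    have h4 := pow_le_pow_left₀ (abs_nonneg _) (h3.trans (mem_closedBall_zero_iff.1 hx')) 2
    rw [sq_abs] at h4
    unfold Srf.φ
    nlinarith [sq_nonneg (S.H x - ⟪x, S.n x⟫)]
  rw [integral_add i1 i2, integral_const_mul, setIntegral_const, smul_eq_mul] at h2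
  have h5 := mul_le_mul_of_nonneg_right (hA.real hΛ (x := 0) (r := 20 * R) (by positivity)
    subset_rfl) (show 0 ≤ (20 * R) ^ 2 / 2 by positivity)
  exact (hG 0 R hR).trans (mul_le_mul_of_nonneg_left (by linarith) (hG.nonneg h))

theorem dsb_le {S : Srf} {Λ R : ℝ} (h : S.Ok) (hA : AR Λ S.μ) {ψ : E3 → ℝ} (hψ : Continuous ψ)
    (hc : HasCompactSupport ψ) (h0 : ∀ x, 0 ≤ ψ x) (h1 : ∀ x ∈ ball (0 : E3) R, ψ x = 1) :
    dsb S R ≤ ENNReal.ofReal (Real.exp (R ^ 2 / 4) *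
      ∫ x, ψ x * Real.exp (-‖x‖ ^ 2 / 4) * S.φ x ^ 2 ∂S.μ) := by
  have := hA.fin
  have hφ := h.sφ.continuous
  have i1 : Integrable (fun x => Real.exp (R ^ 2 / 4) *
      (ψ x * Real.exp (-‖x‖ ^ 2 / 4) * S.φ x ^ 2)) S.μ :=
    (Continuous.integrable_of_hasCompactSupport (by fun_prop) hc.mul_right.mul_right).const_mul _
  rw [← integral_const_mul, ofReal_integral_eq_lintegral_ofReal i1 (Eventually.of_forall fun x => by
    have := h0 x
    positivity)]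
  refine le_trans (setLIntegral_mono' measurableSet_ball fun x hx => ?_)
    (setLIntegral_le_lintegral (ball 0 R) _)
  refine ENNReal.ofReal_le_ofReal ?_
  rw [h1 x hx, one_mul, ← mul_assoc, ← Real.exp_add]
  refine le_mul_of_one_le_left (sq_nonneg _) (Real.one_le_exp ?_)
  linarith [pow_le_pow_left₀ (norm_nonneg x) (mem_ball_zero_iff.1 hx).le 2]

end Nop

open Nop in
theorem nop : NOP := by
  refine ⟨fun S y L r e C => one, fun S R => two R, fun μ κ R₀ k m₀ r hκ _ hw hM => ?_,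
    fun κ K Λ R₀ k m r => four, fun F a b Λ G x₀ κ σ hab hF hκ hσ hw hφ => ?_⟩
  · obtain ⟨Z, z1, z2, z3, z4⟩ := hM
    filter_upwards [(eventually_all_finset Z).2 fun z hz => ev_lt_of_weak hw isOpen_ball (z4 z hz)]
      with i hi
    exact ⟨Z, z1, z2, z3, fun z hz => (hi z hz).le⟩
  · have h1 : ∀ᶠ i in atTop, (F.rsl x₀ b (σ i)).Ok ∧ AR (max Λ 1) (F.rsl x₀ b (σ i)).μ :=
      (ev_time hab hσ).mono fun i hi => ⟨(rsl_ok hF.toOkA x₀ hi le_rfl).1,
        (rsl_ok hF.toOkA x₀ hi le_rfl).2.mono (le_max_left _ _)⟩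
    have h0 : 0 < max Λ 1 := one_pos.trans_le (le_max_right _ _)
    refine ⟨h0, hκ, h1, fun R => ?_, hφ, hw⟩
    rcases le_or_gt R 0 with hR | hR
    · exact ⟨0, Eventually.of_forall fun i => by simp [ball_eq_empty.2 hR]⟩
    · refine ⟨G * (1 + (2 + max Λ 1 * (20 * R) ^ 2 * ((20 * R) ^ 2 / 2))), ?_⟩
      filter_upwards [h1, ev_time hab hσ, (hφ (20 * R)).eventually_lt_const one_pos]
        with i f1 f2 f3
      exact energy f1.1 h0.le f1.2 (rsl_gb hF x₀ f2 le_rfl) hR f3.le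

theorem dis (hH : HUR) : DIS := by
  intro R
  obtain ⟨ψ, f1, -, fc, fb⟩ := exists_continuous_one_zero_of_isCompact
    (isCompact_closedBall (0 : E3) R) isClosed_empty (disjoint_empty _)
  refine ⟨Real.exp (R ^ 2 / 4) * (2 * Real.pi), by positivity,
    fun F a b Λ t₀ τ₁ τ₂ x₀ hF h12 ha hb => ?_⟩
  have hb' : t₀ - Real.exp (-2 * τ₂) < b := by linarith [Real.exp_pos (-2 * τ₂)]
  have hc := ψ.continuous
  have h1 := (hH F a b Λ t₀ τ₁ τ₂ x₀ ψ hF h12 ha hb' hc fc fb).2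
  have h2 := (hH F a b Λ t₀ τ₁ τ₂ x₀ (fun x => ψ x * Real.exp (-‖x‖ ^ 2 / 4)) hF h12 ha hb'
    (by fun_prop) fc.mul_right fun x => ⟨mul_nonneg (fb x).1 (Real.exp_pos _).le,
      mul_le_one₀ (fb x).2 (Real.exp_pos _).le (Real.exp_le_one_iff.2 (by
        linarith [sq_nonneg ‖x‖]))⟩).1
  set g : ℝ → ℝ := fun τ => ∫ x, ψ x * Real.exp (-‖x‖ ^ 2 / 4) * (F.rsl x₀ t₀ τ).φ x ^ 2
    ∂(F.rsl x₀ t₀ τ).μ with hg
  have g0 : ∀ τ, 0 ≤ g τ := fun τ => integral_nonneg fun x => by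
    have := (fb x).1
    positivity
  have g1 : ∀ τ, τ₁ ≤ τ → dsb (F.rsl x₀ t₀ τ) R ≤ ENNReal.ofReal (Real.exp (R ^ 2 / 4) * g τ) := by
    intro τ hτ
    have h3 : Real.exp (-2 * τ) ≤ Real.exp (-2 * τ₁) := Real.exp_le_exp.2 (by linarith)
    obtain ⟨h4, h5⟩ := rsl_ok hF x₀ (τ := τ) (by linarith) hb
    exact Nop.dsb_le h4 h5 hc fc (fun x => (fb x).1) fun x hx => f1 (ball_subset_closedBall hx)
  have i1 : IntegrableOn (fun τ => Real.exp (R ^ 2 / 4) * g τ) (Icc τ₁ τ₂) :=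
    (continuousOn_const.mul h2).integrableOn_Icc
  have p0 : 0 ≤ᵐ[volume.restrict (Icc τ₁ τ₂)] fun τ => Real.exp (R ^ 2 / 4) * g τ :=
    Eventually.of_forall fun τ => mul_nonneg (Real.exp_pos _).le (g0 τ)
  rw [intervalIntegral.integral_of_le h12, ← integral_Icc_eq_integral_Ioc] at h1
  have g2 : 0 ≤ ∫ τ in Icc τ₁ τ₂, g τ := integral_nonneg g0
  have g3 : ∫ τ in Icc τ₁ τ₂, Real.exp (R ^ 2 / 4) * g τ ≤ Real.exp (R ^ 2 / 4) * (2 * Real.pi) *
      (gs (F.rsl x₀ t₀ τ₁).μ 0 1 - gs (F.rsl x₀ t₀ τ₂).μ 0 1) := by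
    rw [integral_const_mul, mul_assoc]
    refine mul_le_mul_of_nonneg_left ?_ (Real.exp_pos _).le
    rw [← inv_mul_le_iff₀ (by positivity)]
    linarith
  refine ⟨?_, ?_, fun h3 h4 => ?_⟩
  · have h3 : 0 ≤ (2 * Real.pi)⁻¹ * ∫ τ in Icc τ₁ τ₂, g τ := by positivity
    linarith
  · refine (setLIntegral_mono' measurableSet_Icc fun τ hτ => g1 τ hτ.1).trans ?_
    rw [← ofReal_integral_eq_lintegral_ofReal i1 p0]
    exact ENNReal.ofReal_le_ofReal g3
  · have hs : Icc (τ₂ - 1) τ₂ ⊆ Icc τ₁ τ₂ := Icc_subset_Icc_left (by linarith)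
    obtain ⟨τ, hτ, h5⟩ := exists_le_setAverage (μ := volume) (s := Icc (τ₂ - 1) τ₂) (by simp)
      (by simp) (i1.mono_set hs)
    rw [setAverage_eq, Real.volume_real_Icc_of_le (by linarith), sub_sub_cancel, inv_one,
      one_smul] at h5
    refine ⟨τ, hτ, (g1 τ (hs hτ).1).trans (ENNReal.ofReal_le_one.2 ?_)⟩
    exact h5.trans ((setIntegral_mono_set i1 p0 (LE.le.eventuallyLE hs)).trans (g3.trans h4))

end Vale.Agent.P218E
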