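import Vale.Agent.P218E.Spec
import Vale.Agent.P218R.Base

/-!
# P218E: a defining function of the asymptotic cone
-/

open MeasureTheory Metric Filter Topology Set
open scoped ContDiff ENNReal RealInnerProductSpace
open Vale.Agent.P366W
open Vale.Agent.P218R

noncomputable section

namespace Vale.Agent.P218E

/-- a local defining function of the cone -/
structure OmL (U : Filter ℝ) (S : Srf) (Γ : Set E3) (ρ : ℝ) (g : E3) (om : E3 → ℝ) : Prop where
  sm : ContDiffOn ℝ ∞ om (ball g (2 * ρ))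
  reg : ∀ x ∈ ball g ρ, fderiv ℝ om x ≠ 0
  neg : ∀ x ∈ ball g ρ, om x < 0 → ∀ᶠ μ in U, wm S μ x < 0
  pos : ∀ x ∈ ball g ρ, 0 < om x → ∀ᶠ μ in U, 0 < wm S μ x
  mem : ∀ x ∈ ball g ρ, ‖x‖ = 1 → om x = 0 → x ∈ Γ
  zero : ∀ y ∈ Γ, ∀ t > (0 : ℝ), t • y ∈ ball g ρ → om (t • y) = 0

theorem ex_omL (h1 : ULIM) (h2 : LDF) {S : Srf} {A : Finset E3} {Γ : Set E3} {c δ ρ : ℝ}
    {B : ℕ → ℝ} (h : Geo S A Γ c δ B) {U : Ultrafilter ℝ} (hU : ↑U ≤ (atTop : Filter ℝ))
    (r0 : 0 < ρ) (r1 : 4 * ρ ≤ c) (r2 : 2 * ρ ≤ δ) {g : E3} (hg : g ∈ Γ) :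
    ∃ om, OmL U S Γ ρ g om := by
  obtain ⟨q, hq⟩ := Eventually.choice (l := U) (r := fun μ (q : E3 × E3 × (E3 → ℝ)) =>
      ‖q.1 - g‖ ≤ ρ ∧ Ldf (wm S μ) q.1 q.2.1 c B q.2.2) (hU (by
    filter_upwards [h.creg, h.con2 ρ r0] with μ a b
    obtain ⟨p, b1, b2⟩ := b g hg
    obtain ⟨e, F, d⟩ := a p ⟨g, hg, by linarith⟩ b1
    exact ⟨(p, e, F), b2, d⟩))
  have s0 : ∀ {p x : E3} {r : ℝ}, ‖p - g‖ ≤ ρ → x ∈ ball g r → ‖x - p‖ < r + ρ :=
    fun {p x r} a b => by
      linarith [dist_triangle_right x p g, mem_ball.1 b, dist_eq_norm x p, dist_eq_norm p g]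
  have s1 : ∀ {p : E3}, ‖p - g‖ ≤ ρ → ball g (2 * ρ) ⊆ ball p c := fun a x hx =>
    mem_ball_iff_norm.2 (by linarith [s0 a hx])
  have s2 : ball g ρ ⊆ ball g (2 * ρ) := ball_subset_ball (by linarith)
  obtain ⟨om, o1, o2⟩ := h1 U (fun μ => (q μ).2.2) g (2 * ρ) B
    (hq.mono fun μ a => ⟨a.2.sm.mono (s1 a.1), fun k x hx => a.2.bd k x (s1 a.1 hx)⟩)
  refine ⟨om, o1, fun x hx => norm_pos_iff.1 (lt_of_lt_of_le (b := 99 / 100) (by norm_num)
    (ge_of_tendsto (o2 x (s2 hx)).2.norm (hq.mono fun μ a => ?_))), fun x hx d => ?_,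
    fun x hx d => ?_, fun x hx d f => h.cpt.isClosed.closure_subset
      (Metric.mem_closure_iff.2 fun ε e0 => ?_), fun y hy t t0 d => ?_⟩
  · have := norm_sub_norm_le (innerSL ℝ (q μ).2.1) (fderiv ℝ (q μ).2.2 x)
    rw [innerSL_apply_norm, a.2.unit, norm_sub_rev] at this
    linarith [a.2.tilt x (s1 a.1 (s2 hx))]
  · filter_upwards [hq, (o2 x (s2 hx)).1.eventually (gt_mem_nhds d)] with μ a b
    exact (a.2.neg x (s1 a.1 (s2 hx))).2 b
  · filter_upwards [hq, (o2 x (s2 hx)).1.eventually (lt_mem_nhds d)] with μ a b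
    exact lt_of_le_of_ne (not_lt.1 fun k => b.not_gt ((a.2.neg x (s1 a.1 (s2 hx))).1 k))
      fun k => b.ne' ((a.2.zero x (s1 a.1 (s2 hx))).1 k.symm)
  · have t1 := (o2 x (s2 hx)).1.abs
    rw [f, abs_zero] at t1
    obtain ⟨μ, a, b1, b2, b3⟩ := (hq.and ((t1.eventually (gt_mem_nhds (half_pos r0))).and
      ((t1.eventually (gt_mem_nhds (show 0 < ε / 8 by positivity))).and
        (hU (h.con1 (ε / 4) (by positivity)))))).exists
    obtain ⟨s, c1, c2⟩ := (h2.2.2.1 _ _ _ _ _ _ a.2).2 x (by linarith [s0 a.1 hx])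
    have c3 : ‖x + s • (q μ).2.1 - x‖ = |s| := by simp [norm_smul, a.2.unit]
    obtain ⟨y, c4, c5⟩ := b3 _ ⟨g, hg, by
      linarith [norm_sub_le_norm_sub_add_norm_sub (x + s • (q μ).2.1) x g,
        mem_ball_iff_norm.1 hx]⟩ c2
    generalize x + s • (q μ).2.1 = z at c3 c5
    have c6 : ‖‖z‖ • y - y‖ = |‖z‖ - ‖x‖| := by
      rw [d, ← one_smul ℝ y, smul_smul, mul_one, ← sub_smul, norm_smul, h.sph y c4, mul_one,
        Real.norm_eq_abs]
    refine ⟨y, c4, ?_⟩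
    rw [dist_eq_norm]
    linarith [norm_sub_le_norm_sub_add_norm_sub x z y, norm_sub_rev x z,
      norm_sub_le_norm_sub_add_norm_sub z (‖z‖ • y) y, abs_norm_sub_norm_le z x]
  · refine abs_nonpos_iff.1 (le_of_forall_pos_le_add fun η e0 => ?_)
    refine le_of_tendsto (o2 _ (s2 d)).1.abs ?_
    have m0 : 0 < min (η / 2) ρ := lt_min (by positivity) r0
    filter_upwards [hq, hU ((tendsto_id.atTop_mul_const t0).eventually
      (h.con2 (min (η / 2) ρ / t) (by positivity)))] with μ a b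
    obtain ⟨p, b1, b2⟩ := b y hy
    have c1 : ‖t • y - t • p‖ ≤ min (η / 2) ρ := by
      rwa [← smul_sub, norm_smul, Real.norm_of_nonneg t0.le, norm_sub_rev, ← le_div_iff₀' t0]
    have c2 : t • p ∈ ball (q μ).1 c := s1 a.1 (mem_ball_iff_norm.2 (by
      linarith [norm_sub_le_norm_sub_add_norm_sub (t • p) (t • y) g, norm_sub_rev (t • p) (t • y),
        mem_ball_iff_norm.1 d, min_le_right (η / 2) ρ]))
    have c3 := (h2.2.2.1 _ _ _ _ _ _ a.2).1 _ (s1 a.1 (s2 d)) _ c2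
    have c4 := abs_real_inner_le_norm (q μ).2.1 (t • y - t • p)
    rw [(a.2.zero _ c2).1 (by simpa only [wm, smul_smul, id] using b1), sub_zero] at c3
    rw [a.2.unit] at c4
    linarith [abs_sub_abs_le_abs_sub ((q μ).2.2 (t • y)) ⟪(q μ).2.1, t • y - t • p⟫,
      min_le_left (η / 2) ρ]

theorem omega' (h1 : ULIM) (h2 : LDF) : OMEGA := by
  intro S A Γ c δ B h
  obtain ⟨ρ, r0, r1, r2⟩ : ∃ ρ > (0 : ℝ), 4 * ρ ≤ c ∧ 2 * ρ ≤ δ :=
    ⟨min (c / 4) (δ / 2), lt_min (by linarith [h.cpos]) (by linarith [h.dpos]),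
      by linarith [min_le_left (c / 4) (δ / 2)], by linarith [min_le_right (c / 4) (δ / 2)]⟩
  choose! o ho using fun g hg => ex_omL h1 h2 h (Ultrafilter.of_le atTop) r0 r1 r2 (g := g) hg
  obtain ⟨t, t1, t2⟩ := h.cpt.elim_nhds_subcover (ball · ρ) fun g _ => ball_mem_nhds g r0
  let b : ∀ g : E3, ContDiffBump g := fun g => ⟨ρ / 2, ρ, by positivity, by linarith⟩
  have b0 : ∀ g x, x ∉ ball g ρ → b g x = 0 := fun g x hx => (b g).zero_of_le_dist (not_lt.1 hx)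
  have sm : ∀ g ∈ t, ContDiff ℝ ∞ fun x => b g x * o g x := fun g hg =>
    contDiff_iff_contDiffAt.2 fun x => by
      by_cases hx : x ∈ ball g (2 * ρ)
      · exact (b g).contDiffAt.mul ((ho g (t1 g hg)).sm.contDiffAt (isOpen_ball.mem_nhds hx))
      · refine contDiffAt_const (c := 0).congr_of_eventuallyEq (mem_of_superset
          (isClosed_closedBall.isOpen_compl.mem_nhds fun d => hx
            (closedBall_subset_ball (show ρ < 2 * ρ by linarith) d)) fun z hz => ?_)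
        simp [b0 g z fun d => hz (ball_subset_closedBall d)]
  have sg : ∀ g ∈ t, ∀ g' ∈ t, ∀ x ∈ ball g ρ, (0 < o g x → 0 ≤ b g' x * o g' x) ∧
      (o g x < 0 → b g' x * o g' x ≤ 0) := fun g hg g' hg' x hx => by
    by_cases hx' : x ∈ ball g' ρ
    · exact ⟨fun a => mul_nonneg (b g').nonneg (not_lt.1 fun d => (((ho g (t1 g hg)).pos x hx a).and
        ((ho g' (t1 g' hg')).neg x hx' d)).exists.elim fun _ k => k.1.not_gt k.2),
        fun a => mul_nonpos_of_nonneg_of_nonpos (b g').nonneg (not_lt.1 fun d =>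
          (((ho g (t1 g hg)).neg x hx a).and ((ho g' (t1 g' hg')).pos x hx' d)).exists.elim
            fun _ k => k.1.not_gt k.2)⟩
    · simp [b0 g' x hx']
  have z0 : ∀ y ∈ Γ, ∀ s > (0 : ℝ), ∀ g ∈ t, b g (s • y) * o g (s • y) = 0 := fun y hy s s0 g hg => by
    by_cases hx : s • y ∈ ball g ρ
    · rw [(ho g (t1 g hg)).zero y hy s s0 hx, mul_zero]
    · rw [b0 g _ hx, zero_mul]
  have z1 : ∀ y ∈ Γ, ∀ g ∈ t, b g y * o g y = 0 := fun y hy g hg => by
    simpa using z0 y hy 1 one_pos g hg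
  have sm' : ContDiff ℝ ∞ fun x => ∑ g ∈ t, b g x * o g x := ContDiff.sum sm
  refine ⟨_, ⋃ g ∈ t, ball g ρ, sm', isOpen_biUnion fun _ _ => isOpen_ball, t2, fun x hx n1 =>
    ⟨fun a => ?_, fun a => Finset.sum_eq_zero (z1 x a)⟩, fun y hy => ⟨grad_ne_iff.2 fun a => ?_, ?_⟩⟩
  · obtain ⟨g, hg, hx⟩ := mem_iUnion₂.1 hx
    have p0 : 0 < b g x := (b g).pos_of_mem_ball hx
    refine (ho g (t1 g hg)).mem x hx n1 (not_not.1 fun d => ?_)
    rcases lt_or_gt_of_ne d with d | d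
    · exact (mul_neg_of_pos_of_neg p0 d).ne ((Finset.sum_eq_zero_iff_of_nonpos
        fun g' hg' => (sg g hg g' hg' x hx).2 d).1 a g hg)
    · exact (mul_pos p0 d).ne' ((Finset.sum_eq_zero_iff_of_nonneg
        fun g' hg' => (sg g hg g' hg' x hx).1 d).1 a g hg)
  · obtain ⟨g, hg, hx⟩ := mem_iUnion₂.1 (t2 hy)
    have p0 : 0 < b g y := (b g).pos_of_mem_ball hx
    have k := ho g (t1 g hg)
    have o0 : o g y = 0 := (mul_eq_zero.1 (z1 y hy g hg)).resolve_left p0.ne'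
    obtain ⟨v, hv⟩ : ∃ v, v = gradient (o g) y := ⟨_, rfl⟩
    have v0 : 0 < fderiv ℝ (o g) y v := by
      rw [← inner_grad, ← hv, real_inner_self_pos, hv]; exact grad_ne_iff.2 (k.reg y hx)
    have l0 : HasDerivAt (fun s : ℝ => y + s • v) v 0 := by
      simpa using ((hasDerivAt_id (0 : ℝ)).smul_const v).const_add y
    have dv : ∀ {f : E3 → ℝ}, DifferentiableAt ℝ f y → f y = 0 → Tendsto
        (fun s : ℝ => s⁻¹ * f (y + s • v)) (𝓝[>] 0) (𝓝 (fderiv ℝ f y v)) := fun {f} d e => by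
      simpa [e] using (HasFDerivAt.comp_hasDerivAt_of_eq 0 d.hasFDerivAt l0
        (by simp)).tendsto_slope_zero_right
    have d1 : DifferentiableAt ℝ (o g) y := (k.sm.contDiffAt (isOpen_ball.mem_nhds
      (ball_subset_ball (by linarith) hx))).differentiableAt (by simp)
    have d2 : DifferentiableAt ℝ (b g) y := (b g).contDiffAt.differentiableAt one_ne_zero
    have e1 := dv (sm'.differentiable (by simp) y) (Finset.sum_eq_zero (z1 y hy))
    have e2 := dv (d2.fun_mul d1) (z1 y hy g hg)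
    rw [fderiv_fun_mul d2 d1, o0, zero_smul, add_zero] at e2
    rw [a] at e1
    refine (mul_pos p0 v0).not_ge (le_of_tendsto_of_tendsto e2 e1 ?_)
    filter_upwards [self_mem_nhdsWithin, (dv d1 o0).eventually (lt_mem_nhds v0),
      nhdsWithin_le_nhds (l0.continuousAt.preimage_mem_nhds (t := ball g ρ)
        (isOpen_ball.mem_nhds (by simpa using hx)))] with s c1 c2 c3
    have c4 : 0 < s⁻¹ := inv_pos.2 c1
    exact mul_le_mul_of_nonneg_left (Finset.single_le_sum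
      (fun g' hg' => (sg g hg g' hg' _ c3).1 ((mul_pos_iff_of_pos_left c4).1 c2)) hg) c4.le
  · have l1 : HasDerivAt (fun s : ℝ => s • y) y 1 := by
      simpa using (hasDerivAt_id (1 : ℝ)).smul_const y
    rw [real_inner_comm, inner_grad]
    exact (HasFDerivAt.comp_hasDerivAt_of_eq 1 (sm'.differentiable (by simp) y).hasFDerivAt l1
      (by simp)).unique ((hasDerivAt_const 1 0).congr_of_eventuallyEq (mem_of_superset
        (lt_mem_nhds one_pos) fun s hs => Finset.sum_eq_zero (z0 y hy s hs)))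

end Vale.Agent.P218E
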