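import Vale.Agent.P218E.Q8A

/-!
# P218E: the pair estimate
-/

open MeasureTheory Metric Filter Topology Set
open scoped ContDiff ENNReal RealInnerProductSpace
open Vale.Agent.P366.Stmt (E)
open Vale.Agent.P366W (contDiff_gradient)
open Vale.Agent.P218R

noncomputable section

namespace Vale.Agent.P218E

namespace Q8

variable {S : Srf} {η : E3 → ℝ} {e Λ : ℝ}

/-- the main term -/
def T (S : Srf) (η : E3 → ℝ) (e : ℝ) (q : E3 × E3) : ℝ :=
  η q.1 ^ 2 * η q.2 ^ 2 * tt S (S.n q.2) q.1 ^ 4 / (‖q.1 - q.2‖ ^ 2 + e) ^ 2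

/-- the antisymmetric term -/
def N (S : Srf) (η : E3 → ℝ) (e : ℝ) (q : E3 × E3) : ℝ :=
  4 * η q.1 ^ 2 * η q.2 ^ 2 * tt S (S.n q.2) q.1 ^ 3 *
    (⟪S.n q.2, q.1 - q.2⟫ ^ 2 - ⟪S.n q.1, q.1 - q.2⟫ ^ 2) / (‖q.1 - q.2‖ ^ 2 + e) ^ 3

/-- the size of the errors -/
def al (S : Srf) (η : E3 → ℝ) (x : E3) : ℝ := η x * ‖S.A x‖ + ‖gradient η x‖

/-- the error term -/
def B (S : Srf) (η : E3 → ℝ) (e : ℝ) (q : E3 × E3) : ℝ :=
  28 * η q.1 * al S η q.1 * (η q.2 ^ 2 *
    (tt S (S.n q.2) q.1 ^ 3 * ‖q.1 - q.2‖ / (‖q.1 - q.2‖ ^ 2 + e) ^ 2))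

theorem N_swap (q : E3 × E3) : N S η e q.swap = -N S η e q := by
  simp only [N, tt, Prod.fst_swap, Prod.snd_swap, ← neg_sub q.1 q.2,
    inner_neg_right, real_inner_comm (S.n q.1) (S.n q.2), norm_neg]
  ring

theorem intg {μ : Measure E3} [IsLocallyFiniteMeasure μ] (hc : HasCompactSupport η)
    {F : E3 × E3 → ℝ} (hF : Continuous F) (h : ∀ q : E3 × E3, η q.1 = 0 ∨ η q.2 = 0 → F q = 0) :
    Integrable F (μ.prod μ) :=
  hF.integrable_of_hasCompactSupport (HasCompactSupport.intro (hc.isCompact.prod hc.isCompact)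
    fun q hq => h q ((not_and_or.1 hq).imp image_eq_zero_of_notMem_tsupport
      image_eq_zero_of_notMem_tsupport))

theorem intg1 {μ : Measure E3} [IsLocallyFiniteMeasure μ] (hc : HasCompactSupport η)
    {F : E3 → ℝ} (hF : Continuous F) (h : ∀ x ∉ tsupport η, F x = 0) : Integrable F μ :=
  hF.integrable_of_hasCompactSupport (HasCompactSupport.intro hc.isCompact h)

theorem grad0 {x : E3} (hx : x ∉ tsupport η) : gradient η x = 0 := by
  rw [gradient, image_eq_zero_of_notMem_tsupport fun h => hx (tsupport_fderiv_subset ℝ h), map_zero]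

theorem lip (hS : S.Ok) (hc : HasCompactSupport η) : ∃ L : ℝ, ∀ x y, S.w x = 0 → S.w y = 0 →
    η x ≠ 0 → η y ≠ 0 → tt S (S.n y) x ≤ L * ‖x - y‖ ^ 2 := by
  obtain ⟨K, hK⟩ := ((hS.sn.of_le one_le).locallyLipschitz.locallyLipschitzOn
    ).exists_lipschitzOnWith_of_compact hc.isCompact
  refine ⟨K ^ 2, fun x y hx hy h1 h2 => ?_⟩
  have h3 := hK.dist_le_mul x (subset_tsupport _ h1) y (subset_tsupport _ h2)
  rw [dist_eq_norm, dist_eq_norm] at h3
  have h4 := norm_sub_sq_real (S.n x) (S.n y)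
  rw [hS.norm_n hx, hS.norm_n hy] at h4
  have h5 := pow_le_pow_left₀ (norm_nonneg _) h3 2
  rw [tt]
  nlinarith [sq_nonneg (⟪S.n x, S.n y⟫ - 1)]

section

variable (hS : S.Ok) (hη : ContDiff ℝ 1 η)
include hS hη

theorem c_al : Continuous (al S η) :=
  (hη.continuous.mul hS.sA.continuous.norm).add
    (contDiff_gradient (k := 0) (by simpa using hη)).continuous.norm

theorem c_T (he : 0 < e) : Continuous (T S η e) := by
  have := hS.sn.continuous
  have := hη.continuous
  unfold T tt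
  exact Continuous.div (by fun_prop) (by fun_prop) fun q => by positivity

theorem c_N (he : 0 < e) : Continuous (N S η e) := by
  have := hS.sn.continuous
  have := hη.continuous
  unfold N tt
  exact Continuous.div (by fun_prop) (by fun_prop) fun q => by positivity

theorem c_B (he : 0 < e) : Continuous (B S η e) := by
  have := hS.sn.continuous
  have := hη.continuous
  have := c_al hS hη
  unfold B tt
  exact Continuous.mul (by fun_prop) (Continuous.mul (by fun_prop)
    (Continuous.div (by fun_prop) (by fun_prop) fun q => by positivity))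

variable (hc : HasCompactSupport η) (h0 : ∀ x, 0 ≤ η x ∧ η x ≤ 1) (hA : AR Λ S.μ)
include hc h0 hA

/-- the first variation -/
theorem step1 (fv : FV) {L : ℝ} (hL : ∀ x y, S.w x = 0 → S.w y = 0 → η x ≠ 0 → η y ≠ 0 →
    tt S (S.n y) x ≤ L * ‖x - y‖ ^ 2) (L0 : 0 ≤ L) (he : 0 < e) {y : E3} (hy : S.w y = 0) :
    ∫ x, (T S η e (x, y) + N S η e (x, y) - B S η e (x, y) -
      4 * e * L ^ 3 * (η x ^ 2 * η y ^ 2)) ∂S.μ ≤ 0 := by
  have := hA.fin
  have hZ : ContDiff ℝ 1 fun z => ff S η (S.n y) y e z • VV S (S.n y) y z :=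
    (sm_ff hS hη he).smul ((sm_VV hS).of_le one_le)
  have cZ : HasCompactSupport fun z => ff S η (S.n y) y e z • VV S (S.n y) y z :=
    HasCompactSupport.intro hc.isCompact fun x hx => by
      simp [ff, image_eq_zero_of_notMem_tsupport hx]
  have h1 := fv S _ hS hZ cZ
  rw [hS.int_congr (g := fun _ => (0 : ℝ)) (f := fun x => S.H x * _) fun x hx => by
    rw [real_inner_smul_right, n_VV hS hx, mul_zero, mul_zero], integral_zero] at h1
  have cx : Continuous fun x : E3 => (x, y) := by fun_prop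
  have ce := hη.continuous
  refine (integral_mono_ae (g := fun x => -η y ^ 2 * S.dv _ x) (intg1 hc
    (((((c_T hS hη he).comp cx).add ((c_N hS hη he).comp cx)).sub ((c_B hS hη he).comp cx)).sub
      (by fun_prop)) fun x hx => by simp [T, N, B, image_eq_zero_of_notMem_tsupport hx])
    (((hS.cdv hZ).integrable_of_hasCompactSupport (Srf.hcs_dv cZ)).const_mul _) ?_).trans
    (by rw [integral_const_mul, h1, mul_zero])
  filter_upwards [hS.ae] with x hx
  have h2 := mul_le_mul_of_nonneg_left (pt (y := y) hS hx (hS.norm_n hy) hη (h0 x).1 he)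
    (sq_nonneg (η y))
  have h3 : η x ^ 2 * η y ^ 2 * (tt S (S.n y) x ^ 4 / (‖x - y‖ ^ 2 + e) ^ 3) ≤
      η x ^ 2 * η y ^ 2 * L ^ 3 := by
    by_cases k1 : η x = 0
    · simp [k1]
    by_cases k2 : η y = 0
    · simp [k2]
    have t0 : 0 ≤ tt S (S.n y) x := by rw [tt_eq hS hx (hS.norm_n hy)]; positivity
    refine mul_le_mul_of_nonneg_left ((div_le_iff₀ (by positivity)).2 ?_) (by positivity)
    calc tt S (S.n y) x ^ 4 ≤ tt S (S.n y) x ^ 3 := pow_le_pow_of_le_one t0 tt_le (by norm_num)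
      _ ≤ (L * (‖x - y‖ ^ 2 + e)) ^ 3 := by
        gcongr
        exact (hL x y hx hy k1 k2).trans (by gcongr; linarith)
      _ = _ := mul_pow _ _ _
  have h4 := mul_le_mul_of_nonneg_left h3 (by positivity : 0 ≤ 4 * e)
  simp only [T, N, B, al, div_eq_mul_inv, Pi.add_apply, Pi.sub_apply, Function.comp_apply]
    at h2 h4 ⊢
  linarith

/-- the absorption -/
theorem step2 (Λ0 : 0 ≤ Λ) (he : 0 < e) {x : E3} (hx : S.w x = 0) :
    ∫ y, B S η e (x, y) ∂S.μ ≤ 1 / 2 * ∫ y, T S η e (x, y) ∂S.μ + 25088 * Λ * al S η x ^ 2 := by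
  have := hA.fin
  have T0 : ∀ y, 0 ≤ T S η e (x, y) := fun y => by unfold T; positivity
  have a0 : 0 ≤ al S η x := by have := (h0 x).1; unfold al; positivity
  by_cases k : η x * al S η x = 0
  · have : ∀ y, B S η e (x, y) = 0 := fun y => by rw [B, mul_assoc 28, k]; simp
    have : 0 ≤ ∫ y, T S η e (x, y) ∂S.μ := integral_nonneg T0
    simp only [*, integral_zero]
    positivity
  have k1 : 0 < η x := (h0 x).1.lt_of_ne' (left_ne_zero_of_mul k)
  have k2 : 0 < al S η x := a0.lt_of_ne' (right_ne_zero_of_mul k)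
  set δ := η x / (56 * al S η x) with hδ
  have δ0 : 0 < δ := by positivity
  have cx : Continuous fun y : E3 => (x, y) := by fun_prop
  have ck : Continuous fun y : E3 => 1 / max δ ‖x - y‖ ^ 3 :=
    Continuous.div (by fun_prop) (by fun_prop) fun y => by positivity
  have kk := kern Λ0 hA x δ0
  have ik : Integrable (fun y : E3 => 1 / max δ ‖x - y‖ ^ 3) S.μ :=
    ⟨ck.aestronglyMeasurable, (hasFiniteIntegral_iff_ofReal
      (Eventually.of_forall fun _ => by positivity)).2 (kk.trans_lt ENNReal.ofReal_lt_top)⟩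
  rw [← ofReal_integral_eq_lintegral_ofReal ik (Eventually.of_forall fun _ => by positivity),
    ENNReal.ofReal_le_ofReal_iff (by positivity)] at kk
  have iT : Integrable (fun y => T S η e (x, y)) S.μ := intg1 hc ((c_T hS hη he).comp cx)
    fun y hy => by simp [T, image_eq_zero_of_notMem_tsupport hy]
  refine (integral_mono_ae (g := fun y => 1 / 2 * T S η e (x, y) +
    28 * η x * al S η x * (1 / max δ ‖x - y‖ ^ 3)) (intg1 hc ((c_B hS hη he).comp cx)
    fun y hy => by simp [B, image_eq_zero_of_notMem_tsupport hy])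
    ((iT.const_mul _).add (ik.const_mul _)) ?_).trans ?_
  · filter_upwards [hS.ae] with y hy
    have t0 : 0 ≤ tt S (S.n y) x := by rw [tt_eq hS hx (hS.norm_n hy)]; positivity
    have h1 := mul_le_mul_of_nonneg_left (absorb t0 tt_le (norm_nonneg (x - y)) δ0 he)
      (sq_nonneg (η y))
    have h2 : η y ^ 2 * (1 / max δ ‖x - y‖ ^ 3) ≤ 1 / max δ ‖x - y‖ ^ 3 :=
      mul_le_of_le_one_left (by positivity) (pow_le_one₀ (h0 y).1 (h0 y).2)
    have h3 : 1 / 2 * T S η e (x, y) = 28 * η x * al S η x *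
        (η y ^ 2 * (δ * (tt S (S.n y) x ^ 4 / (‖x - y‖ ^ 2 + e) ^ 2))) := by
      simp only [T, hδ]
      field_simp
      ring
    simp only [h3]
    rw [← mul_add]
    exact mul_le_mul_of_nonneg_left (by linarith) (by positivity)
  · rw [integral_add (iT.const_mul _) (ik.const_mul _), integral_const_mul, integral_const_mul]
    refine add_le_add_right ((mul_le_mul_of_nonneg_left kk (by positivity)).trans_eq ?_) _
    rw [hδ]
    field_simp
    ring

theorem main (fv : FV) (Λ0 : 0 ≤ Λ) : ∃ D : ℝ, ∀ e > (0 : ℝ), ∫ q, T S η e q ∂S.μ.prod S.μ ≤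
    100352 * Λ * ∫ x, (η x ^ 2 * S.A2 x + ‖gradient η x‖ ^ 2) ∂S.μ + e * D := by
  have := hA.fin
  obtain ⟨L, hL⟩ := lip hS hc
  refine ⟨8 * |L| ^ 3 * ∫ q : E3 × E3, η q.1 ^ 2 * η q.2 ^ 2 ∂S.μ.prod S.μ, fun e he => ?_⟩
  have ce := hη.continuous
  have iT : Integrable (T S η e) (S.μ.prod S.μ) :=
    intg hc (c_T hS hη he) fun q h => by rcases h with h | h <;> simp [T, h]
  have iN : Integrable (N S η e) (S.μ.prod S.μ) :=
    intg hc (c_N hS hη he) fun q h => by rcases h with h | h <;> simp [N, h]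
  have iB : Integrable (B S η e) (S.μ.prod S.μ) :=
    intg hc (c_B hS hη he) fun q h => by rcases h with h | h <;> simp [B, h]
  have iU : Integrable (fun q : E3 × E3 => 4 * e * |L| ^ 3 * (η q.1 ^ 2 * η q.2 ^ 2))
      (S.μ.prod S.μ) := intg hc (by fun_prop) fun q h => by rcases h with h | h <;> simp [h]
  have h1 : ∫ q, (T S η e q + N S η e q - B S η e q - 4 * e * |L| ^ 3 * (η q.1 ^ 2 * η q.2 ^ 2))
      ∂S.μ.prod S.μ ≤ 0 := by
    refine (integral_prod_symm _ (((iT.add iN).sub iB).sub iU)).trans_le (integral_nonpos_of_ae ?_)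
    filter_upwards [hS.ae] with y hy
    exact step1 hS hη hc h0 hA fv (fun x y a b c d => (hL x y a b c d).trans
      (by gcongr; exact le_abs_self L)) (abs_nonneg L) he hy
  have h2 : ∫ q, N S η e q ∂S.μ.prod S.μ = 0 := by
    have := integral_prod_swap (μ := S.μ) (ν := S.μ) (N S η e)
    simp only [N_swap, integral_neg] at this
    linarith
  have cg := (contDiff_gradient (k := 0) (f := η) (by simpa using hη)).continuous
  have cA := hS.sA2.continuous
  have iA : Integrable (fun x => η x ^ 2 * S.A2 x + ‖gradient η x‖ ^ 2) S.μ :=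
    intg1 hc (by fun_prop) fun x hx => by simp [image_eq_zero_of_notMem_tsupport hx, grad0 hx]
  have h3 : ∫ q, B S η e q ∂S.μ.prod S.μ ≤ 1 / 2 * ∫ q, T S η e q ∂S.μ.prod S.μ +
      50176 * Λ * ∫ x, (η x ^ 2 * S.A2 x + ‖gradient η x‖ ^ 2) ∂S.μ := by
    rw [integral_prod _ iB, integral_prod _ iT, ← integral_const_mul, ← integral_const_mul,
      ← integral_add (iT.integral_prod_left.const_mul _) (iA.const_mul _)]
    refine integral_mono_ae iB.integral_prod_left
      ((iT.integral_prod_left.const_mul _).add (iA.const_mul _)) ?_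
    filter_upwards [hS.ae] with x hx
    refine (step2 hS hη hc h0 hA Λ0 he hx).trans (add_le_add_right ?_ _)
    have k : al S η x ^ 2 ≤ 2 * (η x ^ 2 * S.A2 x + ‖gradient η x‖ ^ 2) := by
      rw [al]
      nlinarith [mul_le_mul_of_nonneg_left (hS.norm_A_sq hx) (sq_nonneg (η x)),
        sq_nonneg (η x * ‖S.A x‖ - ‖gradient η x‖)]
    nlinarith [mul_le_mul_of_nonneg_left k Λ0]
  rw [integral_sub (f := fun q => T S η e q + N S η e q - B S η e q) ((iT.add iN).sub iB) iU,
    integral_sub (f := fun q => T S η e q + N S η e q) (iT.add iN) iB, integral_add iT iN, h2,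
    integral_const_mul] at h1
  linarith

end

end Q8

open Q8

theorem q8 (fv : FV) : Q8 := by
  refine ⟨100352, by norm_num, fun S Λ η hS Λ0 hA hη hc h0 => ?_⟩
  have := hA.fin
  obtain ⟨D, hD⟩ := main hS hη hc h0 hA fv Λ0
  have ce := hη.continuous
  have cn := hS.sn.continuous
  rw [lintegral_lintegral (Measurable.aemeasurable (by
    refine Measurable.ennreal_ofReal (Measurable.div ?_ ?_) <;>
      exact Continuous.measurable (by fun_prop)))]
  have t1 : Tendsto (fun e : ℝ => e) (𝓝[>] 0) (𝓝 0) := nhdsWithin_le_nhds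
  calc _ ≤ ∫⁻ q, liminf (fun e => ENNReal.ofReal (T S η |e| q)) (𝓝[>] 0) ∂S.μ.prod S.μ := by
        refine lintegral_mono fun q => ?_
        by_cases h : q.1 - q.2 = 0
        · simp [h]
        · have k : 0 < ‖q.1 - q.2‖ := norm_pos_iff.2 h
          refine (Tendsto.liminf_eq (ENNReal.tendsto_ofReal ?_)).ge
          have := (((t1.abs.const_add (‖q.1 - q.2‖ ^ 2)).pow 2).inv₀ (by simpa using h)).const_mul
            (η q.1 ^ 2 * η q.2 ^ 2 * tt S (S.n q.2) q.1 ^ 4)
          simp only [abs_zero, add_zero, ← pow_mul] at this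
          exact this
    _ ≤ liminf (fun e => ∫⁻ q, ENNReal.ofReal (T S η |e| q) ∂S.μ.prod S.μ) (𝓝[>] 0) := by
        refine lintegral_liminf_le fun e => ?_
        unfold T tt
        refine Measurable.ennreal_ofReal (Measurable.div ?_ ?_) <;>
          exact Continuous.measurable (by fun_prop)
    _ ≤ liminf (fun e => ENNReal.ofReal (100352 * Λ *
          ∫ x, (η x ^ 2 * S.A2 x + ‖gradient η x‖ ^ 2) ∂S.μ + e * D)) (𝓝[>] 0) := by
        refine liminf_le_liminf ?_
        filter_upwards [self_mem_nhdsWithin] with e (he : 0 < e)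
        rw [abs_of_pos he, ← ofReal_integral_eq_lintegral_ofReal
          (intg hc (c_T hS hη he) fun q h => by rcases h with h | h <;> simp [T, h])
          (Eventually.of_forall fun q => by unfold T; positivity)]
        exact ENNReal.ofReal_le_ofReal (hD e he)
    _ = _ := by
        refine Tendsto.liminf_eq (ENNReal.tendsto_ofReal ?_)
        simpa using (t1.mul_const D).const_add _

end Vale.Agent.P218E
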