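import Vale.Agent.P218E.Spec

/-!
# P218E, row ROOT: the graph function of an end
-/

set_option linter.all false

open Metric Filter Topology Set
open scoped ContDiff
open Vale.Agent.P218T (Decays)

noncomputable section

namespace Vale.Agent.P218E

namespace Rt

/-- roots on a segment -/
lemma root1 {g g' : ℝ → ℝ} {τ a η : ℝ} (ha : 0 < a) (hη : 0 < η) (h : η / a < τ)
    (hd : ∀ t, |t| < τ → HasDerivAt g (g' t) t) (hb : ∀ t, |t| < τ → a ≤ |g' t|)
    (h0 : |g 0| ≤ η) : InjOn g {t | |t| < τ} ∧ ∃ t, |t| ≤ η / a ∧ g t = 0 := by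
  have mv : ∀ s t, |s| < τ → |t| < τ → s < t → a * (t - s) ≤ |g t - g s| := fun s t hs ht hst => by
    have m : ∀ x ∈ Icc s t, |x| < τ := fun x hx =>
      abs_lt.2 ⟨(abs_lt.1 hs).1.trans_le hx.1, hx.2.trans_lt (abs_lt.1 ht).2⟩
    obtain ⟨c, hc, e⟩ := exists_hasDerivAt_eq_slope g g' hst
      (fun x hx => (hd x (m x hx)).continuousAt.continuousWithinAt)
      fun x hx => hd x (m x (Ioo_subset_Icc_self hx))
    have := hb c (m c (Ioo_subset_Icc_self hc))
    rwa [e, abs_div, abs_of_pos (sub_pos.2 hst), le_div_iff₀ (sub_pos.2 hst)] at this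
  have inj : InjOn g {t | |t| < τ} := fun s hs t ht e => by
    by_contra n
    rcases lt_or_gt_of_ne n with l | l
    · have := mv s t hs ht l
      rw [e, sub_self, abs_zero] at this
      nlinarith
    · have := mv t s ht hs l
      rw [e, sub_self, abs_zero] at this
      nlinarith
  refine ⟨inj, ?_⟩
  set r := η / a
  have r0 : 0 < r := by positivity
  have er : a * r = η := mul_div_cancel₀ _ ha.ne'
  have m : ∀ x ∈ Icc (-r) r, |x| < τ := fun x hx => (abs_le.2 hx).trans_lt h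
  have hc : ContinuousOn g (Icc (-r) r) := fun x hx =>
    (hd x (m x hx)).continuousAt.continuousWithinAt
  have m0 : (0 : ℝ) ∈ Icc (-r) r := ⟨by linarith, r0.le⟩
  have m1 : r ∈ Icc (-r) r := ⟨by linarith, le_rfl⟩
  have m2 : -r ∈ Icc (-r) r := ⟨le_rfl, by linarith⟩
  have k1 := mv 0 r (m _ m0) (m _ m1) r0
  have k2 := mv (-r) 0 (m _ m2) (m _ m0) (by linarith)
  rw [sub_zero, er] at k1
  rw [sub_neg_eq_add, zero_add, er] at k2
  obtain ⟨a1, a2⟩ := abs_le.1 h0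
  rcases hc.strictMonoOn_of_injOn_Icc' (by linarith) (inj.mono m) with k | k
  · rw [abs_of_pos (sub_pos.2 (k m0 m1 r0))] at k1
    rw [abs_of_pos (sub_pos.2 (k m2 m0 (by linarith)))] at k2
    obtain ⟨t, ht, e⟩ := intermediate_value_Icc (by linarith) hc
      (show (0 : ℝ) ∈ Icc (g (-r)) (g r) from ⟨by linarith, by linarith⟩)
    exact ⟨t, abs_le.2 ht, e⟩
  · rw [abs_of_neg (sub_neg.2 (k m0 m1 r0))] at k1
    rw [abs_of_neg (sub_neg.2 (k m2 m0 (by linarith)))] at k2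
    obtain ⟨t, ht, e⟩ := intermediate_value_Icc' (by linarith) hc
      (show (0 : ℝ) ∈ Icc (g r) (g (-r)) from ⟨by linarith, by linarith⟩)
    exact ⟨t, abs_le.2 ht, e⟩

/-- interpolation -/
lemma interp {X Y : Type*} [NormedAddCommGroup X] [NormedSpace ℝ X] [NormedAddCommGroup Y]
    [NormedSpace ℝ Y] {G : X → Y} {y : X} {h ε B : ℝ} (hh : 0 < h)
    (d1 : ∀ z ∈ closedBall y h, DifferentiableAt ℝ G z)
    (d2 : ∀ z ∈ closedBall y h, DifferentiableAt ℝ (fderiv ℝ G) z)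
    (hB : ∀ z ∈ closedBall y h, ‖fderiv ℝ (fderiv ℝ G) z‖ ≤ B)
    (hε : ∀ z ∈ closedBall y h, ‖G z‖ ≤ ε) : ‖fderiv ℝ G y‖ ≤ 2 * ε / h + B * h := by
  have y0 := mem_closedBall_self (x := y) hh.le
  have B0 : 0 ≤ B := (norm_nonneg (fderiv ℝ (fderiv ℝ G) y)).trans (hB y y0)
  have e0 : 0 ≤ ε := (norm_nonneg _).trans (hε y y0)
  refine ContinuousLinearMap.opNorm_le_of_unit_norm (by positivity) fun v hv => ?_
  have m : y + h • v ∈ closedBall y h := by
    simp [norm_smul, hv, abs_of_pos hh]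
  have k := (convex_closedBall y h).norm_image_sub_le_of_norm_fderiv_le' (C := B * h)
    (φ := fderiv ℝ G y) d1 (fun z hz => ((convex_closedBall y h).norm_image_sub_le_of_norm_fderiv_le
      d2 hB y0 hz).trans (mul_le_mul_of_nonneg_left (mem_closedBall_iff_norm.1 hz) B0)) y0 m
  rw [add_sub_cancel_left, map_smul, norm_smul, hv, Real.norm_of_nonneg hh.le] at k
  have k1 := norm_sub_le (G (y + h • v) - G y) (G (y + h • v) - G y - h • fderiv ℝ G y v)
  rw [sub_sub_cancel, norm_smul, Real.norm_of_nonneg hh.le] at k1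
  have k2 := norm_sub_le (G (y + h • v)) (G y)
  rw [div_add' _ _ _ hh.ne', le_div_iff₀ hh]
  linarith [hε _ m, hε _ y0]

lemma fst_lt {y z : ℝ × ℝ} {h : ℝ} (hz : z ∈ closedBall y h) : y.1 - h ≤ z.1 := by
  have := (le_max_left _ _).trans (show max (dist z.1 y.1) (dist z.2 y.2) ≤ h from hz)
  rw [Real.dist_eq] at this
  linarith [(abs_le.1 this).1]

/-- all derivatives decay -/
lemma decay (s : ℝ) (k : ℕ) : ∀ (Y : Type) [NormedAddCommGroup Y] [NormedSpace ℝ Y]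
    (g : ℝ × ℝ → Y) (B : ℕ → ℝ), (∀ y : ℝ × ℝ, s < y.1 → ContDiffAt ℝ ∞ g y) →
    (∀ j, 1 ≤ j → ∀ y : ℝ × ℝ, s < y.1 → ‖iteratedFDeriv ℝ j g y‖ ≤ B j) →
    (∀ ε > (0 : ℝ), ∃ R : ℝ, ∀ y : ℝ × ℝ, R ≤ y.1 → ‖g y‖ ≤ ε) →
    ∀ ε > (0 : ℝ), ∃ R : ℝ, ∀ y : ℝ × ℝ, R ≤ y.1 → ‖iteratedFDeriv ℝ k g y‖ ≤ ε := by
  induction k with
  | zero => intro Y _ _ g B _ _ h; simpa only [norm_iteratedFDeriv_zero] using h
  | succ k ih =>
    intro Y _ _ g B h1 h2 h3
    have h4 : ∀ y : ℝ × ℝ, s < y.1 → ContDiffAt ℝ ∞ (fderiv ℝ g) y := fun y hy =>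
      (h1 y hy).fderiv_right (by simp)
    simp only [← norm_iteratedFDeriv_fderiv]
    refine ih _ (fderiv ℝ g) (fun j => B (j + 1)) h4 (fun j _ y hy => ?_) fun ε hε => ?_
    · rw [norm_iteratedFDeriv_fderiv]
      exact h2 _ (by omega) y hy
    set h := ε / (2 * (|B 2| + 1))
    have hh : 0 < h := by positivity
    obtain ⟨R, hR⟩ := h3 (ε * h / 4) (by positivity)
    refine ⟨max R s + h + 1, fun y hy => ?_⟩
    have m : ∀ z ∈ closedBall y h, R ≤ z.1 ∧ s < z.1 := fun z hz => by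
      have := fst_lt hz
      constructor <;> linarith [le_max_left R s, le_max_right R s]
    refine (interp (B := |B 2| + 1) hh (fun z hz => (h1 z (m z hz).2).differentiableAt (by simp))
      (fun z hz => (h4 z (m z hz).2).differentiableAt (by simp)) (fun z hz => ?_)
      fun z hz => hR z (m z hz).1).trans (le_of_eq ?_)
    · rw [← norm_iteratedFDeriv_one, norm_iteratedFDeriv_fderiv]
      linarith [h2 2 one_le_two z (m z hz).2, le_abs_self (B 2)]
    · have : (|B 2| + 1) * h = ε / 2 := by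
        simp only [h]
        field_simp
      rw [this]
      field_simp
      ring

lemma box_open (y : ℝ × ℝ) (ρ τ : ℝ) : IsOpen (box y ρ τ) := isOpen_ball.prod isOpen_Ioo

lemma mem_box {y w : ℝ × ℝ} {ρ τ t : ℝ} (hw : w ∈ ball y ρ) (ht : |t| < τ) :
    (w, t) ∈ box y ρ τ := ⟨hw, abs_lt.1 ht⟩

lemma der_t {F : P3 → ℝ} {y : ℝ × ℝ} {t : ℝ} (h : ContDiffAt ℝ ∞ F (y, t)) :
    HasDerivAt (fun t => F (y, t)) (fderiv ℝ F (y, t) (0, 1)) t := by
  simpa using! (h.differentiableAt (by simp)).hasFDerivAt.comp_hasDerivAt t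
    (hasFDerivAt_prodMk_right (𝕜 := ℝ) y t).hasDerivAt

end Rt

open Rt in
/-- **ROOT** -/
theorem root (ifb : IFB) : ROOT := by
  intro f ρ τ a B hρ hτ ha per h
  have key : ∀ η > (0 : ℝ), η / a < τ → ∃ s : ℝ, ∀ y : ℝ × ℝ, s ≤ y.1 → ∃ t₀, |t₀| ≤ η / a ∧
      ∀ t, |t| < τ → (f (y, t) = 0 ↔ t = t₀) := fun η hη h1 => by
    obtain ⟨s, hs⟩ := h η hη
    refine ⟨s, fun y hy => ?_⟩
    obtain ⟨F, F1, F2, F3⟩ := hs y hy
    have m := fun t (ht : |t| < τ) => mem_box (mem_ball_self (x := y) hρ) ht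
    obtain ⟨i, t₀, k1, k2⟩ := root1 ha hη h1
      (fun t ht => der_t (F1.contDiffAt ((box_open _ _ _).mem_nhds (m t ht))))
      (fun t ht => (F2 _ (m t ht)).2.1) F3
    refine ⟨t₀, k1, fun t ht => (F2 _ (m t ht)).1.trans ⟨fun e => ?_, fun e => e ▸ k2⟩⟩
    exact i ht (k1.trans_lt h1) (e.trans k2.symm)
  have e0 : a * τ / 2 / a < τ := by
    rw [div_lt_iff₀ ha]
    nlinarith [mul_pos ha hτ]
  obtain ⟨s₁, hs₁⟩ := key _ (by positivity) e0
  obtain ⟨s₂, hs₂⟩ := h 1 one_pos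
  choose! φ φ1 φ2 using hs₁
  set s := max s₁ s₂
  replace φ1 : ∀ y : ℝ × ℝ, s < y.1 → |φ y| < τ := fun y hy =>
    (φ1 y ((le_max_left _ _).trans hy.le)).trans_lt e0
  replace φ2 : ∀ y : ℝ × ℝ, s < y.1 → ∀ t, |t| < τ → (f (y, t) = 0 ↔ t = φ y) := fun y hy =>
    φ2 y ((le_max_left _ _).trans hy.le)
  have uo : IsOpen {y : ℝ × ℝ | s < y.1} := isOpen_lt continuous_const continuous_fst
  have sm : ∀ y : ℝ × ℝ, s < y.1 → ContDiffAt ℝ ∞ φ y := fun y hy => by
    obtain ⟨F, F1, F2, -⟩ := hs₂ y ((le_max_right _ _).trans hy.le)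
    have m := mem_box (mem_ball_self (x := y) hρ) (φ1 y hy)
    have hG := F1.contDiffAt ((box_open _ _ _).mem_nhds m)
    have hi : (fderiv ℝ F (y, φ y) ∘L .inr ℝ (ℝ × ℝ) ℝ).IsInvertible :=
      ⟨ContinuousLinearEquiv.unitsEquivAut ℝ (Units.mk0 (fderiv ℝ F (y, φ y) (0, 1))
        (abs_pos.1 (ha.trans_le (F2 _ m).2.1))), by ext; simp⟩
    have k3 := hG.contDiffAt_implicitFunction (by simp) hi
    refine k3.congr_of_eventuallyEq ?_
    filter_upwards [hG.eventually_apply_implicitFunction (by simp) hi, uo.mem_nhds hy,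
      ball_mem_nhds y hρ, k3.continuousAt.abs.eventually (gt_mem_nhds
        (by simpa only [hG.implicitFunction_apply_self] using φ1 y hy))] with w k4 k5 k6 k7
    rw [(F2 _ m).1.1 ((φ2 y hy _ (φ1 y hy)).2 rfl)] at k4
    exact ((φ2 w k5 _ k7).1 ((F2 _ (mem_box k6 k7)).1.2 k4)).symm
  obtain ⟨B', hB'⟩ := ifb a ha B
  have bd : ∀ j, 1 ≤ j → ∀ y : ℝ × ℝ, s < y.1 → ‖iteratedFDeriv ℝ j φ y‖ ≤ B' j :=
    fun j hj y hy => by
    obtain ⟨F, F1, F2, -⟩ := hs₂ y ((le_max_right _ _).trans hy.le)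
    exact hB' F _ φ (ball y ρ ∩ {y | s < y.1}) (box_open _ _ _) (isOpen_ball.inter uo) F1
      (fun w hw => (sm w hw.2).contDiffWithinAt) (fun w hw => ⟨mem_box hw.1 (φ1 w hw.2),
        (F2 _ (mem_box hw.1 (φ1 w hw.2))).1.1 ((φ2 w hw.2 _ (φ1 w hw.2)).2 rfl)⟩)
      (fun q hq => (F2 q hq).2.1) (fun k q hq => (F2 q hq).2.2 k) j hj y ⟨mem_ball_self hρ, hy⟩
  have sm0 : ∀ ε > (0 : ℝ), ∃ R : ℝ, ∀ y : ℝ × ℝ, R ≤ y.1 → ‖φ y‖ ≤ ε := fun ε hε => by
    have e1 : a * min ε (τ / 2) / a = min ε (τ / 2) := mul_div_cancel_left₀ _ ha.ne'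
    have e2 : min ε (τ / 2) < τ := (min_le_right _ _).trans_lt (half_lt_self hτ)
    obtain ⟨s', hs'⟩ := key (a * min ε (τ / 2)) (by positivity) (e1.trans_lt e2)
    refine ⟨max s' (s + 1), fun y hy => ?_⟩
    obtain ⟨t₀, k1, k2⟩ := hs' y ((le_max_left _ _).trans hy)
    have hy' : s < y.1 := by linarith [le_max_right s' (s + 1)]
    rw [(k2 _ (φ1 y hy')).1 ((φ2 y hy' _ (φ1 y hy')).2 rfl)]
    exact k1.trans (e1.trans_le (min_le_left _ _))
  have one : ∀ y : ℝ × ℝ, s + 2 ≤ y.1 → Real.smoothTransition (y.1 - (s + 1)) * φ y = φ y :=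
    fun y hy => by rw [Real.smoothTransition.one_of_one_le (by linarith), one_mul]
  refine ⟨fun y => Real.smoothTransition (y.1 - (s + 1)) * φ y, s + 2,
    ⟨contDiff_iff_contDiffAt.2 fun y => ?_, fun z θ => ?_, fun k ε hε => ?_⟩, fun y hy => ?_⟩
  · by_cases hy : s < y.1
    · exact (Real.smoothTransition.contDiff.comp
        (contDiff_fst.sub contDiff_const)).contDiffAt.mul (sm y hy)
    · refine (contDiffAt_const (c := 0)).congr_of_eventuallyEq ?_
      filter_upwards [continuous_fst.continuousAt.eventually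
        (gt_mem_nhds (show y.1 < s + 1 by linarith))] with w hw
      rw [Real.smoothTransition.zero_of_nonpos (by linarith), zero_mul]
  · by_cases hz : s < z
    · rw [(φ2 (z, θ) hz _ (φ1 (z, θ + 2 * Real.pi) hz)).1
        (per z θ _ ▸ (φ2 (z, θ + 2 * Real.pi) hz _ (φ1 _ hz)).2 rfl)]
    · rw [Real.smoothTransition.zero_of_nonpos (by linarith), zero_mul, zero_mul]
  · obtain ⟨R, hR⟩ := decay s k ℝ φ B' sm bd sm0 ε hε
    refine ⟨max R (s + 3), fun y hy => ?_⟩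
    have : (fun y : ℝ × ℝ => Real.smoothTransition (y.1 - (s + 1)) * φ y) =ᶠ[𝓝 y] φ := by
      filter_upwards [continuous_fst.continuousAt.eventually
        (lt_mem_nhds (show s + 2 < y.1 by linarith [le_max_right R (s + 3)]))] with w hw
      exact one w hw.le
    rw [(this.iteratedFDeriv ℝ k).eq_of_nhds]
    exact hR y ((le_max_left _ _).trans hy)
  · simp only [one y hy]
    exact ⟨φ1 y (by linarith), φ2 y (by linarith)⟩

end Vale.Agent.P218E
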