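import Vale.Agent.P218E.Spec
import Vale.Agent.P218R.Base

/-!
# P218E: uniqueness of tangent flows up to the first singular time, from the blocks
-/

open MeasureTheory Metric Filter Topology Set
open scoped ContDiff ENNReal RealInnerProductSpace NNReal
open Vale.Agent.P218 (limitSet WeakTendsto IsIntegralBrakkeFlow IsTangentFlow TangentFlowUnique
  rescaled)
open Vale.Agent.P218.H552 (NN)
open Vale.Agent.P218R
open Vale.Agent.P218T (IsEndedShrinker TStar)

noncomputable section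

namespace Vale.Agent.P218E

theorem mcf_mono {M : ℝ → Set E3} {T t : ℝ} (h : IsSmoothMCF M T) (ht : t ∈ Ioc 0 T) :
    IsSmoothMCF M t where
  pos := ht.1
  conn s hs := h.conn s ⟨hs.1, hs.2.trans_le ht.2⟩
  cpt a b ha hb := h.cpt a b ha (hb.trans_le ht.2)
  loc s hs := h.loc s ⟨hs.1, hs.2.trans_le ht.2⟩

theorem exists_cH : ∃ c : ℝ≥0, c ≠ 0 ∧ H2 = c • (μH[2] : Measure E3) := by
  refine ⟨_, Measure.addHaarScalarFactor_volume_hausdorffMeasure_ne_zero 2, ?_⟩
  have h := Measure.euclideanHausdorffMeasure_def (X := E3) 2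
  simpa using h

/-- every tangent flow at the final time is modelled on a shrinker with good ends -/
theorem slice_ended (hC : CLO) (hT : TF) (hE : ENDS) {M : ℝ → Set E3} {T : ℝ}
    (hM : IsSmoothMCF M T) {μ : ℝ → Measure E3}
    (hμ : ∀ t ∈ Ioo 0 T, μ t = (μH[2] : Measure E3).restrict (M t)) {x₀ : E3}
    {ν : ℝ → Measure E3} (hν : IsTangentFlow 2 μ x₀ T ν) :
    ∃ S, IsEndedShrinker S ∧ ν (-1) = (μH[2] : Measure E3).restrict S := by
  obtain ⟨c, hc, hcH⟩ := exists_cH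
  have hT0 := hM.pos
  obtain ⟨F, Λ, G, hF, hFM⟩ := hC M T hM (T / 2) ⟨by linarith, by linarith⟩
  obtain ⟨hfin, lam, hlam, hw⟩ := hν
  have hlf := hfin (-1) (by norm_num)
  have hFμ : ∀ t ∈ Ioo (T / 2) T, F.μ t = c • μ t := by
    intro t ht
    rw [hμ t ⟨by linarith [ht.1], ht.2⟩, Flw.μ, Srf.μ, hFM t ht, hcH, Measure.restrict_smul]
  have hκ : c • ν (-1) ∈ limitSet (NN 2 F.μ x₀ T) := by
    refine ⟨inferInstance, fun i => Real.log (lam i), Real.tendsto_log_atTop.comp hlam, ?_⟩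
    intro φ hφ hφc
    have h1 := (hw (-1) (by norm_num) φ hφ hφc).const_mul (c : ℝ)
    rw [integral_smul_nnreal_measure, NNReal.smul_def, smul_eq_mul]
    refine h1.congr' ?_
    have h2 : Tendsto (fun i => lam i ^ 2) atTop atTop :=
      (tendsto_pow_atTop two_ne_zero).comp hlam
    filter_upwards [hlam.eventually_gt_atTop 0, h2.eventually_gt_atTop (2 / T)] with i hi hi2
    have h3 : T + -1 / lam i ^ 2 ∈ Ioo (T / 2) T := by
      have h4 : 0 < 1 / lam i ^ 2 := by positivity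
      have h5 : 1 / lam i ^ 2 < T / 2 := by
        rw [div_lt_iff₀ (by positivity)]
        rw [div_lt_iff₀ hT0] at hi2
        linarith
      rw [neg_div]
      exact ⟨by linarith, by linarith⟩
    unfold NN rescaled
    rw [Real.exp_log hi, hFμ _ h3, Measure.map_smul, smul_comm, integral_smul_nnreal_measure,
      NNReal.smul_def, smul_eq_mul]
  obtain ⟨S, hS, hκS⟩ := hT F (T / 2) T Λ G x₀ _ (by linarith) hF hκ
  refine ⟨S.G, hE S Λ G hS, ?_⟩
  rw [Srf.μ, hcH, Measure.restrict_smul] at hκS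
  have h := congrArg (fun m : Measure E3 => c⁻¹ • m) hκS
  simpa [smul_smul, inv_mul_cancel₀ hc] using h

theorem top (hS : TStar) (hC : CLO) (hT : TF) (hE : ENDS) (M : ℝ → Set E3) (T : ℝ)
    (hM : IsSmoothMCF M T) (μ : ℝ → Measure E3) (hB : IsIntegralBrakkeFlow 2 μ)
    (h0 : μ 0 univ < ⊤) (hμ : ∀ t ∈ Ioo 0 T, μ t = (μH[2] : Measure E3).restrict (M t))
    (x₀ : E3) (t₀ : ℝ) (ht : t₀ ∈ Ioc 0 T) :
    TangentFlowUnique 2 μ x₀ t₀ ∧ ∀ ν, IsTangentFlow 2 μ x₀ t₀ ν →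
      ∃ S, IsEndedShrinker S ∧ ν (-1) = (μH[2] : Measure E3).restrict S := by
  have key : ∀ ν, IsTangentFlow 2 μ x₀ t₀ ν →
      ∃ S, IsEndedShrinker S ∧ ν (-1) = (μH[2] : Measure E3).restrict S := fun ν hν =>
    slice_ended hC hT hE (mcf_mono hM ht) (fun t h => hμ t ⟨h.1, h.2.trans_le ht.2⟩) hν
  refine ⟨fun ν ν' hν hν' => ?_, key⟩
  obtain ⟨S, hS1, hS2⟩ := key ν hν
  exact hS μ hB h0 x₀ t₀ ht.1 S hS1 ⟨ν, hν, hS2⟩ ν ν' hν hν'

end Vale.Agent.P218E
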