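import Vale.Agent.P218E.Zm

/-!
# P218E: the three types of directions
-/

open MeasureTheory Metric Filter Topology Set
open scoped ContDiff ENNReal RealInnerProductSpace NNReal
open Vale.Agent.P218 (limitSet WeakTendsto)
open Vale.Agent.P218R

noncomputable section

namespace Vale.Agent.P218E

namespace Tri

variable {e : E3}

theorem rad_sq (he : ‖e‖ = 1) (x : E3) : rad e x ^ 2 = ‖x‖ ^ 2 - ⟪e, x⟫ ^ 2 := by
  rw [rad, norm_sub_sq_real, inner_smul_right, norm_smul, he, real_inner_comm, Real.norm_eq_abs,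
    mul_one, sq_abs]
  ring

theorem rad_le (he : ‖e‖ = 1) (x : E3) : rad e x ≤ ‖x‖ :=
  abs_le_of_sq_le_sq' (by rw [rad_sq he]; linarith [sq_nonneg ⟪e, x⟫]) (norm_nonneg _) |>.2

theorem rad_lip (he : ‖e‖ = 1) (x y : E3) : |rad e x - rad e y| ≤ ‖x - y‖ := by
  refine (abs_norm_sub_norm_le _ _).trans (le_of_eq_of_le ?_ (rad_le he _))
  rw [rad, inner_sub_right, sub_smul]
  congr 1
  abel

theorem rad_tr (he : ‖e‖ = 1) (x : E3) (t : ℝ) : rad e (x - t • e) = rad e x := by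
  rw [rad, rad, inner_sub_right, inner_smul_right, real_inner_self_eq_norm_sq, he, sub_smul]
  congr 1
  simp

theorem ex_cyl (he : ‖e‖ = 1) : ∃ q : E3, rad e q = √2 ∧ ‖q‖ = √2 := by
  obtain ⟨L, hL⟩ := ex_fr he
  have h : ‖L (EuclideanSpace.single 0 √2)‖ = √2 := by simp [abs_of_nonneg]
  exact ⟨_, by rw [rad, hL.2, zero_smul, sub_zero, h], h⟩

/-- the subsequence principle -/
theorem ev_of_sub {P : ℝ → Prop} (h : ∀ l : ℕ → ℝ, Tendsto l atTop atTop →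
    ∃ ψ : ℕ → ℕ, ∀ᶠ i in atTop, P (l (ψ i))) : ∀ᶠ l in atTop, P l := by
  by_contra k
  obtain ⟨l, h1, h2⟩ := exists_seq_forall_of_frequently (not_eventually.1 k)
  obtain ⟨ψ, h3⟩ := h l h1
  exact h2 _ h3.exists.choose_spec

theorem side {d : ℝ → ℝ} (hd : Continuous d) {c : ℝ} (h : ∀ᶠ l in atTop, d l ≠ c) :
    (∀ᶠ l in atTop, d l < c) ∨ ∀ᶠ l in atTop, c < d l := by
  obtain ⟨L, hL⟩ := eventually_atTop.1 h
  refine (lt_or_gt_of_ne (hL L le_rfl)).imp (fun k => ?_) fun k => ?_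
  · exact (eventually_ge_atTop L).mono fun l hl => not_le.1 fun k' =>
      let ⟨x, hx, e⟩ := intermediate_value_Icc hl hd.continuousOn ⟨k.le, k'⟩; hL x hx.1 e
  · exact (eventually_ge_atTop L).mono fun l hl => not_le.1 fun k' =>
      let ⟨x, hx, e⟩ := intermediate_value_Icc' hl hd.continuousOn ⟨k', k.le⟩; hL x hx.1 e

/-- Gaussian ratios along a sequence of translates -/
theorem flat {S : Srf} {Λ : ℝ} {κ : Measure E3} {b : ℕ → E3} (hS : AR Λ S.μ) (hκ : AR Λ κ)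
    (hw : WeakTendsto (fun i => (S.sc (b i) 1).μ) κ) (h1 : ∀ y ρ, 0 < ρ → gs κ y ρ ≤ 1) {ε : ℝ}
    (hε : 0 < ε) : ∀ᶠ i in atTop, ∀ y ∈ ball (b i) 1, ∀ ρ ∈ Icc (1 / 2 : ℝ) 1,
      gs S.μ y ρ ≤ 1 + ε := by
  have := hκ.fin
  have k := ((isCompact_closedBall (0 : E3) 1).prod (isCompact_Icc (a := (1 / 2 : ℝ))
    (b := 1))).mem_prod_nhdsSet_of_forall (l := atTop)
    (s := {z : ℕ × E3 × ℝ | gs (S.sc (b z.1) 1).μ z.2.1 z.2.2 ≤ 1 + ε}) fun z hz => by
      have p : 0 < z.2 := one_half_pos.trans_le hz.2.1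
      exact (Gs.gsc (l := atTop ×ˢ 𝓝 z) (ν := fun z => (S.sc (b z.1) 1).μ)
        (.of_forall fun _ => hS.sc _ one_pos) (fun f hf hc => (hw f hf hc).comp tendsto_fst)
        ((continuous_fst.tendsto z).comp tendsto_snd) ((continuous_snd.tendsto z).comp tendsto_snd)
        p).eventually_le_const (by linarith [h1 z.1 z.2 p])
  filter_upwards [(Eventually.curry k)] with i hi y hy ρ hρ
  have := hi.self_of_nhdsSet (y - b i, ρ) ⟨by simpa [dist_eq_norm] using (mem_ball.1 hy).le, hρ⟩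
  simpa [gs_sc] using this

end Tri

open Tri in
theorem tri (hR : RAY) (hI : INV) (hM : SML) : TRI := by
  intro S Λ G e hS he
  obtain ⟨C, -, hC⟩ := hR Λ
  rcases S.G.eq_empty_or_nonempty with h0 | hne
  · exact .inr ⟨fun ε hε => .of_forall fun l y _ ρ _ => by simp [gs, Srf.μ, h0]; linarith,
      .inr fun R => .of_forall fun l p hp => by simp [h0] at hp⟩
  set d : ℝ → ℝ := fun l => infDist (l • e) S.G with hd
  have s1 : (1.4 : ℝ) < √2 := Real.lt_sqrt_of_sq_lt (by norm_num)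
  have s2 : √2 < 1.5 := (Real.sqrt_lt' (by norm_num)).2 (by norm_num)
  have up : ∀ l : ℝ, ∀ p ∈ S.G, d l ≤ ‖p - l • e‖ := fun l p hp =>
    (infDist_le_dist_of_mem hp).trans_eq (dist_eq_norm' _ _)
  have lo : ∀ l r : ℝ, d l < r → ∃ p ∈ S.G, ‖p - l • e‖ < r := fun l r h => by
    simpa only [dist_eq_norm'] using (infDist_lt_iff hne).1 h
  have key : ∀ l : ℕ → ℝ, Tendsto l atTop atTop → ∃ ψ : ℕ → ℕ,
      Tendsto (fun i => l (ψ i)) atTop atTop ∧ (((∀ᶠ i in atTop, 1 < d (l (ψ i)) ∧ d (l (ψ i)) < 2) ∧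
        ∀ R : ℝ, ∀ η > (0 : ℝ), ∀ᶠ i in atTop,
          (∀ p ∈ S.G, ‖p - l (ψ i) • e‖ ≤ R → |rad e p - √2| ≤ η) ∧
          ∀ q, rad e q = √2 → ‖q - l (ψ i) • e‖ ≤ R → ∃ p ∈ S.G, ‖p - q‖ ≤ η) ∨
      (∀ ε > (0 : ℝ), ∀ᶠ i in atTop, ∀ y ∈ ball (l (ψ i) • e) 1, ∀ ρ ∈ Icc (1 / 2 : ℝ) 1,
        gs S.μ y ρ ≤ 1 + ε) ∧ ((∀ η > (0 : ℝ), ∀ᶠ i in atTop, d (l (ψ i)) < η) ∨
          ∀ R, ∀ᶠ i in atTop, R < d (l (ψ i)))) := fun l hl => by
    obtain ⟨ψ, T, hψ, hT, hw, hi, hK⟩ := (hC S G e hS).2 l hl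
    refine ⟨ψ, hl.comp hψ.tendsto_atTop, ?_⟩
    rcases hI T e hT.ok hT.eq he hi with h | ⟨ν, hν, h⟩ | h
    · refine .inr ⟨fun ε => flat hS.ar hT.ar hw fun y ρ _ => by simp [gs, Srf.μ, h],
        .inr fun R => (hK (R + 1) 1 one_pos).mono fun i hi => not_le.1 fun k => ?_⟩
      obtain ⟨p, hp, k'⟩ := lo _ _ (k.trans_lt (lt_add_one R))
      simpa [h] using hi.1 p hp k'.le
    · refine .inr ⟨fun ε => flat hS.ar hT.ar hw fun y ρ hρ => ?_,
        .inl fun η hη => (hK 0 _ (half_pos hη)).mono fun i hi => ?_⟩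
      · have := hM.2.2.1 0 ν y ρ hν hρ
        simp only [sub_zero] at this
        rw [Srf.μ, h, this, Real.exp_le_one_iff, neg_div, neg_nonpos]
        positivity
      · obtain ⟨p, hp, k⟩ := hi.2 0 (by simp [h]) (by simp)
        exact (up _ p hp).trans_lt (by rw [sub_zero] at k; linarith)
    · refine .inl ⟨(hK 2 0.1 (by norm_num)).mono fun i hi => ⟨not_le.1 fun k => ?_, ?_⟩,
        fun R η hη => (hK R η hη).mono fun i hi => ⟨fun p hp k => ?_, fun q hq k => ?_⟩⟩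
      · obtain ⟨p, hp, k'⟩ := lo (l (ψ i)) 1.1 (by linarith)
        obtain ⟨q, hq, k''⟩ := hi.1 p hp (by linarith)
        rw [h] at hq
        linarith [(abs_le.1 (rad_lip he (p - l (ψ i) • e) q)).1, rad_le he (p - l (ψ i) • e),
          show rad e q = √2 from hq]
      · obtain ⟨q, h1, h2⟩ := ex_cyl he
        obtain ⟨p, hp, k⟩ := hi.2 q (h ▸ h1) (by linarith)
        linarith [up (l (ψ i)) p hp, norm_sub_norm_le (p - l (ψ i) • e) q]
      · obtain ⟨q, hq, k'⟩ := hi.1 p hp k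
        rw [h] at hq
        rw [← show rad e q = √2 from hq, ← rad_tr he p (l (ψ i))]
        exact (rad_lip he _ _).trans k'
      · obtain ⟨p, hp, k'⟩ := hi.2 _ (h ▸ (rad_tr he q _).trans hq) k
        exact ⟨p, hp, by simpa using k'⟩
  have hc : Continuous d := (continuous_infDist_pt _).comp (by fun_prop)
  have ne : ∀ᶠ l in atTop, d l ≠ 1 ∧ d l ≠ 2 := ev_of_sub fun l hl => by
    obtain ⟨ψ, -, h | ⟨-, h | h⟩⟩ := key l hl
    · exact ⟨ψ, h.1.mono fun i k => ⟨k.1.ne', k.2.ne⟩⟩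
    · exact ⟨ψ, (h 1 one_pos).mono fun i k => ⟨k.ne, by linarith⟩⟩
    · exact ⟨ψ, (h 2).mono fun i k => ⟨by linarith, k.ne'⟩⟩
  have no : ∀ {P : Prop} {p q : ℕ → Prop}, (∀ᶠ i in atTop, p i) → (∀ᶠ i in atTop, q i) →
      (∀ i, p i → q i → False) → P := fun h1 h2 h3 =>
    let ⟨i, h⟩ := (h1.and h2).exists; (h3 i h.1 h.2).elim
  rcases side hc (ne.mono fun _ h => h.1) with h1 | h1
  · refine .inr ⟨fun ε hε => ev_of_sub fun l hl => ?_, .inl fun η hη => ev_of_sub fun l hl => ?_⟩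
    · obtain ⟨ψ, t, h | h⟩ := key l hl
      exacts [no (t.eventually h1) h.1 fun i a b => by linarith [b.1], ⟨ψ, h.1 ε hε⟩]
    · obtain ⟨ψ, t, h | ⟨-, h | h⟩⟩ := key l hl
      exacts [no (t.eventually h1) h.1 fun i a b => by linarith [b.1],
        ⟨ψ, (h η hη).mono fun i k => let ⟨p, hp, k'⟩ := lo _ _ k; ⟨p, hp, k'.le⟩⟩,
        no (t.eventually h1) (h 1) fun i a b => by linarith]
  rcases side hc (ne.mono fun _ h => h.2) with h2 | h2
  · refine .inl fun R η hη => ev_of_sub fun l hl => ?_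
    obtain ⟨ψ, t, h | ⟨-, h | h⟩⟩ := key l hl
    exacts [⟨ψ, h.2 R η hη⟩, no (t.eventually h1) (h 1 one_pos) fun i a b => by linarith,
      no (t.eventually h2) (h 2) fun i a b => by linarith]
  · refine .inr ⟨fun ε hε => ev_of_sub fun l hl => ?_, .inr fun R => ev_of_sub fun l hl => ?_⟩
    · obtain ⟨ψ, t, h | h⟩ := key l hl
      exacts [no (t.eventually h2) h.1 fun i a b => by linarith [b.2], ⟨ψ, h.1 ε hε⟩]
    · obtain ⟨ψ, t, h | ⟨-, h | h⟩⟩ := key l hl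
      exacts [no (t.eventually h2) h.1 fun i a b => by linarith [b.2],
        no (t.eventually h2) (h 1 one_pos) fun i a b => by linarith,
        ⟨ψ, (h R).mono fun i k p hp => k.le.trans (up _ p hp)⟩]

end Vale.Agent.P218E
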