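import Vale.Agent.P218E.Spec
import Vale.Agent.P218R.Base

/-!
# P218E, row TUBE: the signed distance function of a surface of positive reach
-/

open Metric Filter Topology Set
open scoped ContDiff RealInnerProductSpace
open Vale.Agent.P366W
open Vale.Agent.P218R
open Vale.Agent.P218.H63 (IsTubeShrinker)

noncomputable section

namespace Vale.Agent.P218E

namespace Tube

variable {S : Srf} {c t : ℝ} {x y p : E3} {q q' : E3 × ℝ}

/-- positive reach and bounded curvature -/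
structure Rch (S : Srf) (c : ℝ) : Prop extends S.Ok where
  c0 : 0 < c
  reach : ∀ p y, S.w p = 0 → S.w y = 0 → 16 * c * |⟪S.n p, y - p⟫| ≤ ‖y - p‖ ^ 2
  curv : ∀ p, S.w p = 0 → 16 * c * ‖S.A p‖ ≤ 1

theorem ldf_bd {e : E3} {B : ℕ → ℝ} {F : E3 → ℝ} (h : S.Ok) (c0 : 0 < c) (hp : S.w p = 0)
    (k : Ldf S.w p e c B F) : ‖S.A p‖ ≤ 2 * B 2 ∧
      ∀ y ∈ ball p c, S.w y = 0 → |⟪S.n p, y - p⟫| ≤ 2 * B 2 * ‖y - p‖ ^ 2 := by
  have m := mem_ball_self (x := p) c0
  have cF : ∀ y ∈ ball p c, ContDiffAt ℝ 2 F y := fun y hy =>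
    (k.sm.contDiffAt (isOpen_ball.mem_nhds hy)).of_le two_le
  have dF : ∀ y ∈ ball p c, DifferentiableAt ℝ F y := fun y hy =>
    (cF y hy).differentiableAt two_ne_zero
  have dG : ∀ y ∈ ball p c, DifferentiableAt ℝ (fderiv ℝ F) y := fun y hy =>
    ((cF y hy).fderiv_right (m := 1) (by norm_num)).differentiableAt one_ne_zero
  have b2 : ∀ y ∈ ball p c, ‖fderiv ℝ (fderiv ℝ F) y‖ ≤ B 2 := fun y hy => by
    rw [← norm_iteratedFDeriv_one, norm_iteratedFDeriv_fderiv]; exact k.bd 2 y hy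
  have t0 : ∀ y ∈ ball p c, S.w y = 0 → S.tg F y = 0 := fun y hy h0 => by
    rw [h.tg_tan h0 (dF y hy) (differentiableAt_const 0)
      (mem_of_superset (isOpen_ball.mem_nhds hy) fun z hz => (k.zero z hz).1)]
    simp [Srf.tg]
  have g0 : gradient F p = ⟪S.n p, gradient F p⟫ • S.n p :=
    sub_eq_zero.1 ((Srf.P_apply _ _).symm.trans (t0 p m hp))
  have g1 : 1 / 2 ≤ |⟪S.n p, gradient F p⟫| := by
    have a := norm_sub_norm_le (innerSL ℝ e) (fderiv ℝ F p)
    rw [innerSL_apply_norm, k.unit, norm_sub_rev, ← norm_gradient, g0, norm_smul, h.norm_n hp,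
      mul_one, Real.norm_eq_abs] at a
    linarith [k.tilt p m]
  have e1 : gradient F = (InnerProductSpace.toDual ℝ E3).symm.toContinuousLinearEquiv ∘
    fderiv ℝ F := rfl
  have B0 : 0 ≤ B 2 := (norm_nonneg _).trans (k.bd 2 p m)
  constructor
  · have d1 : DifferentiableAt ℝ (S.tg F) p := (h.sP.differentiable (by simp) p).clm_apply
      (e1 ▸ (ContinuousLinearEquiv.differentiableAt _).comp p (dG p m))
    have a := h.tan hp d1 (differentiableAt_const 0)
      (mem_of_superset (isOpen_ball.mem_nhds m) t0)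
    have b := h.hs_eq hp (cF p m)
    rw [Srf.hs, a, fderiv_fun_const, Pi.zero_apply, ContinuousLinearMap.zero_comp,
      ContinuousLinearMap.comp_zero, eq_comm, sub_eq_zero] at b
    refine ContinuousLinearMap.opNorm_le_bound _ (by positivity) fun v => ?_
    have b' := congrArg norm (DFunLike.congr_fun b v)
    rw [smul_apply, norm_smul, Real.norm_eq_abs] at b'
    have : ‖S.P p (fderiv ℝ (gradient F) p (S.P p v))‖ ≤ B 2 * ‖v‖ := by
      refine (h.norm_P_le hp _).trans ?_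
      rw [e1, ContinuousLinearEquiv.comp_fderiv]
      exact ((InnerProductSpace.toDual ℝ E3).symm.norm_map _).trans_le
        ((ContinuousLinearMap.le_of_opNorm_le _ (b2 p m) _).trans
          (mul_le_mul_of_nonneg_left (h.norm_P_le hp v) B0))
    have := b'.symm.trans_le this
    nlinarith [norm_nonneg (S.A p v)]
  · intro y hy h0
    have s : closedBall p ‖y - p‖ ⊆ ball p c := closedBall_subset_ball (mem_ball_iff_norm.1 hy)
    have m1 : y ∈ closedBall p ‖y - p‖ := mem_closedBall_iff_norm.2 le_rfl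
    have m0 : p ∈ closedBall p ‖y - p‖ := mem_closedBall_self (norm_nonneg _)
    have a := (convex_closedBall p ‖y - p‖).norm_image_sub_le_of_norm_hasFDerivWithin_le (𝕜 := ℝ)
      (C := B 2 * ‖y - p‖) (fun z hz => ((dF z (s hz)).hasFDerivAt.sub
        (fderiv ℝ F p).hasFDerivAt).hasFDerivWithinAt) (fun z hz =>
        ((convex_closedBall p ‖y - p‖).norm_image_sub_le_of_norm_fderiv_le (𝕜 := ℝ)
          (fun z hz => dG z (s hz)) (fun z hz => b2 z (s hz)) m0 hz).trans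
          (mul_le_mul_of_nonneg_left (mem_closedBall_iff_norm.1 hz) B0)) m0 m1
    simp only [Pi.sub_apply, (k.zero y hy).1 h0, (k.zero p m).1 hp, zero_sub, neg_sub_neg] at a
    rw [norm_sub_rev, ← map_sub, ← inner_grad, g0, real_inner_smul_left, Real.norm_eq_abs,
      abs_mul] at a
    nlinarith [abs_nonneg ⟪S.n p, y - p⟫]

theorem ex_rch {B : ℕ → ℝ} (h : S.Ok) (c0 : 0 < c) (k : ∀ p ∈ S.G, HasL S.w p c B) :
    ∃ ρ, Rch S ρ := by
  set K := 2 * |B 2| + c⁻¹
  have K0 : 0 < K := by positivity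
  have e : 16 * (16 * K)⁻¹ = K⁻¹ := by field_simp
  have l : 2 * B 2 ≤ K := by linarith [le_abs_self (B 2), inv_pos.2 c0]
  refine ⟨(16 * K)⁻¹, h, by positivity, fun p y hp hy => ?_, fun p hp => ?_⟩ <;>
    obtain ⟨_, F, k⟩ := k p hp <;> rw [e, inv_mul_le_iff₀ K0]
  · by_cases m : y ∈ ball p c
    · exact ((ldf_bd h c0 hp k).2 y m hy).trans (by gcongr)
    · have a := abs_real_inner_le_norm (S.n p) (y - p)
      have b : 1 ≤ c⁻¹ * ‖y - p‖ := by
        rw [le_inv_mul_iff₀ c0, mul_one]; exact not_lt.1 fun a => m (mem_ball_iff_norm.2 a)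
      rw [h.norm_n hp, one_mul] at a
      nlinarith [norm_nonneg (y - p), abs_nonneg (B 2), mul_nonneg (abs_nonneg (B 2))
        (sq_nonneg ‖y - p‖)]
  · linarith [(ldf_bd h c0 hp k).1]

/-- `q.1` is the foot point of `x`, and `q.2` the signed distance -/
def Ft (S : Srf) (c : ℝ) (x : E3) (q : E3 × ℝ) : Prop :=
  S.w q.1 = 0 ∧ |q.2| < 4 * c ∧ x = q.1 + q.2 • S.n q.1

/-- the foot point and the signed distance -/
def ft (S : Srf) (c : ℝ) (x : E3) : E3 × ℝ := Classical.epsilon (Ft S c x)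

variable (h : Rch S c)
include h

theorem Rch.tA (hp : S.w p = 0) (ht : |t| < 4 * c) (v : E3) : ‖t • S.A p v‖ ≤ ‖v‖ / 4 := by
  have a := (S.A p).le_opNorm v
  have b := h.curv p hp
  rw [norm_smul, Real.norm_eq_abs]
  nlinarith [norm_nonneg (S.A p v), norm_nonneg v, abs_nonneg t, h.c0,
    mul_le_mul_of_nonneg_right b (norm_nonneg v)]

theorem Rch.nrm' (k : Ft S c x q) : ‖x - q.1‖ = |q.2| := by
  rw [k.2.2, add_sub_cancel_left, norm_smul, h.norm_n k.1, mul_one, Real.norm_eq_abs]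

theorem Rch.near (k : Ft S c x q) (hy : S.w y = 0) :
    q.2 ^ 2 + ‖y - q.1‖ ^ 2 / 2 ≤ ‖x - y‖ ^ 2 := by
  have e : x - y = q.2 • S.n q.1 - (y - q.1) := by rw [k.2.2]; abel
  rw [e, norm_sub_sq_real (_ • _), norm_smul, h.norm_n k.1, mul_one, Real.norm_eq_abs, sq_abs,
    real_inner_smul_left]
  have := h.reach _ _ k.1 hy
  have := le_abs_self (q.2 * ⟪S.n q.1, y - q.1⟫)
  rw [abs_mul] at this
  linarith [mul_le_mul_of_nonneg_right k.2.1.le (abs_nonneg ⟪S.n q.1, y - q.1⟫)]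

theorem Rch.uniq (k : Ft S c x q) (k' : Ft S c x q') : q = q' := by
  have a := h.near k k'.1
  have b := h.near k' k.1
  rw [h.nrm' k', sq_abs] at a
  rw [h.nrm' k, sq_abs, norm_sub_rev] at b
  have e : q'.1 = q.1 := by
    rw [← sub_eq_zero, ← norm_eq_zero, ← sq_eq_zero_iff]
    linarith [sq_nonneg ‖q'.1 - q.1‖]
  have := k.2.2.symm.trans k'.2.2
  rw [e, add_right_inj] at this
  exact Prod.ext e.symm (smul_left_injective ℝ (norm_ne_zero_iff.1
    ((h.norm_n k.1).trans_ne one_ne_zero)) this)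

theorem Rch.ex (hp : S.w p = 0) (hx : ‖x - p‖ < 4 * c) : ∃ q, Ft S c x q ∧ |q.2| ≤ ‖x - p‖ := by
  obtain ⟨y, (hy : S.w y = 0), e⟩ := h.closed.exists_infDist_eq_dist ⟨p, hp⟩ x
  have m : ∀ z, S.w z = 0 → ‖x - y‖ ≤ ‖x - z‖ := fun z hz => by
    rw [← dist_eq_norm, ← dist_eq_norm, ← e]; exact infDist_le_dist_of_mem hz
  obtain ⟨α, β, h0, h1⟩ := IsLocalExtrOn.exists_multipliers_of_hasStrictFDerivAt_1d
    (φ := fun z => ‖z - x‖ ^ 2) (f := S.w) (x₀ := y) (.inl (IsMinOn.localize fun z hz => by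
      have := m z (hz.trans hy)
      rw [norm_sub_rev, norm_sub_rev x] at this
      exact pow_le_pow_left₀ (norm_nonneg _) this 2))
    (h.sw.contDiffAt.hasStrictFDerivAt (by simp))
    ((hasStrictFDerivAt_norm_sq (y - x)).comp y ((hasStrictFDerivAt_id y).sub_const x))
  have h2 : ∀ v, α * (‖gradient S.w y‖ * ⟪S.n y, v⟫) + 2 * β * ⟪y - x, v⟫ = 0 := fun v => by
    have := congr($h1 v)
    simp [h.fderiv_w hy] at this
    rw [inner_sub_left]
    linarith
  have β0 : β ≠ 0 := by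
    rintro rfl
    have := h2 (S.n y)
    simp [h.norm_n hy, h.reg y hy] at this
    exact h0 (by simp [this])
  have h3 : x = y + ⟪S.n y, x - y⟫ • S.n y := by
    rw [← sub_eq_iff_eq_add', ← sub_eq_zero, ← Srf.P_apply]
    refine ext_inner_right ℝ fun v => ?_
    have := h2 (S.P y v)
    rw [h.n_P hy, mul_zero, mul_zero, zero_add, mul_eq_zero, ← neg_sub, inner_neg_left,
      neg_eq_zero] at this
    rw [Srf.P_sym, inner_zero_left, this.resolve_left (by simpa using β0)]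
  have h4 : |⟪S.n y, x - y⟫| ≤ ‖x - p‖ :=
    ((abs_real_inner_le_norm _ _).trans (by rw [h.norm_n hy, one_mul])).trans (m p hp)
  exact ⟨(y, _), ⟨hy, h4.trans_lt hx, h3⟩, h4⟩

theorem Rch.sgn (k : Ft S c x q) (h0 : q.2 ≠ 0) : 0 < q.2 * S.w x := by
  obtain ⟨p, t⟩ := q
  obtain ⟨k1, k2, rfl⟩ := k
  simp only at k1 k2 h0 ⊢
  let g := fun s : ℝ => t * S.w (p + (s * t) • S.n p)
  have cw := h.sw.continuous
  have cg : Continuous g := by fun_prop
  have d : HasDerivAt g (t * fderiv ℝ S.w p ((1 * t) • S.n p)) 0 := by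
    have a : HasFDerivAt S.w (fderiv ℝ S.w p) (p + ((0 : ℝ) * t) • S.n p) := by
      simpa using (h.dw p).hasFDerivAt
    exact (a.comp_hasDerivAt (0 : ℝ)
      ((((hasDerivAt_id (0 : ℝ)).mul_const t).smul_const _).const_add p)).const_mul t
  rw [h.fderiv_w k1, real_inner_smul_right, h.nn k1] at d
  have d0 : 0 < t * (‖gradient S.w p‖ * (1 * t * 1)) := by
    nlinarith [mul_pos (h.gpos k1) (mul_self_pos.2 h0)]
  obtain ⟨s, s1, s2⟩ := (((hasDerivAt_iff_tendsto_slope_zero.1 d).mono_left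
    (nhdsGT_le_nhdsNE 0) |>.eventually (lt_mem_nhds d0)).and
    (Ioo_mem_nhdsGT one_pos)).exists
  have s3 : 0 < g s := by
    simp only [zero_add, g, zero_mul, zero_smul, add_zero, k1, mul_zero, sub_zero, smul_eq_mul] at s1
    exact pos_of_mul_pos_right s1 (inv_pos.2 s2.1).le
  by_contra! hn
  obtain ⟨r, r1, r2⟩ := intermediate_value_Icc' s2.2.le cg.continuousOn
    (show (0 : ℝ) ∈ Icc (g 1) (g s) from ⟨by simpa [g] using hn, s3.le⟩)
  have r3 : |r * t| < 4 * c := by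
    rw [abs_mul, abs_of_pos (s2.1.trans_le r1.1)]
    nlinarith [abs_nonneg t, r1.2]
  have := h.uniq (x := p + (r * t) • S.n p) (q := (p, r * t)) (q' := (_, 0)) ⟨k1, r3, rfl⟩
    ⟨(mul_eq_zero.1 r2).resolve_left h0, by simpa using h.c0, by simp⟩
  exact mul_ne_zero (s2.1.trans_le r1.1).ne' h0 (congrArg Prod.snd this)

theorem Rch.loc (k : Ft S c x q) : ∃ G : E3 → E3 × ℝ, ContDiffAt ℝ ∞ G x ∧
    ∀ᶠ y in 𝓝 x, Ft S c y (G y) := by
  obtain ⟨p, t⟩ := q
  obtain ⟨k1, k2, rfl⟩ := k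
  simp only at k1 k2 ⊢
  have cF : ContDiffAt ℝ ∞ (fun q : E3 × ℝ => (q.1 + q.2 • S.n q.1, S.w q.1)) (p, t) :=
    (contDiffAt_fst.add (contDiffAt_snd.smul h.sn.contDiffAt.fst')).prodMk h.sw.contDiffAt.fst'
  have f1 : HasFDerivAt Prod.fst (ContinuousLinearMap.fst ℝ E3 ℝ) (p, t) := hasFDerivAt_fst
  have dF := (f1.add (hasFDerivAt_snd.smul (HasFDerivAt.comp (p, t) (f := Prod.fst)
    (h.dn p).hasFDerivAt f1))).prodMk ((h.dw p).hasFDerivAt.comp (p, t) f1)
  obtain ⟨L, hL, dF⟩ : ∃ L, _ = L ∧ HasFDerivAt _ L _ := ⟨_, rfl, dF⟩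
  have hi : Function.Injective L.toLinearMap := (injective_iff_map_eq_zero _).2 fun v hv => by
    subst hL
    obtain ⟨e1, e2⟩ := Prod.mk_eq_zero.1 hv
    simp [h.fderiv_w k1, h.reg p k1] at e1 e2
    have e4 := congr(⟪S.n p, $e1⟫)
    simp [inner_add_right, inner_smul_right, e2, h.n_dn k1, h.norm_n k1] at e4
    rw [e4, zero_smul, add_zero] at e1
    have e5 := h.tA k1 k2 v.1
    rw [Srf.A_apply, Srf.P_tan e2, ← neg_eq_of_add_eq_zero_right e1, norm_neg] at e5
    exact Prod.ext (norm_le_zero_iff.1 (by linarith)) e4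
  have dF' : HasFDerivAt (fun q : E3 × ℝ => (q.1 + q.2 • S.n q.1, S.w q.1))
    ((LinearEquiv.ofInjectiveEndo _ hi).toContinuousLinearEquiv : E3 × ℝ →L[ℝ] E3 × ℝ) (p, t) := dF
  have n0 : (∞ : WithTop ℕ∞) ≠ 0 := by simp
  have a := cF.to_localInverse dF' n0
  have b := cF.localInverse_apply_image dF' n0
  have d := (cF.hasStrictFDerivAt' dF' n0).eventually_right_inverse
  simp only [k1] at a b d
  have i : ContDiffAt ℝ ∞ (fun y : E3 => (y, (0 : ℝ))) (p + t • S.n p) := by fun_prop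
  have g := ContDiffAt.comp (f := fun y : E3 => (y, (0 : ℝ))) _ a i
  refine ⟨_, g, ?_⟩
  filter_upwards [i.continuousAt.eventually d, g.continuousAt.snd.abs.eventually_lt_const
    (by simpa [b] using k2)] with y y1 y2
  exact ⟨congrArg Prod.snd y1, y2, (congrArg Prod.fst y1).symm⟩

theorem Rch.ft_eq (k : Ft S c x q) : ft S c x = q := h.uniq (Classical.epsilon_spec ⟨q, k⟩) k

theorem Rch.ev (k : Ft S c x q) :
    ContDiffAt ℝ ∞ (ft S c) x ∧ ∀ᶠ y in 𝓝 x, Ft S c y (ft S c y) := by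
  obtain ⟨G, a, b⟩ := h.loc k
  exact ⟨a.congr_of_eventuallyEq (b.mono fun y hy => h.ft_eq hy),
    b.mono fun y hy => (h.ft_eq hy).symm ▸ hy⟩

theorem Rch.der (k : Ft S c x q) : HasFDerivAt (fun y => (ft S c y).2) (innerSL ℝ (S.n q.1)) x ∧
    ∃ D : E3 →L[ℝ] E3, HasFDerivAt (fun y => S.n (ft S c y).1) (S.A q.1 ∘L D) x ∧
      ∀ v, D v + q.2 • S.A q.1 (D v) = S.P q.1 v := by
  obtain ⟨c1, ev⟩ := h.ev k
  obtain rfl := h.ft_eq k
  have d := (c1.differentiableAt (by simp)).hasFDerivAt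
  have d1 := d.fst
  have d2 := d.snd
  have d3 := HasFDerivAt.comp x (f := fun y => (ft S c y).1) (h.dn _).hasFDerivAt d1
  have e1 := ((d1.add (d2.smul d3)).congr_of_eventuallyEq (ev.mono fun y hy => hy.2.2)).unique
    (hasFDerivAt_id x)
  have e2 := ((HasFDerivAt.comp x (f := fun y => (ft S c y).1) (h.dw _).hasFDerivAt
    d1).congr_of_eventuallyEq (ev.mono fun y hy => hy.1.symm)).unique (hasFDerivAt_const _ x)
  generalize fderiv ℝ (ft S c) x = D at *
  have e0 : ∀ v, ⟪S.n (ft S c x).1, (D v).1⟫ = 0 := fun v => by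
    simpa [h.fderiv_w k.1, h.reg _ k.1] using congr($e2 v)
  have e3 : ∀ v, (D v).2 = ⟪S.n (ft S c x).1, v⟫ := fun v => by
    simpa [inner_add_right, inner_smul_right, e0, h.n_dn k.1, h.norm_n k.1] using
      congr(⟪S.n (ft S c x).1, $e1 v⟫)
  refine ⟨d2.congr_fderiv (ContinuousLinearMap.ext e3), ContinuousLinearMap.fst ℝ E3 ℝ ∘L D,
    d3.congr_fderiv (ContinuousLinearMap.ext fun v => ?_), fun v => ?_⟩
  · simp [Srf.A_apply, Srf.P_tan (e0 v)]
  · have b := congr($e1 v)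
    simp [e3] at b
    simp [Srf.A_apply, Srf.P_tan (e0 v), Srf.P_apply, eq_sub_iff_add_eq, add_assoc, b]

omit h in
theorem ex_cut (c0 : 0 < c) : ∃ f : ℝ → ℝ, ContDiff ℝ ∞ f ∧ (∀ t, |t| ≤ c → f t = t) ∧
    (∀ t, 2 * c ≤ t → f t = 2 * c) ∧ (∀ t, t ≤ -(2 * c) → f t = -(2 * c)) ∧
    ∀ t, |f t| < c → |t| < c := by
  let σ := Real.smoothTransition
  have z : ∀ s, s ≤ c → σ ((s - c) / c) = 0 := fun s hs =>
    Real.smoothTransition.zero_of_nonpos (div_nonpos_of_nonpos_of_nonneg (by linarith) c0.le)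
  have o : ∀ s, 2 * c ≤ s → σ ((s - c) / c) = 1 := fun s hs =>
    Real.smoothTransition.one_of_one_le ((one_le_div c0).2 (by linarith))
  have cs : ContDiff ℝ ∞ σ := Real.smoothTransition.contDiff
  refine ⟨fun t => t + (2 * c - t) * σ ((t - c) / c) - (2 * c + t) * σ ((-t - c) / c),
    by fun_prop, fun t ht => ?_, fun t ht => ?_, fun t ht => ?_, fun t ht => ?_⟩ <;>
    beta_reduce at ht ⊢
  · rw [z t (abs_le.1 ht).2, z (-t) (by linarith [(abs_le.1 ht).1])]; ring
  · rw [o t ht, z (-t) (by linarith)]; ring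
  · rw [z t (by linarith), o (-t) (by linarith)]; ring
  · by_contra! k
    rcases le_abs.1 k with k | k
    · rw [z (-t) (by linarith)] at ht
      nlinarith [(abs_lt.1 ht).2, Real.smoothTransition.nonneg ((t - c) / c),
        Real.smoothTransition.le_one ((t - c) / c)]
    · rw [z t (by linarith)] at ht
      nlinarith [(abs_lt.1 ht).1, Real.smoothTransition.nonneg ((-t - c) / c),
        Real.smoothTransition.le_one ((-t - c) / c)]

/-- the signed distance function -/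
theorem Rch.sd : ∃ w : E3 → ℝ, ContDiff ℝ ∞ w ∧ (∀ x, S.w x = 0 → w x = 0) ∧
    ∀ x, |w x| < c → ∃ q, Ft S c x q ∧ w =ᶠ[𝓝 x] fun y => (ft S c y).2 := by
  classical
  have c0 := h.c0
  obtain ⟨f, f0, f1, f2, f3, f4⟩ := ex_cut c0
  let w : E3 → ℝ := fun x =>
    if ∃ q, Ft S c x q then f (ft S c x).2 else if 0 < S.w x then 2 * c else -(2 * c)
  have eq : ∀ {x q}, Ft S c x q → w x = f q.2 := fun {x q} k => by
    simp only [w]; rw [if_pos ⟨q, k⟩, h.ft_eq k]
  have far : ∀ x, (∀ p, S.w p = 0 → 2 * c ≤ ‖x - p‖) →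
      w x = if 0 < S.w x then 2 * c else -(2 * c) := fun x k => by
    by_cases e : ∃ q, Ft S c x q
    · obtain ⟨q, e⟩ := e
      have a := k _ e.1
      rw [h.nrm' e] at a
      have b := h.sgn e (abs_pos.1 (by linarith))
      rw [eq e]
      rcases le_abs.1 a with a | a
      · rw [f2 _ a, if_pos (pos_of_mul_pos_right b (by linarith))]
      · rw [f3 _ (by linarith), if_neg (by nlinarith)]
    · exact if_neg e
  refine ⟨w, contDiff_iff_contDiffAt.2 fun x => ?_, fun x hx => ?_, fun x hx => ?_⟩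
  · by_cases k : ∀ p, S.w p = 0 → 3 * c ≤ ‖x - p‖
    · have cw := h.sw.continuous.continuousAt (x := x)
      have : ∀ᶠ y in 𝓝 x, (0 < S.w y ↔ 0 < S.w x) := by
        rcases lt_or_gt_of_ne (show S.w x ≠ 0 from fun e => by
          have := k x e; rw [sub_self, norm_zero] at this; linarith) with b | b
        · exact (cw.eventually_lt_const b).mono fun y hy => iff_of_false hy.not_gt b.not_gt
        · exact (cw.eventually_const_lt b).mono fun y hy => iff_of_true hy b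
      refine (contDiffAt_const (c := if 0 < S.w x then 2 * c else -(2 * c))).congr_of_eventuallyEq ?_
      filter_upwards [this, ball_mem_nhds x c0] with y y1 y2
      rw [far y fun p hp => ?_, if_congr y1 rfl rfl]
      linarith [k p hp, norm_sub_le_norm_sub_add_norm_sub x y p, mem_ball_iff_norm'.1 y2]
    · push Not at k
      obtain ⟨p, hp, k⟩ := k
      obtain ⟨q, k, -⟩ := h.ex hp (k.trans (by linarith))
      exact (f0.contDiffAt.comp x (h.ev k).1.snd).congr_of_eventuallyEq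
        ((h.ev k).2.mono fun y hy => eq hy)
  · rw [eq (q := (x, 0)) ⟨hx, by simpa using c0, by simp⟩, f1 _ (by simpa using c0.le)]
  · by_cases e : ∃ q, Ft S c x q
    · obtain ⟨q, k⟩ := e
      refine ⟨q, k, ?_⟩
      rw [eq k, ← h.ft_eq k] at hx
      filter_upwards [(h.ev k).2, (h.ev k).1.continuousAt.snd.abs.eventually_lt_const (f4 _ hx)]
        with y y1 y2
      rw [eq y1, f1 _ y2.le]
    · simp only [w, if_neg e] at hx
      split_ifs at hx
      · linarith [le_abs_self (2 * c)]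
      · linarith [neg_abs_le (-(2 * c)), le_abs_self (2 * c), abs_neg (2 * c)]

end Tube

open Tube in
theorem tube : TUBE := by
  intro S c B hS hφ c0 k
  obtain ⟨ρ, h⟩ := ex_rch hS c0 k
  obtain ⟨w, w0, w1, w2⟩ := h.sd
  have ρ0 := h.c0
  have key : ∀ x, |w x| < ρ → ∃ q, Ft S ρ x q ∧ w x = q.2 ∧ gradient w x = S.n q.1 ∧
      ∃ D : E3 →L[ℝ] E3, fderiv ℝ (gradient w) x = S.A q.1 ∘L D ∧
        ∀ v, D v + q.2 • S.A q.1 (D v) = S.P q.1 v := fun x hx => by
    obtain ⟨q, k, e⟩ := w2 x hx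
    obtain ⟨D, d1, d2⟩ := (h.der k).2
    have g : gradient w =ᶠ[𝓝 x] fun y => S.n (ft S ρ y).1 := by
      filter_upwards [e.eventually_nhds, (h.ev k).2] with y y1 y2
      refine ext_inner_right ℝ fun v => ?_
      rw [inner_grad, ((h.der y2).1.congr_of_eventuallyEq y1).fderiv, innerSL_apply_apply]
    exact ⟨q, k, by rw [e.eq_of_nhds, h.ft_eq k], by rw [g.eq_of_nhds, h.ft_eq k], D,
      (d1.congr_of_eventuallyEq g).fderiv, d2⟩
  refine ⟨w, ρ, 2 * (16 * ρ)⁻¹, ⟨ρ0, w0.of_le (WithTop.coe_le_coe.2 (le_top (a := (3 : ℕ∞)))),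
    fun x => ⟨w1 x, fun hx => ?_⟩, fun x hx => ?_, fun x hx => ?_, fun x hx => ?_⟩, w0⟩
  · obtain ⟨q, k, e, -⟩ := key x (by rwa [hx, abs_zero])
    rw [k.2.2, ← e, hx, zero_smul, add_zero]; exact k.1
  · obtain ⟨q, k, -, e, -⟩ := key x hx
    rw [e, hS.norm_n k.1]
  · obtain ⟨q, k, -, -, D, e, d⟩ := key x hx
    rw [e]
    refine ContinuousLinearMap.opNorm_le_bound _ (by positivity) fun v => ?_
    have a : ‖D v‖ ≤ 2 * ‖v‖ := by
      have b := norm_sub_le (S.P q.1 v) (q.2 • S.A q.1 (D v))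
      rw [← eq_sub_of_add_eq (d v)] at b
      linarith [h.tA k.1 k.2.1 (D v), hS.norm_P_le k.1 v, norm_nonneg v]
    have b : ‖S.A q.1‖ ≤ (16 * ρ)⁻¹ := by
      rw [inv_eq_one_div, le_div_iff₀' (by positivity)]; exact h.curv _ k.1
    exact ((S.A q.1).le_of_opNorm_le_of_le b a).trans (le_of_eq (by ring))
  · obtain ⟨q, k, e0, e1, D, e, d⟩ := key x (by rwa [w1 x hx, abs_zero])
    have q0 : q.2 = 0 := e0.symm.trans (w1 x hx)
    have q1 : q.1 = x := by rw [k.2.2, q0, zero_smul, add_zero]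
    simp only [q0, zero_smul, add_zero, q1] at d e e1
    have := hφ x hx
    rw [P218.H63.lap, e, ContinuousLinearMap.ext d, hS.AP hx, ← trc_eq_trace, e1]
    exact sub_eq_zero.1 this

end Vale.Agent.P218E
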