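import Vale.Agent.P218R.Stm
import Vale.Agent.P218T.Model

/-!
# P218E: definitions for the blocks DEN (multiplicity one everywhere) and ENDS
-/

open MeasureTheory Metric Filter Topology Set
open scoped ContDiff ENNReal RealInnerProductSpace
open Vale.Agent.P366.Stmt (E)
open Vale.Agent.P366W (trc dvg Fr)
open Vale.Agent.P218 (limitSet WeakTendsto)
open Vale.Agent.P218R

noncomputable section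

namespace Vale.Agent.P218E

/-! ### DEN -/

/-- `x` has a neighbour within distance `2 e` in a direction close to the normal -/
def Pair (S : Srf) (x : E3) (e : ℝ) : Prop :=
  ∃ y ∈ S.G, y ≠ x ∧ ‖y - x‖ ≤ 2 * e ∧ ‖y - x‖ / 2 ≤ |⟪y - x, S.n x⟫|

/-- many separated balls of radius `r` with area ratio at least `1 + κ` -/
def Many (μ : Measure E3) (R₀ κ m₀ r : ℝ) : Prop :=
  ∃ Z : Finset E3, (∀ z ∈ Z, ‖z‖ ≤ R₀) ∧ (Z : Set E3).Pairwise (fun z z' => 2 * r ≤ dist z z') ∧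
    m₀ ≤ Z.card * r ^ 2 ∧ ∀ z ∈ Z, ENNReal.ofReal ((1 + κ) * Real.pi * r ^ 2) ≤ μ (ball z r)

/-- the same with a strict inequality -/
def ManyS (μ : Measure E3) (R₀ κ m₀ r : ℝ) : Prop :=
  ∃ Z : Finset E3, (∀ z ∈ Z, ‖z‖ ≤ R₀) ∧ (Z : Set E3).Pairwise (fun z z' => 2 * r ≤ dist z z') ∧
    m₀ ≤ Z.card * r ^ 2 ∧ ∀ z ∈ Z, ENNReal.ofReal ((1 + κ) * Real.pi * r ^ 2) < μ (ball z r)

/-- the dissipation in a ball -/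
def dsb (S : Srf) (R : ℝ) : ℝ≥0∞ := ∫⁻ x in ball (0 : E3) R, ENNReal.ofReal (S.φ x ^ 2) ∂S.μ

/-- **DPR**: the output of the block MULT1 -/
def DPR : Prop := ∀ Λ G κ m₀ R₀ : ℝ, 0 < κ → 0 < m₀ → ∃ R' > (0 : ℝ), ∃ m' > (0 : ℝ),
  ∃ D₀ > (0 : ℝ), ∃ e₀ > (0 : ℝ), ∃ J : ℕ, ∀ (F : Flw) (a b t₀ τ₁ τ₂ e : ℝ) (x₀ : E3),
    F.Good a b Λ G → τ₁ ≤ τ₂ → a < t₀ - Real.exp (-2 * τ₁) → t₀ ≤ b → 0 < e → e ≤ e₀ →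
    ∫⁻ τ in Icc τ₁ τ₂, dsb (F.rsl x₀ t₀ τ) R' ≤ ENNReal.ofReal D₀ →
    (F.rsl x₀ t₀ τ₁).μ {x ∈ ball (0 : E3) R' | Pair (F.rsl x₀ t₀ τ₁) x e} ≤ ENNReal.ofReal m' →
    dsb (F.rsl x₀ t₀ τ₂) R' ≤ 1 → ∃ j ≤ J, ¬ Many (F.rsl x₀ t₀ τ₂).μ R₀ κ m₀ (e / 10 / 2 ^ j)

/-- the measure `κ` seen from `p` under the magnification `l` -/
def zm (κ : Measure E3) (p : E3) (l : ℝ) : Measure E3 :=
  ENNReal.ofReal (l ^ 2) • κ.map (fun x => l • (x - p))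

/-- good slices converging to `κ` -/
structure GSeq (S : ℕ → Srf) (Λ : ℝ) (κ : Measure E3) : Prop where
  pos : 0 < Λ
  lf : IsLocallyFiniteMeasure κ
  ok : ∀ᶠ i in atTop, (S i).Ok ∧ AR Λ (S i).μ
  en : ∀ R : ℝ, ∃ C : ℝ, ∀ᶠ i in atTop, ∫ x in ball (0 : E3) R, (S i).A2 x ∂(S i).μ ≤ C
  ph : ∀ R : ℝ, Tendsto (fun i => ∫ x in closedBall (0 : E3) R, (S i).φ x ^ 2 ∂(S i).μ) atTop (𝓝 0)
  wk : WeakTendsto (fun i => (S i).μ) κ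

/-- the points at which the Gaussian ratios stay above `1 + ε` -/
def Hi (κ : Measure E3) (ε : ℝ) : Set E3 := {p | ∀ᶠ ρ in 𝓝[>] (0 : ℝ), 1 + ε < gs κ p ρ}

/-! ### ENDS -/

/-- parameters and a fibre coordinate -/
abbrev P3 := (ℝ × ℝ) × ℝ

/-- a single graph over the tangent plane at `p`, at a scale at least `r` -/
def RG (S : Srf) (p : E3) (r : ℝ) (C : ℕ → ℝ) : Prop :=
  ∃ r', r ≤ r' ∧ ∃ L, Fr (S.n p) L ∧ S.Reg p (S.n p) L r' C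

/-- `F` is a local defining function of `{w = 0}` in the ball of radius `c` about `p`, with
gradient close to the unit vector `e` and with bounds for all derivatives -/
structure Ldf (w : E3 → ℝ) (p e : E3) (c : ℝ) (B : ℕ → ℝ) (F : E3 → ℝ) : Prop where
  unit : ‖e‖ = 1
  sm : ContDiffOn ℝ ∞ F (ball p c)
  neg : ∀ x ∈ ball p c, w x < 0 ↔ F x < 0
  zero : ∀ x ∈ ball p c, w x = 0 ↔ F x = 0
  tilt : ∀ x ∈ ball p c, ‖fderiv ℝ F x - innerSL ℝ e‖ ≤ 1 / 100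
  bd : ∀ k, ∀ x ∈ ball p c, ‖iteratedFDeriv ℝ k F x‖ ≤ B k

/-- there is a local defining function -/
def HasL (w : E3 → ℝ) (p : E3) (c : ℝ) (B : ℕ → ℝ) : Prop := ∃ e F, Ldf w p e c B F

/-- the defining function of the surface `μ⁻¹ S` -/
def wm (S : Srf) (μ : ℝ) (x : E3) : ℝ := S.w (μ • x)

/-- the distance from the axis `ℝ e` -/
def rad (e x : E3) : ℝ := ‖x - ⟪e, x⟫ • e‖

/-- `S - λ e` converges to the cylinder with axis `e` -/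
def CyD (S : Srf) (e : E3) : Prop := ∀ R : ℝ, ∀ η > (0 : ℝ), ∀ᶠ l : ℝ in atTop,
  (∀ p ∈ S.G, ‖p - l • e‖ ≤ R → |rad e p - √2| ≤ η) ∧
    ∀ q, rad e q = √2 → ‖q - l • e‖ ≤ R → ∃ p ∈ S.G, ‖p - q‖ ≤ η

/-- the ray is asymptotic to `S` -/
def PlD (S : Srf) (e : E3) : Prop := ∀ η > (0 : ℝ), ∀ᶠ l : ℝ in atTop, ∃ p ∈ S.G, ‖p - l • e‖ ≤ η

/-- the ray moves away from `S` -/
def EmD (S : Srf) (e : E3) : Prop := ∀ R : ℝ, ∀ᶠ l : ℝ in atTop, ∀ p ∈ S.G, R ≤ ‖p - l • e‖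

/-- Gaussian ratios close to one along the ray -/
def FlD (S : Srf) (e : E3) : Prop := ∀ ε > (0 : ℝ), ∀ᶠ l : ℝ in atTop, ∀ y ∈ ball (l • e) 1,
  ∀ ρ ∈ Icc (1 / 2 : ℝ) 1, gs S.μ y ρ ≤ 1 + ε

/-- the geometry of a shrinker at infinity: `A` are the axes, `Γ` is the link of the cone -/
structure Geo (S : Srf) (A : Finset E3) (Γ : Set E3) (c δ : ℝ) (B : ℕ → ℝ) : Prop where
  cpos : 0 < c
  dpos : 0 < δ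
  unit : ∀ e ∈ A, ‖e‖ = 1
  cpt : IsCompact Γ
  sph : ∀ g ∈ Γ, ‖g‖ = 1
  sep : ∀ e ∈ A, e ∉ Γ
  ureg : ∀ p ∈ S.G, HasL S.w p c B
  creg : ∀ᶠ μ : ℝ in atTop, ∀ p, (∃ g ∈ Γ, ‖p - g‖ ≤ δ) → wm S μ p = 0 → HasL (wm S μ) p c B
  con1 : ∀ η > (0 : ℝ), ∀ᶠ μ : ℝ in atTop, ∀ x, (∃ g ∈ Γ, ‖x - g‖ ≤ δ) → wm S μ x = 0 →
    ∃ g ∈ Γ, ‖x - ‖x‖ • g‖ ≤ η
  con2 : ∀ η > (0 : ℝ), ∀ᶠ μ : ℝ in atTop, ∀ g ∈ Γ, ∃ p, wm S μ p = 0 ∧ ‖p - g‖ ≤ η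
  cyl1 : ∀ e ∈ A, ∀ η > (0 : ℝ), ∃ R : ℝ, ∀ p ∈ S.G, R ≤ ⟪e, p⟫ → rad e p ≤ 3 →
    |rad e p - √2| ≤ η
  cyl2 : ∀ e ∈ A, ∀ η > (0 : ℝ), ∃ R : ℝ, ∀ q, rad e q = √2 → R ≤ ⟪e, q⟫ →
    ∃ p ∈ S.G, ‖p - q‖ ≤ η
  cov : ∀ η > (0 : ℝ), ∀ R₁ : ℝ, ∃ R : ℝ, ∀ p ∈ S.G, R ≤ ‖p‖ →
    (∃ e ∈ A, R₁ ≤ ⟪e, p⟫ ∧ rad e p ≤ 3) ∨ ∃ g ∈ Γ, ‖‖p‖⁻¹ • p - g‖ ≤ η

/-- flatness of `Γ` along the curve `γ` -/
def Flt (Γ : Set E3) (γ n : ℝ → E3) : Prop := ∀ ε > (0 : ℝ), ∃ δ > (0 : ℝ), ∀ θ, ∀ g ∈ Γ,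
  ‖g - γ θ‖ ≤ δ → |⟪g - γ θ, n θ⟫| ≤ ε * ‖g - γ θ‖

/-- the box about the parameter `y` -/
def box (y : ℝ × ℝ) (ρ τ : ℝ) : Set P3 := ball y ρ ×ˢ Ioo (-τ) τ

end Vale.Agent.P218E
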