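import Vale.Agent.P218R.All1
import Vale.Agent.P218R.WAll
import Vale.Agent.P218M1.Br
import Vale.Agent.P218E.Blow
import Vale.Agent.P218E.Cone
import Vale.Agent.P218E.Curve
import Vale.Agent.P218E.Cyle
import Vale.Agent.P218E.Da
import Vale.Agent.P218E.Dc
import Vale.Agent.P218E.Dir
import Vale.Agent.P218E.Ends
import Vale.Agent.P218E.Flat
import Vale.Agent.P218E.Inv
import Vale.Agent.P218E.Ldf
import Vale.Agent.P218E.Link
import Vale.Agent.P218E.Ncy
import Vale.Agent.P218E.Near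
import Vale.Agent.P218E.Nop
import Vale.Agent.P218E.Omega
import Vale.Agent.P218E.Q8
import Vale.Agent.P218E.Root
import Vale.Agent.P218E.Top
import Vale.Agent.P218E.Tri
import Vale.Agent.P218E.Tube

/-!
# P218E: the blocks DEN and ENDS, assembled
-/

open MeasureTheory Set
open Vale.Agent.P218 (TangentFlowUnique IsTangentFlow IsIntegralBrakkeFlow)
open Vale.Agent.P218R
open Vale.Agent.P218T (TStar IsEndedShrinker)

namespace Vale.Agent.P218E

theorem ball0 : BALL := ball' (blow (near (q8 fv')) fv')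

theorem den' (h : DPR) : DEN :=
  den h (da h slw' ball0 nop (dis hur')) slw' (loc' wh) ball0 nop (dis hur')

theorem ends' (h : TF) : ENDS :=
  have r := ray h slw' (loc' wh) sml' low'
  ends (dir r (tri r (inv' curve odeg) sml') (ncy wh) (iso wh (far gsl)) ldf) tube
    (cyle (root ifb) cb ldf) (omega' ulim ldf) (link odeg) (cone (root ifb) cb ldf)

/-- everything from the three remaining statements -/
theorem top' (hS : TStar) (hM : P218M1.MONO) (hD : P218M1.DP) (M : ℝ → Set E3) (T : ℝ)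
    (h : IsSmoothMCF M T) (μ : ℝ → Measure E3) (hB : IsIntegralBrakkeFlow 2 μ)
    (h0 : μ 0 univ < ⊤) (hμ : ∀ t ∈ Ioo 0 T, μ t = (μH[2] : Measure E3).restrict (M t))
    (x₀ : E3) (t₀ : ℝ) (ht : t₀ ∈ Ioc 0 T) :
    TangentFlowUnique 2 μ x₀ t₀ ∧ ∀ ν, IsTangentFlow 2 μ x₀ t₀ ν →
      ∃ S, IsEndedShrinker S ∧ ν (-1) = (μH[2] : Measure E3).restrict S :=
  have tf := tf' wh (den' (P218M1.dpr hD))
  top hS (clo' (P218M1.mono32 hM)) tf (ends' tf) M T h μ hB h0 hμ x₀ t₀ ht

end Vale.Agent.P218E
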