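import Vale.Agent.P218E.Spec

/-!
# P218E: the rows CB, IFB, ULIM
-/

open Metric Filter Topology Set
open scoped ContDiff Nat

noncomputable section

namespace Vale.Agent.P218E

namespace Calc

variable {X Y Z : Type} [NormedAddCommGroup X] [NormedSpace ℝ X] [NormedAddCommGroup Y]
  [NormedSpace ℝ Y] [NormedAddCommGroup Z] [NormedSpace ℝ Z]

theorem nat_le (n : ℕ) : (n : WithTop ℕ∞) ≤ ∞ := by exact_mod_cast le_top

/-- a common bound for the first terms of a sequence -/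
def sm (B : ℕ → ℝ) (n : ℕ) : ℝ := ∑ i ∈ Finset.range (n + 1), |B i|

theorem sm_nonneg (B : ℕ → ℝ) (n : ℕ) : 0 ≤ sm B n := Finset.sum_nonneg fun _ _ => abs_nonneg _

theorem le_sm (B : ℕ → ℝ) {i n : ℕ} (h : i ≤ n) : B i ≤ sm B n :=
  (le_abs_self _).trans (Finset.single_le_sum (f := fun i => |B i|) (fun _ _ => abs_nonneg _)
    (Finset.mem_range.2 (Nat.lt_succ_of_le h)))

/-- the bound for a composition -/
def cbd (B₁ B₂ : ℕ → ℝ) (n : ℕ) : ℝ := n ! * sm B₁ n * (1 + sm B₂ n) ^ n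

theorem comp_le {f : Y → Z} {g : X → Y} {O' : Set Y} {O : Set X} (hO' : IsOpen O')
    (hO : IsOpen O) (hf : ContDiffOn ℝ ∞ f O') (hg : ContDiffOn ℝ ∞ g O) (h : MapsTo g O O')
    {q : X} (hq : q ∈ O) {n : ℕ} {B₁ B₂ : ℕ → ℝ}
    (h1 : ∀ i ≤ n, ‖iteratedFDeriv ℝ i f (g q)‖ ≤ B₁ i)
    (h2 : ∀ i, 1 ≤ i → i ≤ n → ‖iteratedFDeriv ℝ i g q‖ ≤ B₂ i) :
    ‖iteratedFDeriv ℝ n (f ∘ g) q‖ ≤ cbd B₁ B₂ n := by
  rw [← iteratedFDerivWithin_of_isOpen n hO hq]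
  refine norm_iteratedFDerivWithin_comp_le hf hg (nat_le n) hO'.uniqueDiffOn hO.uniqueDiffOn h hq
    (fun i hi => ?_) fun i hi hi' => ?_
  · rw [iteratedFDerivWithin_of_isOpen i hO' (h hq)]
    exact (h1 i hi).trans (le_sm _ hi)
  · rw [iteratedFDerivWithin_of_isOpen i hO hq]
    have := sm_nonneg B₂ n
    exact (h2 i hi hi').trans ((le_sm _ hi').trans ((le_add_of_nonneg_left zero_le_one).trans
      (le_self_pow₀ (by linarith) (by omega))))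

/-- the bound for a product -/
def mbd (B₁ B₂ : ℕ → ℝ) (n : ℕ) : ℝ :=
  ∑ i ∈ Finset.range (n + 1), (n.choose i : ℝ) * B₁ i * B₂ (n - i)

theorem smul_le {f : X → ℝ} {g : X → Y} {O : Set X} (hO : IsOpen O) (hf : ContDiffOn ℝ ∞ f O)
    (hg : ContDiffOn ℝ ∞ g O) {q : X} (hq : q ∈ O) {B₁ B₂ : ℕ → ℝ}
    (h1 : ∀ i, ‖iteratedFDeriv ℝ i f q‖ ≤ B₁ i) (h2 : ∀ i, ‖iteratedFDeriv ℝ i g q‖ ≤ B₂ i)
    (n : ℕ) : ‖iteratedFDeriv ℝ n (fun y => f y • g y) q‖ ≤ mbd B₁ B₂ n := by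
  rw [← iteratedFDerivWithin_of_isOpen n hO hq]
  refine (norm_iteratedFDerivWithin_smul_le hf hg hO.uniqueDiffOn hq (nat_le n)).trans
    (Finset.sum_le_sum fun i _ => ?_)
  rw [iteratedFDerivWithin_of_isOpen _ hO hq, iteratedFDerivWithin_of_isOpen _ hO hq]
  have := (norm_nonneg _).trans (h1 i)
  gcongr
  exacts [h1 i, h2 _]

theorem inv_le {a t : ℝ} (ha : 0 < a) (h : a ≤ |t|) (i : ℕ) :
    ‖iteratedFDeriv ℝ i (Inv.inv : ℝ → ℝ) t‖ ≤ i ! * a⁻¹ ^ (i + 1) := by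
  rw [norm_iteratedFDeriv_eq_norm_iteratedDeriv, iteratedDeriv_eq_iterate, iter_deriv_inv,
    show (-1 - i : ℤ) = -((i + 1 : ℕ) : ℤ) by push_cast; ring, zpow_neg, zpow_natCast, ← inv_pow]
  simp only [norm_mul, norm_pow, norm_neg, norm_one, one_pow, one_mul, norm_inv, Real.norm_eq_abs,
    Nat.abs_cast]
  gcongr

theorem id_le (i : ℕ) (hi : 1 ≤ i) (y : X) : ‖iteratedFDeriv ℝ i (fun y : X => y) y‖ ≤ 1 := by
  obtain ⟨i, rfl⟩ : ∃ j, i = j + 1 := ⟨i - 1, by omega⟩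
  have h : fderiv ℝ (fun y : X => y) = fun _ => ContinuousLinearMap.id ℝ X :=
    funext fun _ => fderiv_fun_id
  rw [← norm_iteratedFDeriv_fderiv, h]
  rcases eq_or_ne i 0 with rfl | h0
  · rw [norm_iteratedFDeriv_zero]
    exact ContinuousLinearMap.norm_id_le
  · rw [iteratedFDeriv_const_of_ne h0]
    simp

/-- the derivative of an implicit function -/
def Ψ (F : X × ℝ → ℝ) (q : X × ℝ) : X →L[ℝ] ℝ :=
  (fderiv ℝ F q (0, 1))⁻¹ • -(fderiv ℝ F q ∘L ContinuousLinearMap.inl ℝ X ℝ)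

theorem fderiv_eq {F : X × ℝ → ℝ} {g : X → ℝ} {y : X} (hF : DifferentiableAt ℝ F (y, g y))
    (hg : DifferentiableAt ℝ g y) (h : ∀ᶠ z in 𝓝 y, F (z, g z) = 0)
    (h0 : fderiv ℝ F (y, g y) (0, 1) ≠ 0) : fderiv ℝ g y = Ψ F (y, g y) := by
  have h1 := (hF.hasFDerivAt.comp y ((hasFDerivAt_id y).prodMk hg.hasFDerivAt)).unique
    ((hasFDerivAt_const (0 : ℝ) y).congr_of_eventuallyEq h)
  ext v
  have h2 := congrArg (fun L : X →L[ℝ] ℝ => L v) h1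
  have h3 : ((v, fderiv ℝ g y v) : X × ℝ) = (v, 0) + fderiv ℝ g y v • ((0, 1) : X × ℝ) := by simp
  simp only [ContinuousLinearMap.comp_apply, ContinuousLinearMap.prod_apply,
    ContinuousLinearMap.id_apply, zero_apply] at h2
  rw [h3, map_add, map_smul, smul_eq_mul] at h2
  simp only [Ψ, smul_apply, neg_apply,
    ContinuousLinearMap.comp_apply, ContinuousLinearMap.inl_apply, smul_eq_mul]
  field_simp
  linarith

theorem psi_le {a : ℝ} (ha : 0 < a) (B : ℕ → ℝ) : ∃ B' : ℕ → ℝ, ∀ (F : X × ℝ → ℝ)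
    (O : Set (X × ℝ)), IsOpen O → ContDiffOn ℝ ∞ F O → (∀ q ∈ O, a ≤ |fderiv ℝ F q (0, 1)|) →
    (∀ k, ∀ q ∈ O, ‖iteratedFDeriv ℝ k F q‖ ≤ B k) →
    ContDiffOn ℝ ∞ (Ψ F) O ∧ ∀ k, ∀ q ∈ O, ‖iteratedFDeriv ℝ k (Ψ F) q‖ ≤ B' k := by
  let L₁ : (X × ℝ →L[ℝ] ℝ) →L[ℝ] ℝ := ContinuousLinearMap.apply ℝ ℝ ((0, 1) : X × ℝ)
  let L₂ : (X × ℝ →L[ℝ] ℝ) →L[ℝ] (X →L[ℝ] ℝ) :=
    -(ContinuousLinearMap.compL ℝ X (X × ℝ) ℝ).flip (ContinuousLinearMap.inl ℝ X ℝ)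
  refine ⟨mbd (cbd (fun i => i ! * a⁻¹ ^ (i + 1)) fun i => ‖L₁‖ * B (i + 1))
    fun i => ‖L₂‖ * B (i + 1), fun F O hO hF h1 h2 => ?_⟩
  have hD : ContDiffOn ℝ ∞ (fderiv ℝ F) O := hF.fderiv_of_isOpen hO (by simp)
  have e : Ψ F = fun q => ((Inv.inv : ℝ → ℝ) ∘ L₁ ∘ fderiv ℝ F) q • (L₂ ∘ fderiv ℝ F) q := rfl
  have hm : MapsTo (L₁ ∘ fderiv ℝ F) O {0}ᶜ := fun q hq =>
    abs_pos.1 (ha.trans_le (h1 q hq))
  have hi : ContDiffOn ℝ ∞ (Inv.inv : ℝ → ℝ) {0}ᶜ := contDiffOn_inv ℝ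
  have k1 := L₁.contDiff.comp_contDiffOn hD
  have k2 := L₂.contDiff.comp_contDiffOn hD
  have k3 : ∀ {W : Type} [NormedAddCommGroup W] [NormedSpace ℝ W] (L : (X × ℝ →L[ℝ] ℝ) →L[ℝ] W)
      (i : ℕ), ∀ q ∈ O, ‖iteratedFDeriv ℝ i (L ∘ fderiv ℝ F) q‖ ≤ ‖L‖ * B (i + 1) :=
    fun L i q hq => (L.norm_iteratedFDeriv_comp_left (hD.contDiffAt (hO.mem_nhds hq))
      (nat_le i)).trans (by rw [norm_iteratedFDeriv_fderiv]; gcongr; exact h2 _ q hq)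
  rw [e]
  exact ⟨(hi.comp k1 hm).smul k2, fun k q hq => smul_le hO (hi.comp k1 hm) k2 hq
    (fun i => comp_le isOpen_compl_singleton hO hi k1 hm hq (fun j _ => inv_le ha (h1 q hq) j)
      fun j _ _ => k3 L₁ j q hq) (fun i => k3 L₂ i q hq) k⟩

theorem impl_le {a : ℝ} (ha : 0 < a) (B : ℕ → ℝ) (n : ℕ) : ∃ C : ℝ, ∀ (F : X × ℝ → ℝ)
    (O : Set (X × ℝ)) (g : X → ℝ) (V : Set X), IsOpen O → IsOpen V → ContDiffOn ℝ ∞ F O →
    ContDiffOn ℝ ∞ g V → (∀ y ∈ V, (y, g y) ∈ O ∧ F (y, g y) = 0) →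
    (∀ q ∈ O, a ≤ |fderiv ℝ F q (0, 1)|) → (∀ k, ∀ q ∈ O, ‖iteratedFDeriv ℝ k F q‖ ≤ B k) →
    ∀ k, 1 ≤ k → k ≤ n → ∀ y ∈ V, ‖iteratedFDeriv ℝ k g y‖ ≤ C := by
  induction n with
  | zero => exact ⟨0, fun _ _ _ _ _ _ _ _ _ _ _ k h h' => by omega⟩
  | succ n ih =>
    obtain ⟨C, hC⟩ := ih
    obtain ⟨B', hB⟩ := psi_le (X := X) ha B
    refine ⟨max C (cbd B' (fun _ => max 1 C) n), fun F O g V hO hV hF hg h0 h1 h2 k hk hk' y hy => ?_⟩
    rcases hk'.eq_or_lt with rfl | hk'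
    swap
    · exact (hC F O g V hO hV hF hg h0 h1 h2 k hk (by omega) y hy).trans (le_max_left _ _)
    obtain ⟨h3, h4⟩ := hB F O hO hF h1 h2
    have e : fderiv ℝ g =ᶠ[𝓝 y] Ψ F ∘ fun z => (z, g z) := by
      filter_upwards [hV.mem_nhds hy] with z hz
      exact fderiv_eq ((hF.contDiffAt (hO.mem_nhds (h0 z hz).1)).differentiableAt (by simp))
        ((hg.contDiffAt (hV.mem_nhds hz)).differentiableAt (by simp))
        (mem_of_superset (hV.mem_nhds hz) fun w hw => (h0 w hw).2)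
        (abs_pos.1 (ha.trans_le (h1 _ (h0 z hz).1)))
    rw [← norm_iteratedFDeriv_fderiv, (e.iteratedFDeriv ℝ n).eq_of_nhds]
    refine (comp_le hO hV h3 (contDiffOn_id.prodMk hg) (fun z hz => (h0 z hz).1) hy
      (fun i _ => h4 i _ (h0 y hy).1) fun i hi hi' => ?_).trans (le_max_right _ _)
    rw [iteratedFDeriv_prodMk contDiffAt_id (hg.contDiffAt (hV.mem_nhds hy))
      (nat_le i), ContinuousMultilinearMap.opNorm_prod]
    exact max_le_max (id_le i hi y) (hC F O g V hO hV hF hg h0 h1 h2 i hi hi' y hy)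

/-! ### Limits along an ultrafilter -/

variable {ι : Type} (U : Ultrafilter ι) {s : Set X}

/-- uniformly bounded families of smooth functions -/
def Bd (s : Set X) (F : ι → X → Y) (B : ℕ → ℝ) : Prop :=
  ∀ᶠ i in (U : Filter ι), ContDiffOn ℝ ∞ (F i) s ∧ ∀ k, ∀ x ∈ s, ‖iteratedFDeriv ℝ k (F i) x‖ ≤ B k

/-- the limit -/
def lm (F : ι → X → Y) (x : X) : Y := limUnder (U : Filter ι) fun i => F i x

variable {U} {F : ι → X → Y} {B : ℕ → ℝ}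

theorem Bd.fderiv (hs : IsOpen s) (h : Bd U s F B) :
    Bd U s (fun i => fderiv ℝ (F i)) fun k => B (k + 1) :=
  h.mono fun _ hi => ⟨hi.1.fderiv_of_isOpen hs (by simp), fun k x hx => by
    rw [norm_iteratedFDeriv_fderiv]
    exact hi.2 _ x hx⟩

theorem Bd.tendsto [FiniteDimensional ℝ Y] (h : Bd U s F B) {x : X} (hx : x ∈ s) :
    Tendsto (fun i => F i x) U (𝓝 (lm U F x)) := by
  have : ProperSpace Y := FiniteDimensional.proper_real Y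
  obtain ⟨y, -, hy⟩ := (isCompact_closedBall (0 : Y) (B 0)).ultrafilter_le_nhds
    (U.map fun i => F i x) (le_principal_iff.2 (h.mono fun i hi => by
      have h1 := hi.2 0 x hx
      rw [norm_iteratedFDeriv_zero] at h1
      exact mem_closedBall_zero_iff.2 h1))
  exact tendsto_nhds_limUnder ⟨y, hy⟩

theorem taylor {f : X → Y} (hs : IsOpen s) (hc : Convex ℝ s) (hf : ContDiffOn ℝ ∞ f s) {C : ℝ}
    (h : ∀ x ∈ s, ‖iteratedFDeriv ℝ 2 f x‖ ≤ C) {x y : X} (hx : x ∈ s) (hy : y ∈ s) :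
    ‖f y - f x - fderiv ℝ f x (y - x)‖ ≤ C * ‖y - x‖ * ‖y - x‖ := by
  have hD : ContDiffOn ℝ ∞ (fderiv ℝ f) s := hf.fderiv_of_isOpen hs (by simp)
  have h0 := (norm_nonneg _).trans (h x hx)
  refine (hc.inter (convex_closedBall x ‖y - x‖)).norm_image_sub_le_of_norm_fderiv_le'
    (fun z hz => (hf.contDiffAt (hs.mem_nhds hz.1)).differentiableAt (by simp)) (fun z hz => ?_)
    ⟨hx, mem_closedBall_self (norm_nonneg _)⟩ ⟨hy, mem_closedBall_iff_norm.2 le_rfl⟩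
  refine (hc.norm_image_sub_le_of_norm_fderiv_le (C := C)
    (fun z hz => (hD.contDiffAt (hs.mem_nhds hz)).differentiableAt (by simp)) (fun w hw => ?_)
    hx hz.1).trans (mul_le_mul_of_nonneg_left (mem_closedBall_iff_norm.1 hz.2) h0)
  rw [← norm_iteratedFDeriv_zero (𝕜 := ℝ) (f := fderiv ℝ (fderiv ℝ f)), norm_iteratedFDeriv_fderiv,
    norm_iteratedFDeriv_fderiv]
  exact h w hw

theorem Bd.hasFDerivAt [FiniteDimensional ℝ X] [FiniteDimensional ℝ Y] (hs : IsOpen s)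
    (hc : Convex ℝ s) (h : Bd U s F B) {x : X} (hx : x ∈ s) :
    HasFDerivAt (lm U F) (lm U (fun i => _root_.fderiv ℝ (F i)) x) x := by
  rw [hasFDerivAt_iff_isLittleO]
  refine Asymptotics.IsBigO.trans_isLittleO (Asymptotics.IsBigO.of_bound (B 2) ?_)
    (Asymptotics.isLittleO_pow_sub_sub x one_lt_two)
  filter_upwards [hs.mem_nhds hx] with y hy
  have h1 := (((h.tendsto hy).sub (h.tendsto hx)).sub
    (((ContinuousLinearMap.apply ℝ Y (y - x)).continuous.tendsto _).comp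
      ((h.fderiv hs).tendsto hx))).norm
  refine le_of_tendsto h1 (h.mono fun i hi => ?_)
  rw [norm_pow, norm_norm, sq, ← mul_assoc]
  exact taylor hs hc hi.1 (hi.2 2) hx hy

theorem contDiffOn_lm [FiniteDimensional ℝ X] (hs : IsOpen s) (hc : Convex ℝ s) (n : ℕ) :
    ∀ (Y : Type) [NormedAddCommGroup Y] [NormedSpace ℝ Y] [FiniteDimensional ℝ Y]
      (F : ι → X → Y) (B : ℕ → ℝ), Bd U s F B → ContDiffOn ℝ n (lm U F) s := by
  induction n with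
  | zero =>
    intro Y _ _ _ F B h
    exact contDiffOn_zero.2 fun x hx => (h.hasFDerivAt hs hc hx).continuousAt.continuousWithinAt
  | succ n ih =>
    intro Y _ _ _ F B h
    rw [Nat.cast_succ, contDiffOn_succ_iff_fderiv_of_isOpen hs]
    exact ⟨fun x hx => (h.hasFDerivAt hs hc hx).differentiableAt.differentiableWithinAt, by simp,
      (ih _ _ _ (h.fderiv hs)).congr fun x hx => (h.hasFDerivAt hs hc hx).fderiv⟩

end Calc

open Calc

theorem cb : CB := fun B₁ B₂ => ⟨cbd B₁ B₂, fun _ _ _ _ hO' hO hf hg h h1 h2 _ q hq =>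
  comp_le hO' hO hf hg h hq (fun i _ => h1 i _ (h hq)) fun i hi _ => h2 i hi q hq⟩

theorem ifb : IFB := fun a ha B => by
  choose C hC using impl_le (X := ℝ × ℝ) ha B
  exact ⟨C, fun F O g V hO hV hF hg h0 h1 h2 k hk => hC k F O g V hO hV hF hg h0 h1 h2 k hk le_rfl⟩

theorem ulim : ULIM := fun U F p r B h => by
  have h' : Bd U (ball p r) F B := h
  refine ⟨lm U F, contDiffOn_infty.2 fun n => contDiffOn_lm isOpen_ball (convex_ball p r) n _ F B h',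
    fun x hx => ⟨h'.tendsto hx, ?_⟩⟩
  rw [(h'.hasFDerivAt isOpen_ball (convex_ball p r) hx).fderiv]
  exact (h'.fderiv isOpen_ball).tendsto hx

end Vale.Agent.P218E
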