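import Vale.Agent.P218R.Defs

/-!
# P218E: smooth flows of compact surfaces on a time interval
-/

open Filter Topology Set
open scoped ContDiff
open Vale.Agent.P366W (dvg)
open Vale.Agent.P218R (E3)

namespace Vale.Agent.P218E

/-- `(M t)_{a < t < b}` is a smooth mean curvature flow of compact embedded surfaces without
boundary: the space-time track is proper over `(a, b)`, and locally it is the zero set of a smooth
function `u` with nonvanishing spatial gradient for which `∂u/∂t = |∇u| div (∇u / |∇u|)` on the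
track -/
structure IsSmoothFlow (M : ℝ → Set E3) (a b : ℝ) : Prop where
  cpt : ∀ c d, a < c → d < b → IsCompact {p : ℝ × E3 | p.1 ∈ Icc c d ∧ p.2 ∈ M p.1}
  loc : ∀ t ∈ Ioo a b, ∀ x ∈ M t, ∃ u : ℝ → E3 → ℝ, ContDiff ℝ ∞ (Function.uncurry u) ∧
    gradient (u t) x ≠ 0 ∧ ∀ᶠ p : ℝ × E3 in 𝓝 (t, x), (p.2 ∈ M p.1 ↔ u p.1 p.2 = 0) ∧
      (p.2 ∈ M p.1 → deriv (fun s => u s p.2) p.1 = ‖gradient (u p.1) p.2‖ *
        dvg (fun z => ‖gradient (u p.1) z‖⁻¹ • gradient (u p.1) z) p.2)

end Vale.Agent.P218E
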