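import Vale.Agent.P218E.Gbn
import Vale.Agent.P218E.Gen
import Vale.Agent.P220.R2.H481.Flow

/-!
# P218E: flows of closed surfaces with several components are good
-/

open MeasureTheory Metric Filter Topology Set
open scoped ContDiff ENNReal RealInnerProductSpace
open Vale.Agent.P366W
open Vale.Agent.P218R Vale.Agent.P218R.Cfl
open Vale.Agent.P220.R2.H481 (exists_gf_of_compactSupport)

noncomputable section

namespace Vale.Agent.P218E

variable {M : ℝ → Set E3} {a b : ℝ}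

theorem cfl2 (h : IsSmoothFlow M a b) (hab : a < b) :
    ∃ F : Flw, F.Ok a b ∧ ∀ t ∈ Ioo a b, (F.sl t).G = M t := by
  obtain ⟨θ, ψ, s1, s2, m1, i1, i2⟩ : ∃ θ ψ : ℝ → ℝ, ContDiff ℝ ∞ θ ∧
      ContDiffOn ℝ ∞ ψ (Ioo a b) ∧ (∀ s, θ s ∈ Ioo a b) ∧ (∀ s, ψ (θ s) = s) ∧
      ∀ t ∈ Ioo a b, θ (ψ t) = t := by
    obtain ⟨θ, ψ, s1, s2, m1, i1, i2⟩ := exists_dif (sub_pos.2 hab)
    have m : ∀ t ∈ Ioo a b, t - a ∈ Ioo 0 (b - a) := fun t ht =>
      ⟨sub_pos.2 ht.1, sub_lt_sub_right ht.2 a⟩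
    exact ⟨fun s => a + θ s, fun t => ψ (t - a), contDiff_const.add s1,
      s2.comp (by fun_prop) m, fun s => ⟨by linarith [(m1 s).1], by linarith [(m1 s).2]⟩,
      fun s => by simp [i1], fun t ht => by simp [i2 _ (m t ht)]⟩
  have s3 : ContDiff ℝ ∞ fun p : ℝ × E3 => (θ p.1, p.2) := (s1.comp contDiff_fst).prodMk contDiff_snd
  obtain ⟨w, sw, hw, rw'⟩ := ori (ℝ × E3) {p | p.2 ∈ M (θ p.1)}
    (isClosed_iff_frequently.2 fun p hp => by
      have h1 := m1 p.1
      have h2 : ∀ᶠ q : ℝ × E3 in 𝓝 p, θ q.1 ∈ Icc ((a + θ p.1) / 2) ((θ p.1 + b) / 2) :=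
        ((s1.continuous.comp continuous_fst).tendsto p).eventually
          (Icc_mem_nhds (show _ < θ p.1 by linarith [h1.1]) (show θ p.1 < _ by linarith [h1.2]))
      exact ((h.cpt ((a + θ p.1) / 2) ((θ p.1 + b) / 2) (by linarith [h1.1])
        (by linarith [h1.2])).isClosed.mem_of_frequently_of_tendsto
          (f := fun p : ℝ × E3 => (θ p.1, p.2)) ((hp.and_eventually h2).mono fun q hq =>
            ⟨hq.2, hq.1⟩) (s3.continuous.tendsto p)).2)
    fun p hp => by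
      obtain ⟨u, su, h1, h2⟩ := h.loc _ (m1 p.1) _ hp
      refine ⟨_, su.comp s3, fun e => grad_ne_iff.1 h1 ?_,
        (s3.continuous.tendsto p).eventually (h2.mono fun q hq => hq.1)⟩
      have := Flw.fderiv_slice ((su.comp s3).differentiable (by simp) p)
      rw [e, ContinuousLinearMap.zero_comp] at this
      exact this
  have su : ContDiffOn ℝ ∞ (fun p : ℝ × E3 => w (ψ p.1, p.2)) (Ioo a b ×ˢ univ) :=
    sw.comp_contDiffOn ((s2.comp contDiffOn_fst fun p hp => hp.1).prodMk contDiffOn_snd)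
  have z1 : ∀ t ∈ Ioo a b, ∀ x, w (ψ t, x) = 0 ↔ x ∈ M t := fun t ht x => by
    rw [← hw, mem_ofPred_eq, i2 t ht]
  have key : ∀ t ∈ Ioo a b, ∀ x, w (ψ t, x) = 0 → ∃ (u : E3 → ℝ) (c : ℝ), ContDiff ℝ ∞ u ∧
      gradient u x ≠ 0 ∧ (∀ᶠ y in 𝓝 x, w (ψ t, y) = 0 ↔ u y = 0) ∧ c ≠ 0 ∧
      gradient (fun x => w (ψ t, x)) x = c • gradient u x ∧ deriv (fun s => w (ψ s, x)) t =
        c * (‖gradient u x‖ * dvg (fun z => ‖gradient u z‖⁻¹ • gradient u z) x) := by
    intro t ht x hx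
    have hm := (z1 t ht x).1 hx
    obtain ⟨u, s4, h1, h2⟩ := h.loc t ht x hm
    have d1 := s4.differentiable (by simp) (t, x)
    have d2 := (su.contDiffAt (Flw.mem_dom ht x)).differentiableAt (by simp)
    obtain ⟨c, hc⟩ := tan_prop (s4.contDiffAt.of_le one_le) (h2.self_of_nhds.1.1 hm)
      (fun e => grad_ne_iff.1 h1 (by
        have := Flw.fderiv_slice d1
        rw [e, ContinuousLinearMap.zero_comp] at this
        exact this)) d2 (by
      filter_upwards [h2, Flw.mem_dom ht x] with q a1 a2 a3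
      exact (z1 _ a2.1 _).2 (a1.1.2 a3))
    refine ⟨u t, c, s4.comp (contDiff_prodMk_right t), h1, ((continuous_const.prodMk
      continuous_id).continuousAt.eventually h2).mono fun y hy => (z1 t ht y).trans hy.1,
      fun e => rw' (ψ t, x) ((hw _).2 hx) ?_, grad_smul d1 d2 hc, ?_⟩
    · have e1 : w = (fun p : ℝ × E3 => w (ψ p.1, p.2)) ∘ fun p : ℝ × E3 => (θ p.1, p.2) :=
        funext fun p => by simp [i1]
      rw [e1, fderiv_comp _ (by simpa only [i2 t ht] using d2) (s3.differentiable (by simp) _)]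
      simp only [i2 t ht, hc, e, zero_smul, ContinuousLinearMap.zero_comp]
    · rw [(Flw.deriv_slice d2).deriv, hc, ← h2.self_of_nhds.2 hm, smul_apply, smul_eq_mul,
        ← (Flw.deriv_slice d1).deriv]
      rfl
  have reg : ∀ t ∈ Ioo a b, ∀ x, w (ψ t, x) = 0 → gradient (fun x => w (ψ t, x)) x ≠ 0 :=
    fun t ht x hx => by
      obtain ⟨u, c, -, h1, -, h2, h3, -⟩ := key t ht x hx
      exact h3 ▸ smul_ne_zero h2 h1
  refine ⟨.of fun p => w (ψ p.1, p.2), Flw.of_ok su reg fun t ht x hx => ?_,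
    fun t ht => Set.ext (z1 t ht)⟩
  obtain ⟨u, c, h1, h2, h3, -, h4, h5⟩ := key t ht x hx
  exact h5.trans (H_loc (Srf.of_ok (Flw.slice su ht) (reg t ht)) hx h1 h2 h3 h4).symm

/-- a later slice is a continuous image of an earlier one -/
theorem ex_map {F : Flw} (h : F.Ok a b) {c d : ℝ} (hc : a < c) (hcd : c ≤ d) (hd : d < b)
    (hK : IsCompact {p : ℝ × E3 | p.1 ∈ Icc c d ∧ F.u p = 0}) :
    ∃ f : E3 → E3, Continuous f ∧ f '' (F.sl c).G = (F.sl d).G := by
  set g : ℝ × E3 → E3 := fun p => gradient (F.sl p.1).w p.2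
  have sg : ContDiffOn ℝ ∞ g _ := h.sg
  set O := (Ioo a b ×ˢ univ) ∩ g ⁻¹' {0}ᶜ
  have hO : IsOpen O :=
    sg.continuousOn.isOpen_inter_preimage (Flw.open_dom a b) isOpen_compl_singleton
  have m : ∀ t ∈ Icc c d, t ∈ Ioo a b := fun t ht => ⟨hc.trans_le ht.1, ht.2.trans_lt hd⟩
  obtain ⟨L, l1, l2, l3⟩ := exists_compact_between hK hO fun p hp =>
    ⟨⟨m _ hp.1, trivial⟩, h.reg _ (m _ hp.1) _ hp.2⟩
  obtain ⟨χ, x1, x2, x3⟩ := exists_contMDiffMap_one_nhds_of_subset_interior (n := ⊤)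
    (modelWithCornersSelf ℝ (ℝ × E3)) hK.isClosed l2
  have sχ : ContDiff ℝ ∞ χ := χ.contMDiff.contDiff
  set V : ℝ × E3 → ℝ × E3 := fun p => (1, -(fderiv ℝ F.u p (1, 0) / ‖g p‖ ^ 2) • g p)
  have du : ∀ p ∈ O, ContDiffAt ℝ ∞ F.u p := fun p hp =>
    h.su.contDiffAt ((Flw.open_dom a b).mem_nhds hp.1)
  have sY : ContDiff ℝ ∞ fun p => χ p • V p := contDiff_iff_contDiffAt.2 fun p => by
    by_cases hp : p ∈ L
    · have := sg.contDiffAt ((Flw.open_dom a b).mem_nhds (l3 hp).1)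
      exact sχ.contDiffAt.smul (contDiffAt_const.prodMk
        ((((((du p (l3 hp)).fderiv_right (m := ∞) (by simp)).clm_apply contDiffAt_const).div
          (this.norm_sq ℝ) (pow_ne_zero 2 (norm_ne_zero_iff.2 (l3 hp).2))).neg).smul this))
    · exact (contDiffAt_const (c := 0)).congr_of_eventuallyEq
        ((l1.isClosed.isOpen_compl.eventually_mem hp).mono fun q hq => by simp [x2 q hq])
  obtain ⟨⟨φ, hφ⟩, -⟩ := exists_gf_of_compactSupport sY 0
    (HasCompactSupport.intro l1 fun p hp => by simp [x2 p hp])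
  have t1 : ∀ p s, HasDerivAt (fun s => (φ (s, p)).1) (χ (φ (s, p))) s := fun p s => by
    simpa [V] using! (ContinuousLinearMap.fst ℝ ℝ E3).hasFDerivAt.comp_hasDerivAt s (hφ.deriv s p)
  have lip : ∀ p, Monotone (fun s => (φ (s, p)).1) ∧ Antitone fun s => (φ (s, p)).1 - s :=
    fun p => ⟨monotone_of_deriv_nonneg (fun s => (t1 p s).differentiableAt) fun s => by
      rw [(t1 p s).deriv]; exact (x3 _).1,
    antitone_of_deriv_nonpos (fun s => ((t1 p s).sub (hasDerivAt_id s)).differentiableAt)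
      fun s => ((t1 p s).sub (hasDerivAt_id s)).deriv.trans_le (sub_nonpos.2 (x3 _).2)⟩
  have mv : ∀ (p : ℝ × E3) (l r : ℝ), l ≤ 0 → 0 ≤ r → c ≤ p.1 + l → p.1 + r ≤ d → F.u p = 0 →
      ∀ s ∈ Icc l r, F.u (φ (s, p)) = 0 ∧ (φ (s, p)).1 = p.1 + s := by
    intro p l r l0 r0 hl hr hp
    have mem : ∀ s ∈ Icc l r, (φ (s, p)).1 ∈ Icc c d := fun s hs => by
      rcases le_total 0 s with a | a
      · have b1 := (lip p).1 a
        have b2 := (lip p).2 a
        simp only [hφ.zero] at b1 b2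
        exact ⟨by linarith, by linarith [hs.2]⟩
      · have b1 := (lip p).1 a
        have b2 := (lip p).2 a
        simp only [hφ.zero] at b1 b2
        exact ⟨by linarith [hs.1], by linarith⟩
    have cst : ∀ f : ℝ → ℝ, (∀ s ∈ Icc l r, HasDerivAt f 0 s) → ∀ s ∈ Icc l r, f s = f 0 :=
      fun f hf s hs => by
        have := constant_of_has_deriv_right_zero
          (fun s hs => (hf s hs).continuousAt.continuousWithinAt)
          fun s hs => (hf s (Ico_subset_Icc_self hs)).hasDerivWithinAt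
        rw [this s hs, this 0 ⟨l0, r0⟩]
    have u0 := cst (fun s => F.u (φ (s, p))) fun s hs => by
      have d1 := (h.su.contDiffAt (Flw.mem_dom (m _ (mem s hs)) (φ (s, p)).2)).differentiableAt
        (by simp)
      refine (d1.hasFDerivAt.comp_hasDerivAt s (hφ.deriv s p)).congr_deriv ?_
      set q := φ (s, p)
      by_cases hq : q ∈ L
      · have e : V q = ((1 : ℝ), (0 : E3)) +
            -(fderiv ℝ F.u q (1, 0) / ‖g q‖ ^ 2) • ((0 : ℝ), g q) := by simp [V]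
        have e2 : fderiv ℝ F.u q (0, g q) = ‖g q‖ ^ 2 := by
          rw [← real_inner_self_eq_norm_sq]
          refine .trans ?_ (inner_grad _ _ _).symm
          rw [show fderiv ℝ (F.sl q.1).w q.2 = _ from Flw.fderiv_slice d1]
          rfl
        rw [map_smul, e, map_add, map_smul, e2, smul_eq_mul, smul_eq_mul, neg_mul,
          div_mul_cancel₀ _ (pow_ne_zero 2 (norm_ne_zero_iff.2 (l3 hq).2)), add_neg_cancel, mul_zero]
      · simp [x2 q hq]
    simp only [hφ.zero, hp] at u0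
    have t0 := cst (fun s => (φ (s, p)).1 - s) fun s hs =>
      ((t1 p s).sub (hasDerivAt_id s)).congr_deriv (by
        rw [x1.self_of_nhdsSet _ ⟨mem s hs, u0 s hs⟩, sub_self])
    simp only [hφ.zero, sub_zero] at t0
    exact fun s hs => ⟨u0 s hs, sub_eq_iff_eq_add.1 (t0 s hs)⟩
  have dc := sub_nonneg.2 hcd
  refine ⟨fun x => (φ (d - c, c, x)).2, by have := hφ.smooth.continuous; fun_prop,
    subset_antisymm ?_ fun y hy => ?_⟩
  · rintro _ ⟨x, hx, rfl⟩
    obtain ⟨a1, a2⟩ := mv (c, x) 0 (d - c) le_rfl dc (by simp) (by simp) hx _ ⟨dc, le_rfl⟩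
    have e : φ (d - c, c, x) = (d, (φ (d - c, c, x)).2) := Prod.ext (by simpa using a2) rfl
    exact show F.u _ = 0 from e ▸ a1
  · obtain ⟨a1, a2⟩ := mv (d, y) (-(d - c)) 0 (neg_nonpos.2 dc) le_rfl (by simp) (by simp) hy _
      ⟨le_rfl, neg_nonpos.2 dc⟩
    have e : φ (-(d - c), d, y) = (c, (φ (-(d - c), d, y)).2) := Prod.ext (by simpa using a2) rfl
    refine ⟨(φ (-(d - c), d, y)).2, show F.u _ = 0 from e ▸ a1, ?_⟩
    simp only [← e, hφ.cancel_neg]

theorem clo2 (gbx : GBX) (h : IsSmoothFlow M a b) {c : ℝ} (ha : c ∈ Ioo a b) :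
    ∃ (F : Flw) (Λ G : ℝ), F.Good c b Λ G ∧ ∀ t ∈ Ioo c b, (F.sl t).G = M t := by
  obtain ⟨F, hF, hM⟩ := cfl2 h (ha.1.trans ha.2)
  have hK : ∀ c d, a < c → d < b → ∃ K, IsCompact K ∧ ∀ t ∈ Icc c d, (F.sl t).G ⊆ K :=
    fun c d hc hd => ⟨_, (h.cpt c d hc hd).image continuous_snd, fun t ht x hx =>
      ⟨(t, x), ⟨ht, hM t ⟨hc.trans_le ht.1, ht.2.trans_lt hd⟩ ▸ hx⟩, rfl⟩⟩
  have hG : ∀ t ∈ Ioo a b, IsCompact (F.sl t).G := fun t ht => by
    obtain ⟨K, h1, h2⟩ := hK t t ht.1 ht.2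
    exact h1.of_isClosed_subset (hF.sl ht).closed (h2 t ⟨le_rfl, le_rfl⟩)
  have hf : ∀ t ∈ Ioo a b, IsFiniteMeasure (F.μ t) := fun t ht => Cfl.fin low' (hF.sl ht) (hG t ht)
  obtain ⟨e, e0, rfl⟩ : ∃ e > 0, a = c - 2 * e := ⟨(c - a) / 2, by linarith [ha.1], by ring⟩
  have a2 : c - e ∈ Ioo (c - 2 * e) b := ⟨by linarith, by linarith [ha.2]⟩
  have l0 : 0 ≤ 2 * (F.μ (c - e)).real univ / e := by positivity
  have ar : ∀ t ∈ Ioo c b, AR (2 * (F.μ (c - e)).real univ / e) (F.μ t) := fun t ht x r hr => by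
    have ht' : t ∈ Ioo (c - 2 * e) b := ⟨ha.1.trans ht.1, ht.2⟩
    have hs : Icc (c - e) t ⊆ Ioo (c - 2 * e) b := Icc_subset_Ioo a2.1 ht.2
    obtain ⟨K, k1, k2⟩ := hK _ t a2.1 ht.2
    obtain ⟨R, R0, hR⟩ := k1.isBounded.subset_closedBall_lt 0 0
    let β : ContDiffBump (0 : E3) := ⟨R, R + 1, R0, lt_add_one R⟩
    obtain ⟨Λ, hΛ⟩ := isCompact_Icc.exists_bound_of_continuousOn ((cnt' F _ b (fun p => β p.2) _ hF
      (β.continuous.comp continuous_snd).continuousOn β.hasCompactSupport.isCompact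
        fun _ y hy => image_eq_zero_of_notMem_tsupport hy).mono hs)
    have h1 := hui' F _ b (t + r ^ 2) (c - e) t |Λ| x 0 hF a2.1 (by linarith [ht.1]) ht.2
      (lt_add_of_pos_right _ (by positivity)) (fun s hs' ρ hρ => ?_) continuous_zero
      HasCompactSupport.zero fun _ => ⟨le_rfl, zero_le_one⟩
    · have := hf _ ht'
      have := hf _ a2
      have h2 := le_gs (F.μ t) x hr
      have h3 := gs_le (F.μ (c - e)) x √(t + r ^ 2 - (c - e))
      have h4 : e ≤ t + r ^ 2 - (c - e) := by linarith [ht.1, sq_nonneg r]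
      simp only [Pi.zero_apply, zero_mul, integral_zero, intervalIntegral.integral_zero, add_zero,
        add_sub_cancel_left, Real.sqrt_sq hr.le] at h1
      rw [Real.sq_sqrt (e0.le.trans h4)] at h3
      have h5 := (h2.trans (h1.trans h3)).trans (mul_le_mul_of_nonneg_right (inv_anti₀
        (mul_pos (by positivity) e0) (mul_le_mul_of_nonneg_left h4 (by positivity)))
          measureReal_nonneg)
      rw [inv_mul_le_iff₀ (by positivity)] at h5
      rw [← ofReal_measureReal]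
      refine ENNReal.ofReal_le_ofReal ?_
      have h6 : 4 * Real.pi * r ^ 2 * ((4 * Real.pi * e)⁻¹ * (F.μ (c - e)).real univ) =
          1 / 2 * (2 * (F.μ (c - e)).real univ / e * r ^ 2) := by
        field_simp
      nlinarith [mul_nonneg l0 (sq_nonneg r)]
    · have := hf _ (hs hs')
      rw [← ofReal_measureReal]
      refine ENNReal.ofReal_le_ofReal ((measureReal_mono (subset_univ _)).trans ?_)
      have h2 : ∫ y, β y ∂F.μ s = (F.μ s).real univ := by
        rw [Flw.μ, (hF.sl (hs hs')).int_congr (g := fun _ => (1 : ℝ)) fun y hy =>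
          β.one_of_mem_closedBall (hR (k2 s hs' hy))]
        simp
      refine (h2 ▸ ((le_abs_self _).trans (hΛ s hs')).trans (le_abs_self Λ)).trans ?_
      exact le_mul_of_one_le_right (abs_nonneg _) (one_le_pow₀ hρ)
  obtain ⟨N, hN⟩ := Gbn.ex_cov (hG c ha) (lo1 _ (hF.sl ha)).1
  obtain ⟨C, -, hC⟩ := gbn gbx N
  refine ⟨F, _, C * (1 + 2 * (F.μ (c - e)).real univ / e + |(F.sl c).chi|),
    ⟨⟨hF.mono ha.1.le le_rfl, ar⟩, fun t ht => ?_⟩, fun t ht => hM t ⟨ha.1.trans ht.1, ht.2⟩⟩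
  have ht' : t ∈ Ioo (c - 2 * e) b := ⟨ha.1.trans ht.1, ht.2⟩
  obtain ⟨f, f1, f2⟩ := ex_map hF ha.1 ht.1.le ht.2 (by
    convert h.cpt c t ha.1 ht.2 using 1
    exact Set.ext fun p => and_congr_right fun hp => by
      rw [← hM _ ⟨ha.1.trans_le hp.1, hp.2.trans_lt ht.2⟩]; rfl)
  rw [kct' F _ b hF hK c ha t ht']
  exact (hC _ _ (hF.sl ht') (hG t ht') (f2 ▸ Gbn.Cov.image hN f1) l0 (ar t ht)).2

end Vale.Agent.P218E
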