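import Vale.Agent.P218.H552.Bridge2

/-!
# P218E: uniqueness of the tangent flow gives convergence of the whole family of rescalings
-/

open MeasureTheory Filter Topology Set
open Vale.Agent.P218 (IsTangentFlow IsIntegralBrakkeFlow TangentFlowUnique rescaled WeakTendsto)
open Vale.Agent.P218.H552

namespace Vale.Agent.P218E

variable {E : Type*} [NormedAddCommGroup E] [InnerProductSpace ℝ E] [FiniteDimensional ℝ E]
  [MeasurableSpace E] [BorelSpace E]

/-- the parabolic rescalings `μ^λ_s` about `(x₀, t₀)` converge weakly as `λ → ∞`, for every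
`s < 0`, in the fixed coordinates of `E` -/
def RescalingsConverge (m : ℕ) (μ : ℝ → Measure E) (x₀ : E) (t₀ : ℝ) : Prop :=
  ∃ ν : ℝ → Measure E, ∀ s < 0, IsLocallyFiniteMeasure (ν s) ∧
    ∀ φ : E → ℝ, Continuous φ → HasCompactSupport φ →
      Tendsto (fun lam : ℝ => ∫ x, φ x ∂(rescaled m μ x₀ t₀ lam s)) atTop (𝓝 (∫ x, φ x ∂(ν s)))

theorem conv {m : ℕ} {μ : ℝ → Measure E} (hB : IsIntegralBrakkeFlow m μ) (h0 : μ 0 univ < ⊤)
    (x₀ : E) {t₀ : ℝ} (ht : 0 < t₀) (hU : TangentFlowUnique m μ x₀ t₀) :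
    RescalingsConverge m μ x₀ t₀ := by
  obtain ⟨T, H, hB⟩ := exists_BF hB
  have hS := slow_NN hB h0 x₀ ht
  have tf : ∀ (τ : ℕ → ℝ) (κ : Measure E), Tendsto τ atTop atTop → IsLocallyFiniteMeasure κ →
      WeakTendsto (fun i => NN m μ x₀ t₀ (τ i)) κ → IsTangentFlow m μ x₀ t₀ (ext m κ) :=
    fun τ κ hτ hκ h => ⟨fun s hs => locFin_ext m κ hs, fun i => Real.exp (τ i),
      Real.tendsto_exp_atTop.comp hτ, fun s hs => extend hB h0 x₀ ht hτ h hs⟩
  obtain ⟨κ, hκ, τ, hτ, h⟩ := hS.nonempty_limitSet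
  refine ⟨ext m κ, fun s hs => ⟨locFin_ext m κ hs, fun φ hφ hc => ?_⟩⟩
  refine tendsto_of_subseq_tendsto fun l hl => ?_
  have hl' := Real.tendsto_log_atTop.comp hl
  obtain ⟨κ', ψ, hκ', hψ, h'⟩ := hS.exists_subseq hl'
  have hψ' := hl'.comp hψ.tendsto_atTop
  refine ⟨ψ, ?_⟩
  rw [hU _ _ (tf τ κ hτ hκ h) (tf _ κ' hψ' hκ' h') s hs]
  refine (extend hB h0 x₀ ht hψ' h' hs φ hφ hc).congr' ?_
  filter_upwards [(hl.comp hψ.tendsto_atTop).eventually_gt_atTop 0] with i hi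
  simp only [Function.comp] at hi ⊢
  rw [Real.exp_log hi]

end Vale.Agent.P218E
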