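import Vale.Agent.P218E.Spec

/-!
# P218E: the common part of the rows CYLE and CONE
-/

open Metric Filter Topology Set
open scoped ContDiff RealInnerProductSpace
open Vale.Agent.P218R
open Vale.Agent.P218T (Decays)

noncomputable section

namespace Vale.Agent.P218E.Eng

/-- the graph function of an end, from local defining functions of the surface -/
theorem engine (root : ROOT) (cb : CB) (ldf : LDF) (f : P3 → ℝ) {ρ c : ℝ} (B B₂ : ℕ → ℝ)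
    (hρ : 0 < ρ) (per : ∀ z θ t, f ((z, θ + 2 * Real.pi), t) = f ((z, θ), t))
    (h : ∀ η > (0 : ℝ), ∃ s : ℝ, ∀ y : ℝ × ℝ, s ≤ y.1 → ∃ (w : E3 → ℝ) (X : P3 → E3) (p N : E3)
      (c' : ℝ), HasL w p c B ∧ w p = 0 ∧ ContDiff ℝ ∞ X ∧ ‖N‖ = 1 ∧ 0 < c' ∧ 2 * c' < c ∧
      (∀ x, ‖x - p‖ ≤ 2 * c' → w x = 0 → |⟪x - p, N⟫| ≤ c' / 50) ∧ ‖X (y, 0) - p‖ ≤ η ∧
      ∀ q ∈ box y ρ ρ, (f q = 0 ↔ w (X q) = 0) ∧ X q ∈ ball p c ∧
        ‖fderiv ℝ X q (0, 1) - N‖ ≤ 1 / 4 ∧ ∀ k, 1 ≤ k → ‖iteratedFDeriv ℝ k X q‖ ≤ B₂ k) :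
    ∃ (φ : ℝ × ℝ → ℝ) (R : ℝ), Decays φ ∧ ∀ y : ℝ × ℝ, R ≤ y.1 → |φ y| < ρ ∧
      ∀ t, |t| < ρ → (f (y, t) = 0 ↔ t = φ y) := by
  obtain ⟨B', hB'⟩ := cb B B₂
  refine root f ρ ρ (1 / 2) B' hρ hρ one_half_pos per fun η hη => ?_
  obtain ⟨s, hs⟩ := h (η / 2) (half_pos hη)
  refine ⟨s, fun y hy => ?_⟩
  obtain ⟨w, X, p, N, c', ⟨e, F, hF⟩, hp, hX, hN, hc', hc, hal, hn, hq⟩ := hs y hy
  have hal := ldf.2.1 w F p e N c c' B hF hp hN hc' hc hal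
  have mp : MapsTo X (box y ρ ρ) (ball p c) := fun q h => (hq q h).2.1
  have bo : IsOpen (box y ρ ρ) := isOpen_ball.prod isOpen_Ioo
  have pc : p ∈ ball p c := mem_ball_self (by linarith)
  have y0 : (y, (0 : ℝ)) ∈ box y ρ ρ := ⟨mem_ball_self hρ, by simpa using hρ⟩
  refine ⟨F ∘ X, hF.sm.comp hX.contDiffOn mp, fun q h => ⟨(hq q h).1.trans (hF.zero _ (mp h)), ?_,
    fun k => hB' F X _ _ isOpen_ball bo hF.sm hX.contDiffOn mp hF.bd
      (fun k hk q h => (hq q h).2.2.2 k hk) k q h⟩, ?_⟩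
  · rw [fderiv_comp q ((hF.sm.contDiffAt (isOpen_ball.mem_nhds (mp h))).differentiableAt (by simp))
      (hX.differentiable (by simp) q), ContinuousLinearMap.comp_apply]
    have h1 := (hq q h).2.2.1
    set v := fderiv ℝ X q (0, 1)
    have h2 := (fderiv ℝ F (X q) - innerSL ℝ e).le_of_opNorm_le (hF.tilt _ (mp h)) v
    have h3 : ‖v‖ ≤ 5 / 4 := by linarith [norm_le_insert' v N]
    have h4 := abs_real_inner_le_norm e (v - N)
    rw [hF.unit, inner_sub_right] at h4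
    rw [sub_apply, innerSL_apply_apply, Real.norm_eq_abs] at h2
    have h5 := abs_sub_abs_le_abs_sub ⟪e, N⟫ (fderiv ℝ F (X q) v)
    have h6 := abs_sub_le ⟪e, N⟫ ⟪e, v⟫ (fderiv ℝ F (X q) v)
    rw [abs_sub_comm] at h2 h4
    linarith
  · have h1 := (ldf.2.2.1 w F p e c B hF).1 _ (mp y0) p pc
    have h4 := abs_real_inner_le_norm e (X (y, 0) - p)
    rw [(hF.zero p pc).1 hp, sub_zero] at h1
    rw [hF.unit] at h4
    have := abs_sub_abs_le_abs_sub (F (X (y, 0))) ⟪e, X (y, 0) - p⟫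
    show |F (X (y, 0))| ≤ η
    linarith

/-- bounds for the derivatives of a map whose derivative is invariant under a cocompact set of
translations -/
theorem bd_of_per {X : P3 → E3} (hX : ContDiff ℝ ∞ X) {K O : Set P3} (hK : IsCompact K)
    (h : ∀ q ∈ O, ∃ v : P3, ∃ b : E3, q - v ∈ K ∧ ∀ x, X (x + v) = X x + b) :
    ∃ B : ℕ → ℝ, ∀ k, 1 ≤ k → ∀ q ∈ O, ‖iteratedFDeriv ℝ k X q‖ ≤ B k := by
  choose B hB using fun k : ℕ => hK.exists_bound_of_continuousOn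
    (hX.continuous_iteratedFDeriv (m := k) (by exact_mod_cast le_top)).continuousOn
  refine ⟨B, fun k hk q hq => ?_⟩
  obtain ⟨v, b, h1, h2⟩ := h q hq
  obtain ⟨k, rfl⟩ := Nat.exists_eq_add_of_le' hk
  refine le_of_eq_of_le ?_ (hB _ _ h1)
  have e : fderiv ℝ X = fun x => fderiv ℝ X (x + v) := by
    funext x
    rw [← fderiv_comp_add_right, funext h2, fderiv_add_const]
  rw [← norm_iteratedFDeriv_fderiv, ← norm_iteratedFDeriv_fderiv]
  conv_rhs => rw [e, iteratedFDeriv_comp_add_right, sub_add_cancel]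

end Vale.Agent.P218E.Eng
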