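import Vale.Agent.P218R.All0
import Vale.Agent.P218M1.Gx

/-!
# P218E: self-shrinkers of bounded curvature satisfy the local Gauss-Bonnet bound
-/

open MeasureTheory Metric Filter Topology Set
open scoped ContDiff ENNReal RealInnerProductSpace
open Vale.Agent.P366W
open Vale.Agent.P218R

noncomputable section

namespace Vale.Agent.P218E

namespace Gbb

variable {S : Srf} {x : E3}

theorem sB (h : S.Ok) : ContDiff ℝ ∞ (fderiv ℝ S.n) := h.sn.fderiv_right (m := ∞) (by simp)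

theorem dvg_app (h : S.Ok) {X : E3 → E3} (hX : DifferentiableAt ℝ X x) :
    dvg (fun y => fderiv ℝ S.n y (X y)) x =
      fderiv ℝ (dvg S.n) x (X x) + trc (fderiv ℝ S.n x ∘L fderiv ℝ X x) := by
  have d := ((sB h).differentiable (by simp) x).hasFDerivAt
  have e : HasFDerivAt (dvg S.n) _ x := HasFDerivAt.fun_sum (u := Finset.univ) fun i _ =>
    (EuclideanSpace.proj i : E3 →L[ℝ] ℝ).hasFDerivAt.comp x
      (d.clm_apply (hasFDerivAt_const (EuclideanSpace.single i (1 : ℝ) : E3) x))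
  rw [dvg_eq, (d.clm_apply hX.hasFDerivAt).fderiv, trc_add, add_comm, e.fderiv]
  congr 1
  simp [trc, ((h.sn.contDiffAt.of_le two_le).isSymmSndFDerivAt (by simp)).eq (X x)]

/-- the field `A x` -/
def V (S : Srf) (y : E3) : E3 := fderiv ℝ S.n y y - ⟪S.n y, y⟫ • fderiv ℝ S.n y (S.n y)

theorem V_eq (S : Srf) (y : E3) : V S y = S.A y y := by
  rw [Srf.A_apply, Srf.P_apply, map_sub, map_smul, V]

theorem sV (h : S.Ok) : ContDiff ℝ ∞ (V S) :=
  ((sB h).clm_apply contDiff_id).sub ((h.sn.inner ℝ contDiff_id).smul ((sB h).clm_apply h.sn))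

theorem d_inner (h : S.Ok) (v : E3) :
    fderiv ℝ (fun y => ⟪S.n y, y⟫) x v = ⟪S.n x, v⟫ + ⟪fderiv ℝ S.n x v, x⟫ := by
  simpa using fderiv_inner_apply ℝ (h.dn x) differentiableAt_fun_id v

theorem d_tan (h : S.Ok) (hx : S.w x = 0) (v : E3) :
    fderiv ℝ (fun y => ⟪S.n y, y⟫) x (S.P x v) = ⟪V S x, v⟫ := by
  rw [d_inner h, h.n_P hx, zero_add, ← Srf.A_apply, h.A_sym hx, V_eq, real_inner_comm]

theorem dv_V (h : S.Ok) (he : ∀ x, S.w x = 0 → S.φ x = 0) (hx : S.w x = 0) :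
    S.dv (V S) x = ⟪V S x, x⟫ / 2 + S.H x - ⟪S.n x, x⟫ * S.A2 x := by
  have dV := (sV h).differentiable (by simp) x
  have dB := (sB h).differentiable (by simp) x
  have dI : DifferentiableAt ℝ (fun y => ⟪S.n y, y⟫) x := (h.dn x).inner ℝ differentiableAt_fun_id
  have dH : DifferentiableAt ℝ (dvg S.n) x :=
    (contDiff_dvg (k := 1) (h.sn.of_le two_le)).differentiable one_ne_zero x
  set B := fderiv ℝ S.n x with hB
  set a := B (S.n x)
  have na : ⟪S.n x, a⟫ = 0 := h.n_dn hx _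
  have Ba : B a = S.A x a := by rw [Srf.A_apply, Srf.P_tan na]
  have e1 : ⟪S.n x, fderiv ℝ (V S) x (S.n x)⟫ = -⟪a, V S x⟫ := by
    have h1 : (fun y => ⟪S.n y, V S y⟫) =ᶠ[𝓝 x] fun _ => 0 := by
      filter_upwards [(h.ev_norm hx).eventually_nhds] with y hy
      have h2 : (fun z => ⟪S.n z, S.n z⟫) =ᶠ[𝓝 y] fun _ => 1 :=
        hy.mono fun z a => by simp only [real_inner_self_eq_norm_sq, a, one_pow]
      have h3 := fderiv_inner_apply ℝ (h.dn y) (h.dn y) (S.P y y)
      rw [h2.fderiv_eq, real_inner_comm (S.n y)] at h3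
      simp only [fderiv_fun_const, Pi.zero_apply, zero_apply] at h3
      rw [V_eq, Srf.A_apply]
      linarith
    have h2 := fderiv_inner_apply ℝ (h.dn x) dV (S.n x)
    rw [h1.fderiv_eq] at h2
    simp only [fderiv_fun_const, Pi.zero_apply, zero_apply] at h2
    linarith
  have e2 : trc (B ∘L B) = S.A2 x := by
    have : S.P x ∘L B = B := ContinuousLinearMap.ext fun u => Srf.P_tan (h.n_dn hx u)
    rw [Srf.A2, Srf.A, ← hB, ← ContinuousLinearMap.comp_assoc, trc_comm _ (S.P x),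
      ContinuousLinearMap.comp_assoc B, this, ← ContinuousLinearMap.comp_assoc, this]
  have e3 : fderiv ℝ (dvg S.n) x (S.P x x) = ⟪V S x, x⟫ / 2 := by
    have := DFunLike.congr_fun (h.tan hx dH (dI.const_mul 2⁻¹) (.of_forall fun y hy => by
      have := he y hy
      rw [Srf.φ, h.H_eq_dvg hy, real_inner_comm] at this
      linarith)) x
    simp only [ContinuousLinearMap.comp_apply, fderiv_const_mul dI, smul_apply, d_tan h hx,
      smul_eq_mul] at this
    linarith
  rw [Srf.P_apply, map_sub, map_smul, smul_eq_mul] at e3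
  rw [S.dv_eq, e1, show dvg (V S) x = _ from dvg_sub (dB.clm_apply differentiableAt_fun_id)
    (dI.smul (dB.clm_apply (h.dn x))), dvg_smul dI (dB.clm_apply (h.dn x)),
    dvg_app h differentiableAt_fun_id, dvg_app h (h.dn x), d_inner h, ← hB, e2, na, Ba, h.A_sym hx,
    ← V_eq, fderiv_fun_id, ContinuousLinearMap.comp_id, h.H_eq_dvg hx, dvg_eq S.n, ← hB]
  linarith

theorem alg {e o h v d₁ d₂ a K M X : ℝ} (e0 : 0 ≤ e) (e1 : e ≤ 1) (o0 : 0 ≤ o) (o1 : o ≤ 1)
    (oX : o * X ^ 2 ≤ 1) (h1 : d₁ ^ 2 ≤ K ^ 2 * v ^ 2) (h2 : d₂ ^ 2 ≤ X ^ 2 * v ^ 2) (aM : a ≤ M)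
    (M0 : 0 ≤ M) : e ^ 2 * o * v ^ 2 ≤ 4 * (e ^ 2 * o * h * (d₂ / 2 + h - 2 * h * a) +
      (e ^ 2 * o * (v ^ 2 / 2) + h * (2 * e * o * d₁ - 2 * e ^ 2 * o ^ 2 * d₂))) +
      (8 * M + 64 * K ^ 2 + 100) * h ^ 2 := by
  have t : ∀ d L : ℝ, 0 ≤ L → d ^ 2 ≤ L * (e ^ 2 * o * v ^ 2) →
      -(h * d) ≤ e ^ 2 * o * v ^ 2 / 16 + 4 * L * h ^ 2 := fun d L L0 hd => by
    rcases L0.eq_or_lt with rfl | L0
    · obtain rfl : d = 0 := pow_eq_zero_iff two_ne_zero |>.1 (le_antisymm (by simpa using hd)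
        (sq_nonneg _))
      simp only [mul_zero, neg_zero, zero_mul, add_zero]
      positivity
    · refine le_of_mul_le_mul_left ?_ L0
      nlinarith [sq_nonneg (d / 4 + 2 * L * h)]
  have w0 : 0 ≤ e ^ 2 * o := by positivity
  have w1 : e ^ 2 * o ≤ o := mul_le_of_le_one_left o0 (pow_le_one₀ e0 e1)
  have k : (e ^ 2 * o) ^ 2 * d₂ ^ 2 ≤ e ^ 2 * o * v ^ 2 := by
    calc (e ^ 2 * o) ^ 2 * d₂ ^ 2 ≤ (e ^ 2 * o * o) * (X ^ 2 * v ^ 2) := by
          rw [sq]; gcongr
      _ = (o * X ^ 2) * (e ^ 2 * o * v ^ 2) := by ring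
      _ ≤ _ := mul_le_of_le_one_left (by positivity) oX
  have t1 := t (e ^ 2 * o * d₂ / 2) (1 / 4) (by norm_num) (by nlinarith)
  have t2 := t (2 * e * o * d₁) (4 * K ^ 2) (by positivity) (by
    calc (2 * e * o * d₁) ^ 2 = 4 * (e ^ 2 * o) * (o * d₁ ^ 2) := by ring
      _ ≤ 4 * (e ^ 2 * o) * (1 * (K ^ 2 * v ^ 2)) := by gcongr
      _ = _ := by ring)
  have t3 := t (-(2 * e ^ 2 * o ^ 2 * d₂)) 4 (by norm_num) (by
    calc (-(2 * e ^ 2 * o ^ 2 * d₂)) ^ 2 = 4 * (o ^ 2 * ((e ^ 2 * o) ^ 2 * d₂ ^ 2)) := by ring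
      _ ≤ 4 * (1 * (e ^ 2 * o * v ^ 2)) := by gcongr; exact pow_le_one₀ o0 o1
      _ = _ := by ring)
  have t4 : e ^ 2 * o * (h ^ 2 * a) ≤ 1 * (h ^ 2 * M) :=
    (mul_le_mul_of_nonneg_left (mul_le_mul_of_nonneg_left aM (sq_nonneg h)) w0).trans
      (mul_le_mul_of_nonneg_right (w1.trans o1) (by positivity))
  nlinarith [mul_nonneg w0 (sq_nonneg h), mul_nonneg w0 (sq_nonneg v), sq_nonneg h]

theorem pt (h : S.Ok) (he : ∀ x, S.w x = 0 → S.φ x = 0) {M : ℝ} (hx : S.w x = 0)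
    (hM : S.A2 x ≤ M) (hR : 11 * M + 1 ≤ ‖x‖) :
    S.A2 x ≤ 2 * S.H x ^ 2 + 12 * ((1 + ‖x‖ ^ 2)⁻¹ * ‖V S x‖ ^ 2) := by
  have a0 := h.A2_nonneg hx
  have c := P218M1.Gx.cayley (h.A_sym hx) (norm_ne_zero_iff.1 (by simp [h.norm_n hx])) (h.A_n hx)
    ((real_inner_comm _ _).trans (h.n_P hx x))
  rw [show P218M1.hs (S.A x) = S.A2 x from (trc_sq_sym (h.A_sym hx)).symm,
    show P218M1.trc (S.A x) = S.H x from rfl, h.A_P hx, ← V_eq] at c
  have c1 := sq_nonneg ‖S.H x • S.P x x + V S x‖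
  rw [norm_add_sq_real, norm_smul, mul_pow, Real.norm_eq_abs, sq_abs, real_inner_smul_left,
    real_inner_comm] at c1
  have c2 := h.norm_P_sq hx x
  have c3 := he x hx
  rw [Srf.φ, real_inner_comm, sub_eq_zero] at c3
  have c4 := h.H_sq_le hx
  have c5 : (1 + ‖x‖ ^ 2) / 4 ≤ ‖S.P x x‖ ^ 2 := by
    rw [c3] at c4
    nlinarith
  have p0 : 0 < 1 + ‖x‖ ^ 2 := by positivity
  rw [← sub_le_iff_le_add', ← mul_assoc, mul_comm 12, mul_assoc, le_inv_mul_iff₀ p0]
  rcases le_total (S.A2 x - 2 * S.H x ^ 2) 0 with b | b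
  · exact (mul_nonpos_of_nonneg_of_nonpos p0.le b).trans (by positivity)
  · nlinarith [mul_le_mul_of_nonneg_right c5 b]

end Gbb

open Gbb

theorem gbb {S : Srf} {Λ M : ℝ} (h : S.Ok) (he : ∀ x, S.w x = 0 → S.φ x = 0) (hA : AR Λ S.μ)
    (hM : ∀ x, S.w x = 0 → S.A2 x ≤ M) : ∃ G, S.GBd G := by
  wlog M0 : 0 ≤ M ∧ 0 ≤ Λ generalizing M Λ
  · exact this (hA.mono (le_abs_self _)) (fun x hx => (hM x hx).trans (le_abs_self _))
      ⟨abs_nonneg _, abs_nonneg _⟩
  obtain ⟨M0, L0⟩ := M0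
  have := hA.fin
  let β : ContDiffBump (0 : E3) := ⟨1, 2, one_pos, one_lt_two⟩
  have sβ : ContDiff ℝ 1 β := β.contDiff
  obtain ⟨K, hK⟩ := (β.hasCompactSupport.fderiv ℝ).exists_bound_of_continuous
    (sβ.continuous_fderiv one_ne_zero)
  have K0 := (norm_nonneg _).trans (hK 0)
  set c := 8 * M + 64 * K ^ 2 + 100
  have c0 : 0 ≤ c := by positivity
  have io : ∀ {f : E3 → ℝ}, Continuous f → ∀ y r, IntegrableOn f (closedBall y r) S.μ :=
    fun hf y r => hf.continuousOn.integrableOn_compact (isCompact_closedBall y r)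
  have cH : Continuous fun x => S.H x ^ 2 := h.sH.continuous.pow 2
  have iA := fun y r => (io h.sA2.continuous y r).mono_set ball_subset_closedBall
  refine ⟨M * Λ * (11 * M + 1) ^ 2 + (2 + 12 * c), fun y r hr => ?_⟩
  have I0 : 0 ≤ ∫ x in closedBall y (20 * r), S.H x ^ 2 ∂S.μ := by positivity
  have R1 : 1 ≤ (11 * M + 1) ^ 2 := one_le_pow₀ (by linarith)
  have ML := mul_nonneg M0 L0
  rcases le_total r 1 with r1 | r1
  · have h1 := setIntegral_mono_ae_restrict (iA y r) (integrableOn_const measure_ball_lt_top.ne)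
      ((h.ae_set _).mono hM)
    rw [setIntegral_const, smul_eq_mul] at h1
    have h2 := mul_le_mul_of_nonneg_right ((hA.real L0 hr (ball_subset_closedBall (x := y))).trans
      (mul_le_of_le_one_right L0 (pow_le_one₀ hr.le r1))) M0
    nlinarith [mul_nonneg ML (sub_nonneg.2 R1), mul_nonneg I0 c0,
      mul_nonneg (mul_nonneg ML (zero_le_one.trans R1)) I0]
  let η : E3 → ℝ := fun x => β (-(r⁻¹ • y) + r⁻¹ • x)
  have nη : ∀ x, dist (-(r⁻¹ • y) + r⁻¹ • x) 0 = dist x y / r := fun x => by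
    rw [dist_zero_right, neg_add_eq_sub, ← smul_sub, norm_smul, norm_inv,
      Real.norm_of_nonneg hr.le, dist_eq_norm, inv_mul_eq_div]
  have η1 : ∀ x ∈ ball y r, η x = 1 := fun x hx => β.one_of_mem_closedBall (by
    rw [mem_closedBall, nη, div_le_iff₀ hr]; simpa [β] using (mem_ball.1 hx).le)
  have η0 : ∀ x ∉ closedBall y (20 * r), η x = 0 := fun x hx => β.zero_of_le_dist (by
    rw [nη, le_div_iff₀ hr]
    have : 20 * r < dist x y := by simpa using hx
    simp only [β]; linarith)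
  have sη : ContDiff ℝ 1 η := sβ.comp (by fun_prop)
  have dη : ∀ x v, fderiv ℝ η x v ^ 2 ≤ K ^ 2 * ‖v‖ ^ 2 := fun x v => by
    rw [← mul_pow, ← sq_abs]
    refine pow_le_pow_left₀ (abs_nonneg _) (((fderiv ℝ η x).le_opNorm v).trans ?_) 2
    rw [show fderiv ℝ η x = _ from fderiv_sc β _ _ x, norm_smul, norm_inv, Real.norm_of_nonneg hr.le]
    gcongr
    exact (mul_le_of_le_one_left (norm_nonneg _) (inv_le_one_of_one_le₀ r1)).trans (hK _)
  let o : E3 → ℝ := fun x => (1 + ‖x‖ ^ 2)⁻¹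
  have p0 : ∀ x : E3, 0 < 1 + ‖x‖ ^ 2 := fun x => by positivity
  have so : ContDiff ℝ 1 o := (contDiff_const.add (contDiff_norm_sq ℝ)).inv fun x => (p0 x).ne'
  have o1 : ∀ x, o x ≤ 1 := fun x => inv_le_one_of_one_le₀ (by simp)
  let g : E3 → ℝ := fun x => 2⁻¹ * ⟪S.n x, x⟫
  have sI : ContDiff ℝ 1 fun x => ⟪S.n x, x⟫ := (h.sn.of_le one_le).inner ℝ contDiff_id
  have sf : ContDiff ℝ 1 fun x => η x ^ 2 * o x * g x :=
    ((sη.pow 2).mul so).mul (contDiff_const.mul sI)
  have sV' : ContDiff ℝ 1 (V S) := (sV h).of_le one_le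
  have hc : ∀ {F : Type} [Zero F] {u : E3 → F}, (∀ x, η x = 0 → u x = 0) → HasCompactSupport u :=
    fun hu => .intro (isCompact_closedBall y (20 * r)) fun x hx => hu x (η0 x hx)
  have cY : HasCompactSupport fun x => (η x ^ 2 * o x * g x) • V S x := hc fun x hx => by simp [hx]
  have sY : ContDiff ℝ 1 fun x => (η x ^ 2 * o x * g x) • V S x := sf.smul sV'
  have f1 := fv' S _ h sY cY
  rw [h.int_congr (g := fun _ => (0 : ℝ)) (f := fun x => S.H x * _) fun x hx => by
    rw [real_inner_smul_right, V_eq, h.n_A hx, mul_zero, mul_zero], integral_zero] at f1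
  have i1 := (h.cdv sY).integrable_of_hasCompactSupport (μ := S.μ) (Srf.hcs_dv cY)
  have i2 := (integrable_indicator_iff measurableSet_closedBall).2 (io cH y (20 * r))
  have cu : Continuous fun x => η x ^ 2 * o x * ‖V S x‖ ^ 2 :=
    ((sη.pow 2).mul so).continuous.mul (sV'.continuous.norm.pow 2)
  have i3 := cu.integrable_of_hasCompactSupport (μ := S.μ) (hc fun x hx => by simp [hx])
  have f2 := integral_mono_ae i3 ((i1.const_mul 4).add (i2.const_mul c)) (h.ae.mono fun x hx => by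
    have gH : g x = S.H x := by
      have := he x hx
      rw [Srf.φ, real_inner_comm] at this
      simp only [g]; linarith
    have d1 := (sη.differentiable one_ne_zero x).hasFDerivAt
    have d2 : HasFDerivAt o _ x := (hasDerivAt_inv (p0 x).ne').comp_hasFDerivAt x
      ((hasStrictFDerivAt_norm_sq x).hasFDerivAt.const_add 1)
    have d3 := (sI.differentiable one_ne_zero x).hasFDerivAt.const_mul 2⁻¹
    have PV : S.P x (V S x) = V S x := by rw [V_eq, h.P_A hx]
    have e4 := d_tan h hx (V S x)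
    rw [PV, real_inner_self_eq_norm_sq] at e4
    have e5 : fderiv ℝ (fun x => η x ^ 2 * o x * g x) x (V S x) = η x ^ 2 * o x * (‖V S x‖ ^ 2 / 2) +
        S.H x * (2 * η x * o x * fderiv ℝ η x (V S x) - 2 * η x ^ 2 * o x ^ 2 * ⟪V S x, x⟫) := by
      rw [show fderiv ℝ (fun x => η x ^ 2 * o x * g x) x = _ from (((d1.pow 2).mul d2).mul d3).fderiv,
        ← gH]
      simp [e4, o, g, real_inner_comm x]
      ring
    simp only [Pi.add_apply]
    rw [Srf.dv_smul (sf.differentiable one_ne_zero x) (sV'.differentiable one_ne_zero x),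
      Srf.inner_tg, PV, e5, dv_V h he hx, gH, show ⟪S.n x, x⟫ = 2 * S.H x by rw [← gH]; ring]
    by_cases hb : x ∈ closedBall y (20 * r)
    · rw [indicator_of_mem hb]
      exact alg β.nonneg β.le_one (inv_pos.2 (p0 x)).le (o1 x)
        ((inv_mul_le_iff₀ (p0 x)).2 (by simp)) (dη x _)
        ((P218M1.inner_sq_le _ _).trans_eq (mul_comm _ _)) (hM x hx) M0
    · simp [η0 x hb, hb])
  simp only [Pi.add_apply] at f2
  rw [integral_add (i1.const_mul 4) (i2.const_mul c), integral_const_mul, integral_const_mul,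
    show ∫ x, S.dv _ x ∂S.μ = 0 from f1, integral_indicator measurableSet_closedBall] at f2
  have i4 := (integrable_indicator_iff measurableSet_closedBall).2
    (io (continuous_const (y := M)) 0 (11 * M + 1))
  have f3 := integral_mono_ae ((integrable_indicator_iff measurableSet_ball).2 (iA y r))
    (((i2.const_mul 2).add (i3.const_mul 12)).add i4) (h.ae.mono fun x hx => by
      have q1 : 0 ≤ η x ^ 2 * o x * ‖V S x‖ ^ 2 := by positivity
      have q2 := indicator_nonneg (s := closedBall (0 : E3) (11 * M + 1)) (fun _ _ => M0) x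
      have q3 := indicator_nonneg (s := closedBall y (20 * r)) (fun x _ => sq_nonneg (S.H x)) x
      simp only [Pi.add_apply]
      by_cases hb : x ∈ ball y r
      · rw [indicator_of_mem hb]
        by_cases hR : x ∈ closedBall (0 : E3) (11 * M + 1)
        · rw [indicator_of_mem hR]
          exact (hM x hx).trans (le_add_of_nonneg_left (by positivity))
        · rw [indicator_of_mem (closedBall_subset_closedBall (by linarith)
            (ball_subset_closedBall hb)), η1 x hb, one_pow, one_mul]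
          exact (pt h he hx (hM x hx) (le_of_lt (by simpa using hR))).trans
            (le_add_of_nonneg_right q2)
      · rw [indicator_of_notMem hb]
        positivity)
  rw [integral_add' ((i2.const_mul 2).add (i3.const_mul 12)) i4,
    integral_add' (i2.const_mul 2) (i3.const_mul 12), integral_const_mul, integral_const_mul,
    integral_indicator measurableSet_closedBall, integral_indicator measurableSet_closedBall,
    integral_indicator measurableSet_ball, setIntegral_const, smul_eq_mul] at f3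
  have f4 := mul_le_mul_of_nonneg_right (hA.real L0 (x := 0) (r := 11 * M + 1) (by linarith)
    subset_rfl) M0
  nlinarith [mul_nonneg (mul_nonneg ML (zero_le_one.trans R1)) I0]

end Vale.Agent.P218E
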