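import Vale.Agent.P218E.Top2
import Vale.Agent.P218E.Gbb
import Vale.Agent.P218M1.Fin

/-!
# P218E: the reduction to `TStar`
-/

open MeasureTheory Metric Filter Topology Set
open scoped ContDiff ENNReal RealInnerProductSpace NNReal
open Vale.Agent.P218 (IsTangentFlow IsIntegralBrakkeFlow TangentFlowUnique)
open Vale.Agent.P218.H552
open Vale.Agent.P218R
open Vale.Agent.P218T (IsEndedShrinker TStar)

noncomputable section

namespace Vale.Agent.P218E

variable {μ ν : ℝ → Measure E3} {x₀ : E3} {t₀ : ℝ}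

theorem tf0 : TF := tf' wh (den' P218M1.dpr')

theorem ends0 : ENDS := ends' tf0

theorem th_gs (μ : ℝ → Measure E3) (x : E3) {s t : ℝ} (h : t < s) :
    Th 2 μ x s t = 4 * Real.pi * gs (μ t) x √(s - t) := by
  have h0 := sub_pos.2 h
  rw [gs, Real.sq_sqrt h0.le, ← mul_assoc, ← integral_const_mul, Th, JJ]
  refine integral_congr_ae (.of_forall fun y => ?_)
  simp only [phi0, gF, yy, norm_smul, mul_pow, Real.norm_eq_abs, sq_abs, Lam_sq h]
  have := Real.pi_pos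
  congr 1
  · field_simp
  · rw [one_mul]; congr 1; field_simp

theorem ar_slice (hB : IsIntegralBrakkeFlow 2 μ) (h0 : μ 0 univ < ⊤) (ht : 0 < t₀)
    (hν : IsTangentFlow 2 μ x₀ t₀ ν) : ∃ Λ, AR Λ (ν (-1)) := by
  obtain ⟨T, H, hB⟩ := exists_BF hB
  obtain ⟨hf, l, hl, hw⟩ := hν
  have ar : ∀ t, t₀ / 2 ≤ t → AR (4 * (μ 0).real univ / t₀) (μ t) := fun t h x r hr => by
    have t0 : 0 < t := by linarith
    have r2 := pow_pos hr 2
    have := hB.finite h0 t0.le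
    have := hB.finite h0 le_rfl
    have h1 := hB.Th_anti h0 x (t₀ := t + r ^ 2) le_rfl t0.le (by linarith)
    rw [th_gs _ _ (by linarith), th_gs _ _ (by linarith), add_sub_cancel_left, Real.sqrt_sq hr.le,
      mul_le_mul_iff_right₀ (by positivity), sub_zero] at h1
    have h3 := Cfl.gs_le (μ 0) x √(t + r ^ 2)
    rw [Real.sq_sqrt (by linarith)] at h3
    have h5 := ((Cfl.le_gs (μ t) x hr).trans (h1.trans h3)).trans (mul_le_mul_of_nonneg_right
      (inv_anti₀ (mul_pos (by positivity) (half_pos ht)) (mul_le_mul_of_nonneg_left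
        (show t₀ / 2 ≤ t + r ^ 2 by linarith) (by positivity))) measureReal_nonneg)
    rw [inv_mul_le_iff₀ (by positivity)] at h5
    rw [← ofReal_measureReal]
    refine ENNReal.ofReal_le_ofReal ?_
    have h6 : 4 * Real.pi * r ^ 2 * ((4 * Real.pi * (t₀ / 2))⁻¹ * (μ 0).real univ) =
        1 / 2 * (4 * (μ 0).real univ / t₀ * r ^ 2) := by
      field_simp
      ring
    have : 0 ≤ 4 * (μ 0).real univ / t₀ * r ^ 2 := by positivity
    linarith
  refine ⟨_, (gsl.2 ℕ atTop (4 * (μ 0).real univ / t₀) _ _ (hf _ neg_one_lt_zero) ?_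
    (hw _ neg_one_lt_zero)).1⟩
  filter_upwards [hl.eventually_gt_atTop 0,
    ((tendsto_pow_atTop two_ne_zero).comp hl).eventually_ge_atTop (2 / t₀)] with i h1 h2
  refine zm_ar (ar _ ?_) x₀ h1
  have : 1 / l i ^ 2 ≤ t₀ / 2 := by
    rw [div_le_iff₀ (by positivity)]
    rw [div_le_iff₀ ht] at h2
    simp only [Function.comp] at h2
    linarith
  rw [neg_div]
  linarith

theorem fin (hS : TStar) (hB : IsIntegralBrakkeFlow 2 μ) (h0 : μ 0 univ < ⊤) (ht : 0 < t₀) :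
    (∀ (M : ℝ → Set E3) (a : ℝ), a < t₀ → IsSmoothFlow M a t₀ →
      (∀ t ∈ Ioo a t₀, μ t = (μH[2] : Measure E3).restrict (M t)) → TangentFlowUnique 2 μ x₀ t₀) ∧
    ∀ S : Srf, S.Ok → (∀ x ∈ S.G, S.φ x = 0) → ((∃ C, ∀ x ∈ S.G, S.A2 x ≤ C) ∨ ∃ C, S.GBd C) →
      (∃ ν, IsTangentFlow 2 μ x₀ t₀ ν ∧ ν (-1) = (μH[2] : Measure E3).restrict S.G) →
      TangentFlowUnique 2 μ x₀ t₀ := by
  refine ⟨fun M a ha hM hμ ν ν' hν hν' => ?_, fun S h he hG ⟨ν, hν, e⟩ => ?_⟩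
  · obtain ⟨S, h1, h2⟩ := slice2 (gbx' P218M1.mono32') tf0 ha hM hμ hν
    exact hS μ hB h0 x₀ t₀ ht S h1 ⟨ν, hν, h2⟩ ν ν' hν hν'
  · obtain ⟨Λ, hΛ⟩ := ar_slice hB h0 ht hν
    obtain ⟨c, -, hc⟩ := exists_cH
    have hA : AR (c * Λ) S.μ := fun x r hr => by
      rw [Srf.μ, hc, Measure.restrict_smul, ← e, Measure.smul_apply, mul_assoc,
        ENNReal.ofReal_mul c.coe_nonneg, ENNReal.ofReal_coe_nnreal]
      exact mul_le_mul_right (hΛ x r hr) _
    obtain ⟨G, hG⟩ := hG.elim (fun ⟨_, h'⟩ => gbb h he hA h') id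
    exact hS μ hB h0 x₀ t₀ ht S.G (ends0 S _ G ⟨h, he, hA, hG⟩) ⟨ν, hν, e⟩

end Vale.Agent.P218E
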