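import Vale.Agent.P218R.All1

/-!
# P218E: the local Gauss-Bonnet estimate for closed surfaces with several components
-/

open MeasureTheory Metric Filter Topology Set
open scoped ContDiff ENNReal RealInnerProductSpace
open Vale.Agent.P366W
open Vale.Agent.P218R

noncomputable section

namespace Vale.Agent.P218E

/-- `G` is a union of at most `N` preconnected sets -/
def Cov (N : ℕ) (G : Set E3) : Prop :=
  ∃ K : Finset (Set E3), K.card ≤ N ∧ (∀ k ∈ K, IsPreconnected k) ∧ G = ⋃ k ∈ K, k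

namespace Gbn

variable {S T T' : Srf} {G : Set E3} {N : ℕ}

theorem ex_cov (hG : IsCompact G) (hl : LC G) : ∃ N, Cov N G := by
  classical
  choose! V h1 h2 h3 using fun p hp => hl p hp univ univ_mem
  obtain ⟨t, a, b⟩ := hG.elim_nhds_subcover V h1
  refine ⟨_, t.image fun p => V p ∩ G, le_rfl, fun k hk => ?_, subset_antisymm (fun x hx => ?_)
    (iUnion₂_subset fun k hk => ?_)⟩
  · obtain ⟨p, hp, rfl⟩ := Finset.mem_image.1 hk
    exact h3 p (a p hp)
  · obtain ⟨p, hp, h⟩ := mem_iUnion₂.1 (b hx)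
    exact mem_iUnion₂.2 ⟨_, Finset.mem_image_of_mem _ hp, h, hx⟩
  · obtain ⟨p, -, rfl⟩ := Finset.mem_image.1 hk
    exact inter_subset_right

theorem Cov.image (h : Cov N G) {f : E3 → E3} (hf : Continuous f) : Cov N (f '' G) := by
  classical
  obtain ⟨K, a, b, rfl⟩ := h
  refine ⟨K.image fun k => f '' k, Finset.card_image_le.trans a, fun k hk => ?_, ?_⟩
  · obtain ⟨k', hk', rfl⟩ := Finset.mem_image.1 hk
    exact (b k' hk').image f hf.continuousOn
  · rw [image_iUnion₂, Finset.set_biUnion_finset_image]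

theorem split (h : Cov (N + 1) G) (hG : IsClosed G) : ∃ A B, IsClosed A ∧ IsClosed B ∧
    Disjoint A B ∧ G = A ∪ B ∧ IsPreconnected A ∧ Cov N B := by
  classical
  obtain ⟨K, a, b, e⟩ := h
  rcases G.eq_empty_or_nonempty with rfl | ⟨p, hp⟩
  · exact ⟨∅, ∅, isClosed_empty, isClosed_empty, by simp, by simp, isPreconnected_empty, ∅,
      by simp, by simp, by simp⟩
  have sub : ∀ k ∈ K, closure k ⊆ G := fun k hk =>
    closure_minimal (e ▸ subset_biUnion_of_mem (u := fun k => k) hk) hG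
  set A := connectedComponentIn G p
  have hA : ∀ s, IsPreconnected s → s ⊆ G → ∀ x ∈ s, x ∈ A → s ⊆ A := fun s hs h x h1 h2 =>
    (hs.subset_connectedComponentIn h1 h).trans (connectedComponentIn_eq h2).ge
  have pA : p ∈ A := mem_connectedComponentIn hp
  set K' := (K.filter fun k => Disjoint A (closure k)).image closure
  refine ⟨A, ⋃ k ∈ K', k, isClosed_of_closure_subset (hA _ isPreconnected_connectedComponentIn.closure
    (closure_minimal (connectedComponentIn_subset _ _) hG) p (subset_closure pA) pA),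
    isClosed_biUnion_finset fun k hk => ?_, disjoint_iUnion₂_right.2 fun k hk => ?_,
    subset_antisymm (fun x hx => ?_) (union_subset (connectedComponentIn_subset _ _)
      (iUnion₂_subset fun k hk => ?_)), isPreconnected_connectedComponentIn, K', ?_,
    fun k hk => ?_, rfl⟩
  · obtain ⟨k, -, rfl⟩ := Finset.mem_image.1 hk
    exact isClosed_closure
  · obtain ⟨k', hk', rfl⟩ := Finset.mem_image.1 hk
    exact (Finset.mem_filter.1 hk').2
  · obtain ⟨k, hk, h⟩ := mem_iUnion₂.1 (e ▸ hx)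
    by_cases hd : Disjoint A (closure k)
    · exact .inr (mem_iUnion₂.2 ⟨_, Finset.mem_image_of_mem _ (Finset.mem_filter.2 ⟨hk, hd⟩),
        subset_closure h⟩)
    · obtain ⟨y, y1, y2⟩ := not_disjoint_iff.1 hd
      exact .inl (hA _ (b k hk).closure (sub k hk) y y2 y1 (subset_closure h))
  · obtain ⟨k', hk', rfl⟩ := Finset.mem_image.1 hk
    exact sub k' (Finset.mem_filter.1 hk').1
  · obtain ⟨k, hk, h⟩ := mem_iUnion₂.1 (e ▸ hp)
    have := Finset.card_lt_card ((Finset.filter_ssubset (p := fun k => Disjoint A (closure k))).2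
      ⟨k, hk, fun hd => disjoint_left.1 hd pA (subset_closure h)⟩)
    exact Finset.card_image_le.trans (by omega)
  · obtain ⟨k', hk', rfl⟩ := Finset.mem_image.1 hk
    exact (b k' (Finset.mem_filter.1 hk').1).closure

theorem near {A B : Set E3} (hB : IsClosed B) (hd : Disjoint A B) (e : S.G = A ∪ B) {p : E3}
    (hp : p ∈ A) : ∀ᶠ q in 𝓝 p, q ∈ A ↔ S.w q = 0 :=
  (hB.isOpen_compl.eventually_mem (disjoint_left.1 hd hp)).mono fun q hq =>
    ⟨fun h => show q ∈ S.G from e ▸ .inl h, fun h => (show q ∈ A ∪ B from e ▸ h).resolve_right hq⟩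

theorem piece (h : S.Ok) {A B : Set E3} (hA : IsClosed A) (hB : IsClosed B) (hd : Disjoint A B)
    (e : S.G = A ∪ B) : ∃ T : Srf, T.Ok ∧ T.G = A := by
  obtain ⟨w, h1, h2, h3⟩ := ori E3 A hA fun p hp => ⟨S.w, h.sw,
    grad_ne_iff.1 (h.reg p (show p ∈ S.G from e ▸ .inl hp)), near hB hd e hp⟩
  exact ⟨.of w, Srf.of_ok h1 fun x hx => grad_ne_iff.2 (h3 x ((h2 x).2 hx)),
    Set.ext fun x => (h2 x).symm⟩

/-- the density of the degree -/
def dc (S : Srf) (x : E3) : ℝ := ∫ s, g0 (x + s • S.n x) * S.J x s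

theorem same (h : S.Ok) (hT : T.Ok) {B : Set E3} (hB : IsClosed B) (hd : Disjoint T.G B)
    (e : S.G = T.G ∪ B) {x : E3} (hx : T.w x = 0) :
    S.A2 x = T.A2 x ∧ S.H x ^ 2 = T.H x ^ 2 ∧ dc S x = dc T x := by
  obtain ⟨ε, hε, h1⟩ := hT.same hx h (near hB hd e hx)
  obtain ⟨a, -, b⟩ := h1.self_of_nhds hx
  rcases hε with rfl | rfl
  · simp only [one_smul] at a b
    simp only [Srf.A2, Srf.H, dc, Srf.J, Srf.K, a, b, and_self]
  · rw [neg_one_smul] at a
    replace b : S.A x = -T.A x := b.trans (by ext; simp)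
    simp only [Srf.A2, Srf.H, dc, Srf.J, Srf.K, a, b, ContinuousLinearMap.neg_comp,
      ContinuousLinearMap.comp_neg, neg_neg, trc_neg, neg_sq, dt_neg, true_and]
    rw [← integral_neg_eq_self]
    simp

theorem int_dc (h : S.Ok) (hG : IsCompact S.G) : Integrable (dc S) S.μ := by
  have := (low' S h).1
  have := Dg.fin h hG
  have c : Continuous g0 := ContDiffBump.continuous_normed _
  exact (Dg.integ h hG (g := g0) (F := fun p => g0 (Dg.ex S p) * S.J p.1 p.2)
    ((c.comp (Dg.cont_ex h)).mul (Dg.cont_J h)) (ContDiffBump.hasCompactSupport_normed _)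
    fun p hp => by simp [image_eq_zero_of_notMem_tsupport hp]).integral_prod_left

theorem int_add (hT : T.Ok) (hT' : T'.Ok) (hd : Disjoint T.G T'.G) (e : S.G = T.G ∪ T'.G)
    {f g g' : E3 → ℝ} (s : Set E3) (h1 : ∀ x, T.w x = 0 → f x = g x)
    (h2 : ∀ x, T'.w x = 0 → f x = g' x) (i1 : Integrable g T.μ) (i2 : Integrable g' T'.μ) :
    ∫ x in s, f x ∂S.μ = ∫ x in s, g x ∂T.μ + ∫ x in s, g' x ∂T'.μ := by
  have a1 : f =ᵐ[T.μ.restrict s] g := (hT.ae_set s).mono h1
  have a2 : f =ᵐ[T'.μ.restrict s] g' := (hT'.ae_set s).mono h2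
  rw [Srf.μ, e, Measure.restrict_union hd hT'.meas, Measure.restrict_add,
    ← integral_congr_ae a1, ← integral_congr_ae a2]
  exact integral_add_measure (i1.restrict.congr a1.symm) (i2.restrict.congr a2.symm)

theorem chi_le (h : S.Ok) (hG : IsCompact S.G) (hc : IsPreconnected S.G) : S.chi ≤ 2 := by
  obtain ⟨y, a, b⟩ := ((ar3' S h).1.and (deg' S h hG)).exists
  have p : ∀ x, -1 < dq y x := fun x => neg_one_lt_zero.trans_le (by unfold dq; positivity)
  have f := (fin' S h).1 _ a hG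
  have := mor' S _ (-1) h hG hc a fun x _ => (p x).ne'
  simp only [p, sep_true, ofPred_true, inter_univ] at this
  rw [← (f.subset fun x (hx : x ∈ S.ext _) => hx.1).cast_ncard_eq,
    ← (f.subset fun x (hx : x ∈ S.sad _) => hx.1).cast_ncard_eq] at this
  have h2 : (S.ext (dq y)).ncard ≤ 1 + 1 + (S.sad (dq y)).ncard := by
    exact_mod_cast this.trans (add_le_add_left (add_le_add_right (Mor.nc_le hc) 1) _)
  have h3 : ((S.ext (dq y)).ncard : ℝ) ≤ 1 + 1 + (S.sad (dq y)).ncard := by exact_mod_cast h2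
  linarith

end Gbn

open Gbn

theorem gbn (hb : GBX) (N : ℕ) : ∃ C : ℝ, 0 ≤ C ∧ ∀ (S : Srf) (Λ : ℝ), S.Ok → IsCompact S.G →
    Cov N S.G → 0 ≤ Λ → AR Λ S.μ → S.chi ≤ 2 * N ∧ S.GBd (C * (1 + Λ + |S.chi|)) := by
  obtain ⟨C₀, hb⟩ := hb
  induction N with
  | zero =>
    refine ⟨0, le_rfl, fun S Λ _ _ ⟨K, a, _, e⟩ _ _ => ?_⟩
    obtain rfl := Finset.card_eq_zero.1 (Nat.le_zero.1 a)
    have : S.μ = 0 := by simp [Srf.μ, e]
    simp [Srf.chi, Srf.GBd, this]
  | succ N ih =>
    obtain ⟨C, C0, ih⟩ := ih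
    refine ⟨(|C₀| + C) * (2 * N + 3), by positivity, fun S Λ h hG hc L0 hA => ?_⟩
    obtain ⟨A, B, cA, cB, hd, e, pA, pB⟩ := split hc h.closed
    obtain ⟨T, hT, rfl⟩ := piece h cA cB hd e
    obtain ⟨T', hT', rfl⟩ := piece h cB cA hd.symm (e.trans (union_comm _ _))
    have k1 := hG.of_isClosed_subset cA (e ▸ subset_union_left)
    have k2 := hG.of_isClosed_subset cB (e ▸ subset_union_right)
    have ar : ∀ U : Srf, U.G ⊆ S.G → AR Λ U.μ := fun U hU x r hr =>
      (Measure.restrict_mono_set _ hU _).trans (hA x r hr)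
    have a1 := ar T (e ▸ subset_union_left)
    have a2 := ar T' (e ▸ subset_union_right)
    have s1 := fun x => same h hT cB hd e (x := x)
    have s2 := fun x => same h hT' cA hd.symm (e.trans (union_comm _ _)) (x := x)
    have := a1.fin
    have := a2.fin
    have e1 : S.chi = T.chi + T'.chi := by
      simpa using! int_add hT hT' hd e univ (fun x hx => (s1 x hx).2.2) (fun x hx => (s2 x hx).2.2)
        (int_dc hT k1) (int_dc hT' k2)
    have c1 := chi_le hT k1 pA
    obtain ⟨c2, g2⟩ := ih T' Λ hT' k2 pB L0 a2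
    have g1 := hb T Λ hT k1 pA L0 a1
    refine ⟨by push_cast; linarith, fun y r hr => ?_⟩
    rw [int_add hT hT' hd e _ (fun x hx => (s1 x hx).1) (fun x hx => (s2 x hx).1)
      (Dg.integ1 hT k1 hT.sA2.continuous) (Dg.integ1 hT' k2 hT'.sA2.continuous),
      int_add hT hT' hd e _ (fun x hx => (s1 x hx).2.1) (fun x hx => (s2 x hx).2.1)
      (Dg.integ1 hT k1 (hT.sH.continuous.pow 2)) (Dg.integ1 hT' k2 (hT'.sH.continuous.pow 2))]
    have g3 := g1 y r hr
    have g4 := g2 y r hr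
    have i1 : 0 ≤ ∫ x in closedBall y (20 * r), T.H x ^ 2 ∂T.μ := by positivity
    have i2 : 0 ≤ ∫ x in closedBall y (20 * r), T'.H x ^ 2 ∂T'.μ := by positivity
    have n0 : (0 : ℝ) ≤ N := N.cast_nonneg
    have x0 := abs_nonneg S.chi
    have b0 : ∀ z : ℝ, |z| ≤ |S.chi| + 2 * N + 2 →
        1 + Λ + |z| ≤ (2 * N + 3) * (1 + Λ + |S.chi|) := fun z hz => by nlinarith
    have b1 := b0 T.chi (abs_le.2 ⟨by linarith [neg_abs_le S.chi], by linarith⟩)
    have b2 := b0 T'.chi (abs_le.2 ⟨by linarith [neg_abs_le S.chi], by linarith⟩)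
    generalize ∫ x in closedBall y (20 * r), T.H x ^ 2 ∂T.μ = I at *
    generalize ∫ x in closedBall y (20 * r), T'.H x ^ 2 ∂T'.μ = I' at *
    have b3 : C₀ * (1 + Λ + |T.chi|) * (1 + I) ≤
        |C₀| * ((2 * N + 3) * (1 + Λ + |S.chi|)) * (1 + (I + I')) := by
      gcongr
      · exact le_abs_self _
      · linarith
    have b4 : C * (1 + Λ + |T'.chi|) * (1 + I') ≤
        C * ((2 * N + 3) * (1 + Λ + |S.chi|)) * (1 + (I + I')) := by
      gcongr
      linarith
    linarith

end Vale.Agent.P218E
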