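import Vale.Agent.P218E.Zm

/-!
# P218E, row NEAR: the normal line is almost constant along the scales
-/

open MeasureTheory Metric Filter Topology Set
open scoped ContDiff ENNReal RealInnerProductSpace NNReal
open Vale.Agent.P218 (limitSet WeakTendsto)
open Vale.Agent.P218R

noncomputable section

namespace Vale.Agent.P218E

namespace Near

/-- limits along an ultrafilter in a compact set -/
theorem ulim {X : Type*} [TopologicalSpace X] (U : Ultrafilter ℕ) {K : Set X} (hK : IsCompact K)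
    {f : ℕ → X} (h : ∀ᶠ i in (U : Filter ℕ), f i ∈ K) : ∃ x ∈ K, Tendsto f U (𝓝 x) :=
  hK.ultrafilter_le_nhds' (U.map f) h

/-- the increments of bounded monotone functions over small intervals are small -/
theorem osc (U : Ultrafilter ℕ) {g : ℕ → ℝ → ℝ≥0∞} {h : ℕ → ℕ → ℝ≥0∞} {a b : ℕ → ℝ} {K : ℝ≥0∞}
    (hK : K ≠ ⊤) (hm : ∀ i, Monotone (g i)) (hb : ∀ᶠ i in (U : Filter ℕ), ∀ r, g i r ≤ K)
    (ha : ∀ᶠ k in atTop, 0 < a k ∧ ∀ i, g i (a k) + h k i ≤ g i (b k))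
    (h0 : Tendsto b atTop (𝓝 0)) : ∃ δ : ℕ → ℝ, Tendsto δ atTop (𝓝 0) ∧
      ∀ᶠ k in atTop, ∀ᶠ i in (U : Filter ℕ), h k i < ENNReal.ofReal (δ k) := by
  choose G _ hG using fun r => ulim U isCompact_univ (f := fun i => g i r) (by simp)
  choose H _ hH using fun k => ulim U isCompact_univ (f := h k) (by simp)
  have hfin : (⨅ r : Ioi (0 : ℝ), G r) ≠ ⊤ :=
    ne_top_of_le_ne_top hK ((iInf_le (fun r : Ioi (0 : ℝ) => G r) ⟨1, mem_Ioi.2 one_pos⟩).trans
      (le_of_tendsto (hG 1) (hb.mono fun i hi => hi 1)))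
  have hH0 : Tendsto H atTop (𝓝 0) := by
    refine ENNReal.tendsto_nhds_zero.2 fun ε hε => ?_
    obtain ⟨r, hr⟩ := iInf_lt_iff.1 (ENNReal.lt_add_right hfin hε.ne')
    filter_upwards [ha, h0.eventually_lt_const r.2] with k hk hk'
    have h1 : G (a k) + H k ≤ G r :=
      le_of_tendsto_of_tendsto' ((hG _).add (hH k)) (hG r) fun i => (hk.2 i).trans (hm i hk'.le)
    refine (ENNReal.add_le_add_iff_left hfin).1 (le_trans ?_ (h1.trans hr.le))
    gcongr
    exact iInf_le (fun r : Ioi (0 : ℝ) => G r) ⟨a k, hk.1⟩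
  refine ⟨fun k => (H k).toReal + 1 / ((k : ℝ) + 1), ?_, ?_⟩
  · simpa using ((ENNReal.tendsto_toReal ENNReal.zero_ne_top).comp hH0).add
      tendsto_one_div_add_atTop_nhds_zero_nat
  · filter_upwards [hH0.eventually_lt_const zero_lt_one] with k hk
    refine (hH k).eventually_lt_const ?_
    rw [ENNReal.lt_ofReal_iff_toReal_lt (hk.trans ENNReal.one_lt_top).ne]
    have : (0 : ℝ) < 1 / ((k : ℝ) + 1) := by positivity
    linarith

theorem lip {n N ν : E3} (hn : ‖n‖ = 1) (hN : ‖N‖ = 1) (hν : ‖ν‖ = 1) :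
    (1 - ⟪n, ν⟫ ^ 2) ^ 4 ≤ (1 - ⟪N, n⟫ ^ 2) ^ 4 + 8 * ‖N - ν‖ := by
  have h1 : |⟪n, ν⟫| ≤ 1 := by simpa [hn, hν] using abs_real_inner_le_norm n ν
  have h2 : |⟪N, n⟫| ≤ 1 := by simpa [hn, hN] using abs_real_inner_le_norm N n
  have h3 : |⟪N, n⟫ - ⟪n, ν⟫| ≤ ‖N - ν‖ := by
    rw [real_inner_comm n N, ← inner_sub_right]
    simpa [hn] using abs_real_inner_le_norm n (N - ν)
  generalize ⟪n, ν⟫ = v at *
  generalize ⟪N, n⟫ = u at *
  have e0 := norm_nonneg (N - ν)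
  generalize ‖N - ν‖ = e at *
  have h4 : u ^ 2 - v ^ 2 ≤ 2 * e := by
    calc u ^ 2 - v ^ 2 = (u - v) * (u + v) := by ring
      _ ≤ |u - v| * |u + v| := by rw [← abs_mul]; exact le_abs_self _
      _ ≤ e * 2 := by gcongr; linarith [abs_add_le u v]
      _ = _ := by ring
  have h5 : u ^ 2 ≤ 1 := (sq_le_one_iff_abs_le_one u).2 h2
  have h6 : v ^ 2 ≤ 1 := (sq_le_one_iff_abs_le_one v).2 h1
  have s0 : 0 ≤ 1 - u ^ 2 := by linarith
  have s1 : 1 - u ^ 2 ≤ 1 := by linarith [sq_nonneg u]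
  have t0 : 0 ≤ 1 - v ^ 2 := by linarith
  have t1 : 1 - v ^ 2 ≤ 1 := by linarith [sq_nonneg v]
  have st : (1 - v ^ 2) - (1 - u ^ 2) ≤ 2 * e := by linarith
  generalize 1 - u ^ 2 = s at *
  generalize 1 - v ^ 2 = t at *
  rcases le_total t s with h | h
  · have := pow_le_pow_left₀ t0 h 4
    linarith
  · have h7 : (t + s) * (t ^ 2 + s ^ 2) ≤ 2 * 2 := by
      gcongr
      · linarith
      · nlinarith
    calc t ^ 4 = s ^ 4 + (t - s) * ((t + s) * (t ^ 2 + s ^ 2)) := by ring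
      _ ≤ s ^ 4 + 2 * e * (2 * 2) := by gcongr
      _ = _ := by ring

/-- the density of the pair estimate -/
def Q (T : Srf) (η : E3 → ℝ) (x y : E3) : ℝ≥0∞ :=
  ENNReal.ofReal (η x ^ 2 * η y ^ 2 * (1 - ⟪T.n x, T.n y⟫ ^ 2) ^ 4 / ‖x - y‖ ^ 4)

theorem key {T : Srf} {Λ L a b c δ R₀ : ℝ} {η : E3 → ℝ} {p : E3} (hT : T.Ok) (hA : AR Λ T.μ)
    (hΛ : 0 ≤ Λ) (hL : 0 < L) (ha : 0 < a) (hc : 0 < c) (hη : ∀ x ∈ ball p 1, η x = 1)
    (h1 : R₀ / L ≤ 1) (hm : ENNReal.ofReal c < (T.sc p L).μ (ball 0 R₀))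
    (hδ : ∫⁻ x, ∫⁻ y in ball x b \ ball x a, Q T η x y ∂T.μ ∂T.μ < ENNReal.ofReal δ) :
    ∃ N : E3, ‖N‖ = 1 ∧ ∀ R > (0 : ℝ), R / L ≤ 1 → (R + R₀) / L ≤ b → ∀ ν : E3, ‖ν‖ = 1 →
      ∫⁻ y in ball (0 : E3) R, ENNReal.ofReal ((1 - ⟪(T.sc p L).n y, ν⟫ ^ 2) ^ 4) ∂(T.sc p L).μ ≤
        ENNReal.ofReal (Λ * (L * a) ^ 2 + (R + R₀) ^ 4 / c * δ + 8 * Λ * R ^ 2 * ‖N - ν‖) := by
  have hδ0 : 0 ≤ δ := (ENNReal.ofReal_pos.1 (zero_le.trans_lt hδ)).le
  rw [mu_sc_apply T p hL, sc_ball p hL, smul_zero, add_zero] at hm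
  obtain ⟨x, hx, hw, hΦ⟩ : ∃ x ∈ ball p (R₀ / L), T.w x = 0 ∧
      ∫⁻ y in ball x b \ ball x a, Q T η x y ∂T.μ ≤ ENNReal.ofReal (δ / c * L ^ 2) := by
    by_contra! H
    refine hδ.not_ge (le_trans ?_ (setLIntegral_le_lintegral (ball p (R₀ / L)) _))
    refine le_trans ?_ (lintegral_mono_ae (f := fun _ => ENNReal.ofReal (δ / c * L ^ 2)) ?_)
    · rw [setLIntegral_const, ENNReal.ofReal_mul (by positivity), mul_assoc]
      refine le_trans ?_ (mul_le_mul_right hm.le _)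
      rw [← ENNReal.ofReal_mul (by positivity), div_mul_cancel₀ _ hc.ne']
    · filter_upwards [ae_restrict_mem measurableSet_ball, hT.ae_set _] with x h2 h3
      exact (H x h2 h3).le
  have hR₀ : 0 < R₀ := by simpa [hL, hL.not_gt] using div_pos_iff.1 (pos_of_mem_ball hx)
  refine ⟨T.n x, hT.norm_n hw, fun R hR h2 h3 ν hν => ?_⟩
  set B := ball p (R / L) with hB
  set D := ball x b \ ball x a with hD
  set f : E3 → ℝ≥0∞ := fun y => ENNReal.ofReal ((1 - ⟪T.n y, ν⟫ ^ 2) ^ 4) with hf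
  have hd : ∀ y ∈ B, ‖x - y‖ < (R + R₀) / L := fun y hy => by
    have := dist_triangle_right x y p
    rw [dist_eq_norm] at this
    rw [add_div]
    linarith [mem_ball.1 hx, mem_ball.1 hy]
  have e1 : ∫⁻ y in ball (0 : E3) R, ENNReal.ofReal ((1 - ⟪(T.sc p L).n y, ν⟫ ^ 2) ^ 4)
      ∂(T.sc p L).μ = ENNReal.ofReal (L ^ 2) * ∫⁻ y in B, f y ∂T.μ := by
    rw [mu_sc T p hL, Measure.restrict_smul, lintegral_smul_measure, (sc_emb p hL).restrict_map,
      (sc_emb p hL).lintegral_map, sc_ball p hL, smul_zero, add_zero, smul_eq_mul]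
    simp only [Srf.sc, sc_left p hL, hf, hB]
  have e2 : ∫⁻ y in ball x a, f y ∂T.μ ≤ ENNReal.ofReal (Λ * a ^ 2) := by
    refine le_trans ?_ ((measure_mono ball_subset_closedBall).trans (hA x a ha))
    rw [← setLIntegral_one]
    refine lintegral_mono_ae ((hT.ae_set _).mono fun y hy => ENNReal.ofReal_le_one.2 ?_)
    have h4 : |⟪T.n y, ν⟫| ≤ 1 := by simpa [hT.norm_n hy, hν] using abs_real_inner_le_norm (T.n y) ν
    exact pow_le_one₀ (sub_nonneg.2 ((sq_le_one_iff_abs_le_one _).2 h4))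
      (by linarith [sq_nonneg ⟪T.n y, ν⟫])
  have e3 : ∫⁻ y in B ∩ D, f y ∂T.μ ≤ ENNReal.ofReal (((R + R₀) / L) ^ 4) *
      ENNReal.ofReal (δ / c * L ^ 2) + ENNReal.ofReal (8 * ‖T.n x - ν‖) *
        ENNReal.ofReal (Λ * (R / L) ^ 2) := by
    refine (lintegral_mono_ae (g := fun y => ENNReal.ofReal (((R + R₀) / L) ^ 4) * Q T η x y +
      ENNReal.ofReal (8 * ‖T.n x - ν‖)) ?_).trans ?_
    · filter_upwards [ae_restrict_mem (measurableSet_ball.inter
        (measurableSet_ball.diff measurableSet_ball)), hT.ae_set _] with y hy hwy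
      have h5 : 0 < ‖x - y‖ := by
        have := hy.2.2
        rw [mem_ball', dist_eq_norm, not_lt] at this
        linarith
      rw [Q, ← ENNReal.ofReal_mul (by positivity), hη x (ball_subset_ball h1 hx),
        hη y (ball_subset_ball h2 hy.1), ← ENNReal.ofReal_add (by positivity) (by positivity)]
      refine ENNReal.ofReal_le_ofReal ((lip (hT.norm_n hwy) (hT.norm_n hw) hν).trans ?_)
      gcongr
      rw [one_pow, one_mul, one_mul, ← mul_div_assoc, le_div_iff₀ (by positivity), mul_comm]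
      gcongr
      exact (hd y hy.1).le
    · rw [lintegral_add_right _ measurable_const, lintegral_const_mul' _ _ ENNReal.ofReal_ne_top,
        setLIntegral_const]
      gcongr
      · exact (lintegral_mono_set inter_subset_right).trans hΦ
      · exact (measure_mono (inter_subset_left.trans ball_subset_closedBall)).trans
          (hA p _ (div_pos hR hL))
  have e4 : B ⊆ ball x a ∪ B ∩ D := fun y hy => by
    by_cases h : y ∈ ball x a
    · exact Or.inl h
    · exact Or.inr ⟨hy, mem_ball'.2 (by rw [dist_eq_norm]; linarith [hd y hy]), h⟩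
  rw [e1]
  refine (mul_le_mul_right ((lintegral_mono_set e4).trans ((lintegral_union_le _ _ _).trans
    (add_le_add e2 e3))) _).trans_eq ?_
  rw [← ENNReal.ofReal_mul (by positivity), ← ENNReal.ofReal_mul (by positivity),
    ← ENNReal.ofReal_add (by positivity) (by positivity),
    ← ENNReal.ofReal_add (by positivity) (by positivity), ← ENNReal.ofReal_mul (by positivity)]
  congr 1
  field_simp
  ring

/-- the right hand side of the pair estimate is bounded along a good sequence -/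
theorem bnd {S : ℕ → Srf} {Λ : ℝ} {κ : Measure E3} (h : GSeq S Λ κ) {η : E3 → ℝ}
    (h1 : ContDiff ℝ 1 η) (h2 : HasCompactSupport η) (h3 : ∀ x, 0 ≤ η x ∧ η x ≤ 1) :
    ∃ K : ℝ, ∀ᶠ i in atTop, ∫ x, (η x ^ 2 * (S i).A2 x + ‖gradient η x‖ ^ 2) ∂(S i).μ ≤ K := by
  have gc : Continuous (gradient η) :=
    (InnerProductSpace.toDual ℝ E3).symm.continuous.comp (h1.continuous_fderiv one_ne_zero)
  have gz : ∀ x ∉ tsupport η, gradient η x = 0 := fun x hx => by
    rw [gradient, fderiv_of_notMem_tsupport ℝ hx, map_zero]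
  obtain ⟨M, hM⟩ := gc.bounded_above_of_compact_support (HasCompactSupport.intro h2 gz)
  obtain ⟨R, hR0, hR⟩ := h2.isCompact.isBounded.subset_ball_lt 0 (0 : E3)
  obtain ⟨C, hC⟩ := h.en R
  refine ⟨C + M ^ 2 * (Λ * R ^ 2), ?_⟩
  filter_upwards [hC, h.ok] with i h4 h5
  have := h5.2.fin
  have io : ∀ {f : E3 → ℝ}, Continuous f → IntegrableOn f (ball 0 R) (S i).μ := fun hf =>
    (hf.continuousOn.integrableOn_compact (isCompact_closedBall 0 R)).mono_set
      ball_subset_closedBall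
  have cA := h5.1.sA2.continuous
  have cη := h1.continuous
  rw [← setIntegral_eq_integral_of_forall_compl_eq_zero (s := ball 0 R) fun x hx => by
    simp [gz x fun h => hx (hR h), image_eq_zero_of_notMem_tsupport fun h => hx (hR h)]]
  refine (integral_mono_ae (g := fun x => (S i).A2 x + M ^ 2) (io (by fun_prop))
    (io (by fun_prop)) ((h5.1.ae_set _).mono fun x hx => ?_)).trans ?_
  · have h6 := h5.1.A2_nonneg hx
    have h7 : η x ^ 2 ≤ 1 := pow_le_one₀ (h3 x).1 (h3 x).2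
    have h8 := pow_le_pow_left₀ (norm_nonneg _) (hM x) 2
    simp only
    nlinarith
  · rw [integral_add (io cA) (io continuous_const), setIntegral_const, smul_eq_mul, mul_comm]
    gcongr
    exact h5.2.real h.pos.le hR0 ball_subset_closedBall

end Near

open Near in
theorem near (q8 : Q8) : NEAR := by
  intro S Λ κ p l h hl
  refine ⟨id, strictMono_id, fun R₀ c hc hm => ?_⟩
  simp only [id] at hm ⊢
  obtain ⟨C, hC, q8⟩ := q8
  obtain ⟨U, hU⟩ := Ultrafilter.exists_le (atTop : Filter ℕ)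
  let η : ContDiffBump p := ⟨1, 2, one_pos, one_lt_two⟩
  have η1 : ContDiff ℝ 1 η := η.contDiff
  have η3 : ∀ x, 0 ≤ η x ∧ η x ≤ 1 := fun x => ⟨η.nonneg, η.le_one⟩
  obtain ⟨K, hK⟩ := bnd h η1 η.hasCompactSupport η3
  have hs : Tendsto (fun k => √(l k)) atTop atTop := Real.tendsto_sqrt_atTop.comp hl
  obtain ⟨δ, hδ, hδ'⟩ := osc U (K := ENNReal.ofReal (C * Λ * K))
    (a := fun k => (l k)⁻¹ * (√(l k))⁻¹) (b := fun k => (√(l k))⁻¹)
    (g := fun i r => ∫⁻ x, ∫⁻ y in ball x r, Q (S i) η x y ∂(S i).μ ∂(S i).μ)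
    (h := fun k i => ∫⁻ x, ∫⁻ y in ball x (√(l k))⁻¹ \ ball x ((l k)⁻¹ * (√(l k))⁻¹),
      Q (S i) η x y ∂(S i).μ ∂(S i).μ) ENNReal.ofReal_ne_top
    (fun i r s hrs => lintegral_mono fun x => lintegral_mono_set (ball_subset_ball hrs))
    (hU (by
      filter_upwards [hK, h.ok] with i h1 h2 r
      refine (lintegral_mono fun x => setLIntegral_le_lintegral _ _).trans
        ((q8 _ Λ η h2.1 h.pos.le h2.2 η1 η.hasCompactSupport η3).trans
          (ENNReal.ofReal_le_ofReal ?_))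
      have := h.pos
      gcongr))
    (by
      filter_upwards [hl.eventually_gt_atTop 1] with k hk
      have h0 : 0 < l k := by linarith
      refine ⟨by positivity, fun i => (le_lintegral_add _ _).trans (lintegral_mono fun x => ?_)⟩
      simp only
      rw [← lintegral_inter_add_sdiff _ (ball x (√(l k))⁻¹)
        (measurableSet_ball (x := x) (ε := (l k)⁻¹ * (√(l k))⁻¹)), inter_eq_right.2
        (ball_subset_ball (mul_le_of_le_one_left (by positivity) (inv_le_one_of_one_le₀ hk.le)))])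
    hs.inv_tendsto_atTop
  have hlf := h.lf
  have H : ∀ᶠ k in atTop, ∃ v : sphere (0 : E3) 1, ∃ N : ℕ → E3,
      Tendsto N U (𝓝 v) ∧ ∀ᶠ i in (U : Filter ℕ), ∀ R > (0 : ℝ), R / l k ≤ 1 →
        (R + R₀) / l k ≤ (√(l k))⁻¹ → ∀ ν : E3, ‖ν‖ = 1 → ∫⁻ y in ball (0 : E3) R,
          ENNReal.ofReal ((1 - ⟪((S i).sc p (l k)).n y, ν⟫ ^ 2) ^ 4) ∂((S i).sc p (l k)).μ ≤
            ENNReal.ofReal (Λ * (l k * ((l k)⁻¹ * (√(l k))⁻¹)) ^ 2 + (R + R₀) ^ 4 / c * δ k +
              8 * Λ * R ^ 2 * ‖N i - ν‖) := by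
    filter_upwards [hm, hδ', hl.eventually_gt_atTop 0, hl.eventually_ge_atTop R₀] with
      k h1 h2 h3 h4
    have hAκ : IsLocallyFiniteMeasure (zm κ p (l k)) :=
      (zm_ar (Gs.ar_lim (h.ok.mono fun i hi => hi.2) h.wk) p h3).fin
    have h5 := ev_lt_of_weak (zm_weak (h.ok.mono fun i hi => hi.2) h.wk
      (tendsto_const_nhds (x := p)) (tendsto_const_nhds (x := l k)) h3) isOpen_ball h1
    obtain ⟨N, hN⟩ := Eventually.choice (((h5.and h.ok).filter_mono hU).and h2 |>.mono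
      fun i hi => key hi.1.2.1 hi.1.2.2 h.pos.le h3 (by positivity) hc
        (fun x hx => η.one_of_mem_closedBall (ball_subset_closedBall hx))
        ((div_le_one h3).2 h4) (by rw [sc_zm _ _ h3]; exact hi.1.1) hi.2)
    obtain ⟨v, hv, hv'⟩ := ulim U (isCompact_sphere (0 : E3) 1) (f := N)
      (hN.mono fun i hi => mem_sphere_zero_iff_norm.2 hi.1)
    exact ⟨⟨v, hv⟩, N, hv', hN.mono fun i hi => hi.2⟩
  obtain ⟨ν, hν⟩ := H.choice
  refine ⟨fun k => ν k, fun k => norm_eq_of_mem_sphere _, fun R ε hε => ?_⟩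
  rcases le_or_gt R 0 with hR | hR
  · exact .of_forall fun k => .of_forall fun i => by simp [ball_eq_empty.2 hR]
  have t1 : Tendsto (fun k => Λ * (√(l k))⁻¹ ^ 2 + (R + R₀) ^ 4 / c * δ k) atTop (𝓝 0) := by
    simpa using ((hs.inv_tendsto_atTop.pow 2).const_mul Λ).add (hδ.const_mul ((R + R₀) ^ 4 / c))
  filter_upwards [hν, t1.eventually_lt_const (half_pos hε), hl.eventually_gt_atTop 0,
    hl.eventually_ge_atTop R, hs.eventually_ge_atTop (R + R₀)] with k ⟨N, h1, h2⟩ h3 h4 h5 h6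
  have t2 : Tendsto (fun i => 8 * Λ * R ^ 2 * ‖N i - ν k‖) U (𝓝 0) := by
    simpa using (tendsto_iff_norm_sub_tendsto_zero.1 h1).const_mul (8 * Λ * R ^ 2)
  refine ((h2.and (t2.eventually_lt_const (half_pos hε))).frequently.filter_mono hU).mono
    fun i hi => (hi.1 R hR ((div_le_one h4).2 h5) ?_ _ (norm_eq_of_mem_sphere _)).trans
      (ENNReal.ofReal_le_ofReal ?_)
  · have := Real.sqrt_pos.2 h4
    rw [div_le_iff₀ h4, inv_mul_eq_div, Real.div_sqrt]
    exact h6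
  · rw [mul_inv_cancel_left₀ h4.ne']
    linarith [hi.2]

end Vale.Agent.P218E
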