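import Vale.Agent.P218E.Spec
import Vale.Agent.P218R.Base

/-!
# P218E: the vector field of the pair estimate
-/

open MeasureTheory Metric Filter Topology Set
open scoped ContDiff ENNReal RealInnerProductSpace
open Vale.Agent.P366.Stmt (E)
open Vale.Agent.P366W (inner_grad norm_gradient abs_trc_le)
open Vale.Agent.P218R

noncomputable section

namespace Vale.Agent.P218E.Q8

variable {S : Srf} {m y x : E3} {η : E3 → ℝ} {e : ℝ}

/-- the square of the sine of the angle -/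
def tt (S : Srf) (m x : E3) : ℝ := 1 - ⟪S.n x, m⟫ ^ 2

/-- the direction field -/
def VV (S : Srf) (m y x : E3) : E3 :=
  tt S m x • (x - y) + (⟪m, x - y⟫ + ⟪S.n x, m⟫ * ⟪S.n x, x - y⟫) • m -
    (⟪S.n x, x - y⟫ + ⟪S.n x, m⟫ * ⟪m, x - y⟫) • S.n x

/-- the weight -/
def ff (S : Srf) (η : E3 → ℝ) (m y : E3) (e : ℝ) (x : E3) : ℝ :=
  η x ^ 2 * tt S m x ^ 3 / (‖x - y‖ ^ 2 + e) ^ 2

theorem sm_tt (hS : S.Ok) : ContDiff ℝ ∞ (tt S m) :=
  contDiff_const.sub ((hS.sn.inner ℝ contDiff_const).pow 2)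

theorem sm_VV (hS : S.Ok) : ContDiff ℝ ∞ (VV S m y) := by
  have hz : ContDiff ℝ ∞ fun x : E3 => x - y := contDiff_id.sub contDiff_const
  have hc : ContDiff ℝ ∞ fun x : E3 => ⟪S.n x, m⟫ := hS.sn.inner ℝ contDiff_const
  have hp := hS.sn.inner ℝ hz
  have hr : ContDiff ℝ ∞ fun x : E3 => ⟪m, x - y⟫ := contDiff_const.inner ℝ hz
  exact (((sm_tt hS).smul hz).add ((hr.add (hc.mul hp)).smul contDiff_const)).sub
    ((hp.add (hc.mul hr)).smul hS.sn)

theorem sm_ff (hS : S.Ok) (hη : ContDiff ℝ 1 η) (he : 0 < e) : ContDiff ℝ 1 (ff S η m y e) :=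
  ((hη.pow 2).mul (((sm_tt hS).of_le one_le).pow 3)).div
    ((((contDiff_id.sub contDiff_const).norm_sq ℝ).add contDiff_const).pow 2) fun x => by positivity

theorem tt_eq (hS : S.Ok) (hx : S.w x = 0) (hm : ‖m‖ = 1) : tt S m x = ‖S.P x m‖ ^ 2 := by
  rw [hS.norm_P_sq hx, hm, tt, one_pow]

theorem tt_le : tt S m x ≤ 1 := sub_le_self _ (sq_nonneg _)

theorem n_VV (hS : S.Ok) (hx : S.w x = 0) : ⟪S.n x, VV S m y x⟫ = 0 := by
  simp only [VV, tt, inner_sub_right (S.n x) (_ + _), inner_add_right, real_inner_smul_right,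
    hS.nn hx]
  ring

theorem z_VV : ⟪x - y, VV S m y x⟫ =
    tt S m x * ‖x - y‖ ^ 2 + ⟪m, x - y⟫ ^ 2 - ⟪S.n x, x - y⟫ ^ 2 := by
  simp only [VV, inner_sub_right (x - y) (_ + _), inner_add_right, real_inner_smul_right,
    real_inner_self_eq_norm_sq, real_inner_comm m (x - y), real_inner_comm (S.n x) (x - y)]
  ring

theorem abs_inner_le {a b : E3} {α β : ℝ} (ha : ‖a‖ ≤ α) (hb : ‖b‖ ≤ β) : |⟪a, b⟫| ≤ α * β :=
  (abs_real_inner_le_norm a b).trans (mul_le_mul ha hb (norm_nonneg _) ((norm_nonneg _).trans ha))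

theorem abs_mul_le {a b α β : ℝ} (ha : |a| ≤ α) (hb : |b| ≤ β) : |a * b| ≤ α * β := by
  rw [abs_mul]; exact mul_le_mul ha hb (abs_nonneg _) ((abs_nonneg _).trans ha)

theorem norm_VV (hS : S.Ok) (hx : S.w x = 0) (hm : ‖m‖ = 1) :
    ‖VV S m y x‖ ≤ 3 * ‖S.P x m‖ * ‖x - y‖ := by
  have h1 : VV S m y x = tt S m x • S.P x (x - y) +
      (⟪m, x - y⟫ + ⟪S.n x, m⟫ * ⟪S.n x, x - y⟫) • S.P x m := by
    rw [← Srf.P_tan (n_VV hS hx), VV, map_sub, map_add, map_smul, map_smul, map_smul, hS.P_n hx,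
      smul_zero, sub_zero]
  have h2 := abs_inner_le hm.le (le_refl ‖x - y‖)
  have h3 := abs_mul_le (abs_inner_le (hS.norm_n hx).le hm.le)
    (abs_inner_le (hS.norm_n hx).le (le_refl ‖x - y‖))
  have h4 := (abs_add_le _ _).trans (add_le_add h2 h3)
  have h5 := hS.norm_P_le hx m
  have h6 := hS.norm_P_le hx (x - y)
  rw [h1, tt_eq hS hx hm]
  refine (norm_add_le _ _).trans ?_
  rw [norm_smul, norm_smul, Real.norm_eq_abs, Real.norm_eq_abs, abs_of_nonneg (sq_nonneg _)]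
  have h0 := norm_nonneg (S.P x m)
  have h7 : ‖S.P x m‖ ^ 2 ≤ ‖S.P x m‖ := by nlinarith
  nlinarith [mul_le_mul h7 h6 (norm_nonneg _) h0, mul_le_mul_of_nonneg_right h4 h0]

theorem d_tt (hS : S.Ok) (v : E3) :
    fderiv ℝ (tt S m) x v = -2 * ⟪S.n x, m⟫ * ⟪fderiv ℝ S.n x v, m⟫ := by
  have h := (((hS.dn x).hasFDerivAt.inner ℝ (hasFDerivAt_const m x)).pow 2).const_sub 1
  rw [show tt S m = fun x => 1 - ⟪S.n x, m⟫ ^ 2 from rfl, h.fderiv]
  simp

theorem dv_VV (hS : S.Ok) (hx : S.w x = 0) (hm : ‖m‖ = 1) :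
    |S.dv (VV S m y) x - 3 * tt S m x| ≤ 10 * ‖S.A x‖ * ‖x - y‖ := by
  have hn := (hS.dn x).hasFDerivAt
  have hz : HasFDerivAt (fun x : E3 => x - y) (ContinuousLinearMap.id ℝ E3) x :=
    (hasFDerivAt_id x).sub_const y
  have hc := hn.inner ℝ (hasFDerivAt_const m x)
  have hp := hn.inner ℝ hz
  have hr := (hasFDerivAt_const m x).inner ℝ hz
  have hg := hr.fun_add (hc.fun_mul hp)
  have hh := (hp.fun_add (hc.fun_mul hr)).differentiableAt
  have ht : DifferentiableAt ℝ (tt S m) x := (sm_tt hS).differentiable (by simp) x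
  have h1 : S.dv (VV S m y) x - 3 * tt S m x = -2 * (⟪S.n x, m⟫ * ⟪S.A x (x - y), m⟫) +
      ⟪S.n x, m⟫ * ⟪S.A x m, x - y⟫ + ⟪S.n x, x - y⟫ * ⟪S.A x m, m⟫ -
      (⟪S.n x, x - y⟫ + ⟪S.n x, m⟫ * ⟪m, x - y⟫) * S.H x := by
    unfold VV
    rw [Srf.dv_sub ((ht.fun_smul hz.differentiableAt).fun_add (hg.differentiableAt.smul_const m))
      (hh.fun_smul (hS.dn x)), Srf.dv_add (ht.fun_smul hz.differentiableAt)
      (hg.differentiableAt.smul_const m), Srf.dv_smul ht hz.differentiableAt,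
      Srf.dv_smul hg.differentiableAt (differentiableAt_const m), Srf.dv_smul hh (hS.dn x),
      hS.dv_id hx, Srf.dv_const, Srf.dv_n, real_inner_comm (S.n x), hS.n_tg hx, Srf.inner_tg,
      Srf.inner_tg, d_tt hS, hg.fderiv]
    have h2 : ⟪m, S.P x m⟫ = tt S m x := by
      rw [tt_eq hS hx hm, ← hS.P_P hx m, ← Srf.P_sym, hS.P_P hx, real_inner_self_eq_norm_sq]
    simp [← Srf.A_apply, hS.n_P hx, h2]
    ring
  have c1 := abs_inner_le (hS.norm_n hx).le hm.le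
  have p1 := abs_inner_le (hS.norm_n hx).le (le_refl ‖x - y‖)
  have r1 := abs_inner_le hm.le (le_refl ‖x - y‖)
  have a1 : ‖S.A x m‖ ≤ ‖S.A x‖ := by simpa [hm] using (S.A x).le_opNorm m
  have k1 := abs_le.1 (abs_mul_le c1 (abs_inner_le ((S.A x).le_opNorm (x - y)) hm.le))
  have k2 := abs_le.1 (abs_mul_le c1 (abs_inner_le a1 (le_refl ‖x - y‖)))
  have k3 := abs_le.1 (abs_mul_le p1 (abs_inner_le a1 hm.le))
  have k4 := abs_le.1 (abs_mul_le ((abs_add_le _ _).trans (add_le_add p1 (abs_mul_le c1 r1)))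
    (abs_trc_le (S.A x)))
  rw [h1, abs_le, Srf.H]
  push_cast at k4
  constructor <;> linarith [k1.1, k1.2, k2.1, k2.2, k3.1, k3.2, k4.1, k4.2]

theorem d_ff (hS : S.Ok) (hη : DifferentiableAt ℝ η x) (he : 0 < e) (v : E3) :
    fderiv ℝ (ff S η m y e) x v = (2 * η x * ⟪gradient η x, v⟫ * tt S m x ^ 3 +
      3 * η x ^ 2 * tt S m x ^ 2 * fderiv ℝ (tt S m) x v) / (‖x - y‖ ^ 2 + e) ^ 2 -
      4 * η x ^ 2 * tt S m x ^ 3 * ⟪x - y, v⟫ / (‖x - y‖ ^ 2 + e) ^ 3 := by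
  have ht : DifferentiableAt ℝ (tt S m) x := (sm_tt hS).differentiable (by simp) x
  have s0 : 0 < ‖x - y‖ ^ 2 + e := by positivity
  have h1 := (((hasFDerivAt_id x).sub_const y).norm_sq.add_const e).pow 2
  have h2 := ((hη.hasFDerivAt.pow 2).fun_mul (ht.hasFDerivAt.pow 3)).fun_mul
    ((hasDerivAt_inv (pow_pos s0 2).ne').comp_hasFDerivAt x h1)
  rw [show ff S η m y e = fun x => η x ^ 2 * tt S m x ^ 3 * ((‖x - y‖ ^ 2 + e) ^ 2)⁻¹ from rfl]
  erw [h2.fderiv]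
  simp [inner_sub_left]
  field_simp
  ring

/-- the pointwise estimate -/
theorem pt (hS : S.Ok) (hx : S.w x = 0) (hm : ‖m‖ = 1) (hη : ContDiff ℝ 1 η)
    (η0 : 0 ≤ η x) (he : 0 < e) :
    η x ^ 2 * tt S m x ^ 4 / (‖x - y‖ ^ 2 + e) ^ 2 +
      4 * η x ^ 2 * tt S m x ^ 3 * (⟪m, x - y⟫ ^ 2 - ⟪S.n x, x - y⟫ ^ 2) / (‖x - y‖ ^ 2 + e) ^ 3 -
      4 * e * η x ^ 2 * tt S m x ^ 4 / (‖x - y‖ ^ 2 + e) ^ 3 -
      28 * η x * (η x * ‖S.A x‖ + ‖gradient η x‖) * (tt S m x ^ 3 * ‖x - y‖ /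
        (‖x - y‖ ^ 2 + e) ^ 2) ≤ -S.dv (fun z => ff S η m y e z • VV S m y z) x := by
  have s0 : 0 < ‖x - y‖ ^ 2 + e := by positivity
  have hf : DifferentiableAt ℝ (ff S η m y e) x :=
    (sm_ff hS hη he).differentiable one_ne_zero x
  have hV := norm_VV (y := y) hS hx hm
  have θ0 := norm_nonneg (S.P x m)
  have θ1 : ‖S.P x m‖ ≤ 1 := hm ▸ hS.norm_P_le hx m
  have z0 := norm_nonneg (x - y)
  have t2 := tt_eq hS hx hm
  have t0 : 0 ≤ tt S m x := by rw [t2]; positivity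
  have e1 := (abs_le.1 (dv_VV (y := y) hS hx hm)).2
  have e2 : fderiv ℝ (tt S m) x (VV S m y x) ≤ 6 * tt S m x * ‖S.A x‖ * ‖x - y‖ := by
    rw [d_tt hS, ← Srf.P_tan (n_VV hS hx), ← Srf.A_apply, ← hS.P_A hx, Srf.P_sym, t2]
    have := abs_le.1 (abs_mul_le (abs_inner_le (hS.norm_n hx).le hm.le) (abs_inner_le
      ((S.A x).le_opNorm_of_le hV) (le_refl ‖S.P x m‖)))
    linarith [this.1]
  have e3 : ⟪gradient η x, VV S m y x⟫ ≤ 3 * ‖gradient η x‖ * ‖x - y‖ := by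
    have := (abs_le.1 (abs_inner_le (le_refl ‖gradient η x‖) (hV.trans
      (mul_le_mul_of_nonneg_right (mul_le_of_le_one_right zero_le_three θ1) z0)))).2
    linarith
  rw [Srf.dv_smul hf ((sm_VV hS).differentiable (by simp) x), Srf.inner_tg,
    Srf.P_tan (n_VV hS hx), d_ff hS (hη.differentiable one_ne_zero x) he, z_VV, ff]
  set t := tt S m x
  set s := ‖x - y‖ ^ 2 + e with hs
  set D := S.dv (VV S m y) x
  set E2 := fderiv ℝ (tt S m) x (VV S m y x)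
  set E3 := ⟪gradient η x, VV S m y x⟫
  have hb : η x ^ 2 * t ^ 3 * (D - 3 * t) + 2 * η x * t ^ 3 * E3 + 3 * η x ^ 2 * t ^ 2 * E2 ≤
      28 * η x * (η x * ‖S.A x‖ + ‖gradient η x‖) * (t ^ 3 * ‖x - y‖) := by
    have b1 := mul_le_mul_of_nonneg_left e1 (by positivity : 0 ≤ η x ^ 2 * t ^ 3)
    have b2 := mul_le_mul_of_nonneg_left e2 (by positivity : 0 ≤ 3 * η x ^ 2 * t ^ 2)
    have b3 := mul_le_mul_of_nonneg_left e3 (by positivity : 0 ≤ 2 * η x * t ^ 3)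
    have b4 : 0 ≤ η x * ‖gradient η x‖ * (t ^ 3 * ‖x - y‖) := by positivity
    linarith
  have hc := div_le_div_of_nonneg_right hb (pow_pos s0 2).le
  have hz : ‖x - y‖ ^ 2 = s - e := by rw [hs]; ring
  rw [hz, ← sub_nonneg]
  rw [← sub_nonneg] at hc
  refine hc.trans_eq ?_
  field_simp
  ring

/-- the dyadic bound -/
theorem kern {μ : Measure E3} {Λ δ : ℝ} (hΛ : 0 ≤ Λ) (h : AR Λ μ) (x : E3) (hδ : 0 < δ) :
    ∫⁻ y, ENNReal.ofReal (1 / max δ ‖x - y‖ ^ 3) ∂μ ≤ ENNReal.ofReal (16 * Λ / δ) := by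
  calc _ ≤ ∫⁻ y, ∑' k : ℕ, (closedBall x (2 ^ k * δ)).indicator
          (fun _ => ENNReal.ofReal (8 / (2 ^ k * δ) ^ 3)) y ∂μ := by
        refine lintegral_mono fun y => ?_
        have h1 : ∃ k : ℕ, ‖x - y‖ ≤ 2 ^ k * δ := by
          obtain ⟨k, hk⟩ := pow_unbounded_of_one_lt (‖x - y‖ / δ) one_lt_two
          exact ⟨k, ((div_lt_iff₀ hδ).1 hk).le⟩
        refine le_trans ?_ (ENNReal.le_tsum (Nat.find h1))
        rw [indicator_of_mem (mem_closedBall_iff_norm'.2 (Nat.find_spec h1))]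
        refine ENNReal.ofReal_le_ofReal ?_
        have h2 : 2 ^ Nat.find h1 * δ ≤ 2 * max δ ‖x - y‖ := by
          rcases hk : Nat.find h1 with _ | j
          · linarith [le_max_left δ ‖x - y‖]
          · have := Nat.find_min h1 (show j < Nat.find h1 by omega)
            rw [pow_succ]
            linarith [le_max_right δ ‖x - y‖]
        rw [div_le_div_iff₀ (by positivity) (by positivity)]
        calc 1 * (2 ^ Nat.find h1 * δ) ^ 3 ≤ 1 * (2 * max δ ‖x - y‖) ^ 3 := by gcongr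
          _ = _ := by ring
    _ ≤ ∑' k : ℕ, ENNReal.ofReal ((1 / 2) ^ k * (8 * Λ / δ)) := by
        rw [lintegral_tsum fun k =>
          (measurable_const.indicator measurableSet_closedBall).aemeasurable]
        refine ENNReal.tsum_le_tsum fun k => ?_
        rw [lintegral_indicator_const measurableSet_closedBall]
        refine (mul_le_mul_right (h x _ (by positivity)) _).trans (le_of_eq ?_)
        rw [← ENNReal.ofReal_mul (by positivity), one_div, inv_pow]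
        congr 1
        field_simp
    _ = _ := by
        rw [← ENNReal.ofReal_tsum_of_nonneg (fun k => by positivity)
          (summable_geometric_two.mul_right _), tsum_mul_right, tsum_geometric_two]
        congr 1; ring

/-- the absorption -/
theorem absorb {t z δ : ℝ} (t0 : 0 ≤ t) (t1 : t ≤ 1) (z0 : 0 ≤ z) (hδ : 0 < δ) (he : 0 < e) :
    t ^ 3 * z / (z ^ 2 + e) ^ 2 ≤ δ * (t ^ 4 / (z ^ 2 + e) ^ 2) + 1 / max δ z ^ 3 := by
  rcases le_or_gt z (δ * t) with h | h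
  · refine le_add_of_le_of_nonneg ?_ (by positivity)
    rw [← mul_div_assoc]
    exact div_le_div_of_nonneg_right (by nlinarith [pow_nonneg t0 3]) (by positivity)
  · refine le_add_of_nonneg_of_le (by positivity) ?_
    have z1 : 0 < z := lt_of_le_of_lt (by positivity) h
    have h1 : t * max δ z ≤ z := by
      rcases max_cases δ z with ⟨a, _⟩ | ⟨a, _⟩ <;> rw [a] <;> nlinarith
    rw [div_le_div_iff₀ (by positivity) (by positivity)]
    calc t ^ 3 * z * max δ z ^ 3 = (t * max δ z) ^ 3 * z := by ring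
      _ ≤ z ^ 3 * z := by gcongr
      _ = 1 * (z ^ 2) ^ 2 := by ring
      _ ≤ _ := by gcongr; linarith

end Vale.Agent.P218E.Q8
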