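import Vale.Agent.P218E.Zm

/-!
# P218E: row RAY
-/

open MeasureTheory Metric Filter Topology Set
open scoped ContDiff ENNReal RealInnerProductSpace
open Vale.Agent.P366.Stmt (E)
open Vale.Agent.P366W (Fr)
open Vale.Agent.P218 (limitSet WeakTendsto)
open Vale.Agent.P218.H552 (NN)
open Vale.Agent.P218R

noncomputable section

namespace Vale.Agent.P218E

namespace Ray

variable {S T : Srf} {e x : E3} {Λ G : ℝ} {l : ℕ → ℝ}

theorem unif {ι : Type*} {f : Filter ι} {K : Set E3} (hK : IsCompact K) {P : ι → E3 → Prop}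
    (h : ∀ x ∈ K, ∃ δ > 0, ∀ᶠ i in f, ∀ y ∈ ball x δ, P i y) : ∀ᶠ i in f, ∀ y ∈ K, P i y :=
  hK.induction_on (p := fun s => ∀ᶠ i in f, ∀ y ∈ s, P i y) (by simp)
    (fun _ _ a b => b.mono fun _ c y d => c y (a d))
    (fun _ _ a b => (a.and b).mono fun _ c y d => d.elim (c.1 y) (c.2 y)) fun x hx =>
    (h x hx).elim fun _ a => ⟨_, mem_nhdsWithin_of_mem_nhds (ball_mem_nhds x a.1), a.2⟩

theorem rsl (S : Srf) (e : E3) {l : ℝ} (hl : 0 < l) :
    S.flow.rsl e 0 (Real.log l) = S.sc (l • e) 1 := by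
  have : √(-(0 + -1 / l ^ 2)) = l⁻¹ := by
    rw [zero_add, neg_div, neg_neg, one_div, ← inv_pow, Real.sqrt_sq (by positivity)]
  simp only [Flw.rsl, Flw.rs_sl, flow_sl, Real.exp_log hl, this]
  simp [Srf.sc, smul_smul, hl.ne']

theorem nn (S : Srf) (e : E3) (hl : Tendsto l atTop atTop) {κ : Measure E3} :
    WeakTendsto (fun i => NN 2 S.flow.μ e 0 (Real.log (l i))) κ ↔
      WeakTendsto (fun i => (S.sc (l i • e) 1).μ) κ :=
  forall₃_congr fun _ _ _ => tendsto_congr' ((hl.eventually_gt_atTop 0).mono fun i hi => by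
    simp only [← rsl_mu, rsl S e hi])

theorem meets (h : S.Ok) {s : Set E3} (hs : 0 < S.μ s) : ∃ y ∈ s, S.w y = 0 := by
  rw [h.apply] at hs
  exact nonempty_of_measure_ne_zero hs.ne'

theorem pos (low : LOW) (h : T.Ok) (hx : T.w x = 0) {δ : ℝ} (hδ : 0 < δ) : 0 < T.μ (ball x δ) := by
  obtain ⟨r, r1, r2, r3⟩ := (((low T h).2 x hx 1 (by linarith [Real.pi_gt_three])).and
    (Ioo_mem_nhdsGT hδ)).exists
  exact ((ENNReal.ofReal_pos.2 (by positivity)).trans_le r1).trans_le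
    (measure_mono (ball_subset_ball r3.le))

theorem area (sml : SML) {L : E 2 →ₗᵢ[ℝ] E3} {r ρ : ℝ} {C : ℕ → ℝ} (hx : S.w x = 0) (hF : Fr e L)
    (h : S.Reg x e L r C) (c1 : C 1 ≤ 1 / 100) (h0 : 0 < ρ) (h1 : ρ ≤ r) :
    ENNReal.ofReal (Real.pi * ρ ^ 2) ≤ S.μ (closedBall x (2 * ρ)) := by
  obtain ⟨v, v1, v2, v3⟩ := h
  have r0 := h0.trans_le h1
  have v0 : v 0 = 0 := (((v2 0 (by simpa)).2 0 (by simpa)).2.1 (by simpa using hx)).symm
  refine (sml.2.2.2 S x e L ρ ρ v hF (fun y hy => ⟨?_, fun s hs =>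
    (v2 y (hy.trans_le h1)).2 s (hs.trans_le h1)⟩) h0.le).trans (measure_mono ?_)
  · have := (convex_ball (0 : E 2) r).norm_image_sub_le_of_norm_fderiv_le (f := v) (C := 1 / 100)
      (fun z hz => (v1.contDiffAt (isOpen_ball.mem_nhds hz)).differentiableAt (by simp))
      (fun z hz => by
        have := v3 1 z (mem_ball_zero_iff.1 hz)
        rw [norm_iteratedFDeriv_one, pow_one, mul_div_cancel_right₀ _ r0.ne'] at this
        exact this.trans c1) (mem_ball_self r0) (mem_ball_zero_iff.2 (hy.trans_le h1))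
    rw [v0, sub_zero, sub_zero, Real.norm_eq_abs] at this
    linarith
  · rintro _ ⟨y, s, a, b, rfl⟩
    rw [mem_closedBall_iff_norm, add_assoc, add_sub_cancel_left]
    refine (norm_add_le _ _).trans ?_
    rw [L.norm_map, norm_smul, hF.one, Real.norm_eq_abs]
    linarith

end Ray

open Ray

theorem ray (tf : TF) (slw : SLW) (lo : LOC) (sml : SML) (low : LOW) : RAY := fun Λ => by
  obtain ⟨ε, e0, lo⟩ := lo Λ
  obtain ⟨C, -, c1, lo⟩ := lo (1 / 100) (by norm_num)
  refine ⟨C, c1, fun S G e hS => ?_⟩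
  have hF := ssf S Λ G (-1) hS
  obtain ⟨τ₀, sl⟩ := (slw _ _ _ Λ e neg_one_lt_zero hF.toOkA).1
  have ok := fun b : E3 => hS.ok.sc b one_pos
  have ar := fun b : E3 => hS.ar.sc b one_pos
  have key : ∀ l : ℕ → ℝ, Tendsto l atTop atTop → ∃ (ψ : ℕ → ℕ) (T : Srf), StrictMono ψ ∧
      Shr T Λ G ∧ WeakTendsto (fun i => (S.sc (l (ψ i) • e) 1).μ) T.μ ∧
      ∀ x, ∃ δ > 0, ∃ r > 0, ∀ᶠ i in atTop, ∀ y ∈ ball x δ, (S.sc (l (ψ i) • e) 1).w y = 0 →
        ∃ L, Fr ((S.sc (l (ψ i) • e) 1).n y) L ∧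
          (S.sc (l (ψ i) • e) 1).Reg y ((S.sc (l (ψ i) • e) 1).n y) L r C := fun l hl => by
    obtain ⟨κ, ψ, hκ, hψ, hw⟩ := sl.exists_subseq (Real.tendsto_log_atTop.comp hl)
    have hl' := hl.comp hψ.tendsto_atTop
    have hτ := Real.tendsto_log_atTop.comp hl'
    obtain ⟨T, hT, rfl⟩ := tf _ _ _ Λ G e κ neg_one_lt_zero hF ⟨hκ, _, hτ, hw⟩
    refine ⟨ψ, T, hψ, hT, (nn S e hl').1 hw, fun x => ?_⟩
    obtain ⟨ρ, r0, h⟩ := sml.1 T Λ ‖x‖ hT.ok hT.ar ε e0
    obtain ⟨δ, d0, r, r0, h⟩ := lo _ _ _ e x _ _ neg_one_lt_zero hF.toOkA hκ hτ hw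
      (Eventually.frequently (mem_of_superset (Ioc_mem_nhdsGT r0) fun t ht =>
        h x t le_rfl ht.1 ht.2))
    refine ⟨δ, d0, r, r0, ?_⟩
    filter_upwards [h, hl'.eventually_gt_atTop 0] with i h hi
    rwa [Function.comp_apply, rsl S e hi] at h
  have cv : ∀ {b p : E3}, p ∈ S.G → (S.sc b 1).w (p - b) = 0 := fun hp => by simpa [Srf.sc] using! hp
  refine ⟨fun R => by_contra fun hc => ?_, fun l hl => ?_⟩
  · simp only [not_exists, not_and, not_eventually] at hc
    choose l h1 h2 using fun n : ℕ =>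
      frequently_atTop.1 (hc (1 / (n + 1)) Nat.one_div_pos_of_nat) n
    obtain ⟨ψ, T, hψ, -, -, h⟩ := key l (tendsto_atTop_mono h1 tendsto_natCast_atTop_atTop)
    obtain ⟨i, hi⟩ := (unif (f := atTop) (isCompact_closedBall (0 : E3) R) (P := fun i y =>
      (S.sc (l (ψ i) • e) 1).w y = 0 → RG (S.sc (l (ψ i) • e) 1) y (1 / (ψ i + 1)) C)
      fun x _ => by
        obtain ⟨δ, d0, r, r0, h⟩ := h x
        refine ⟨δ, d0, ?_⟩
        filter_upwards [h, (tendsto_one_div_add_atTop_nhds_zero_nat.comp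
          hψ.tendsto_atTop).eventually_le_const r0] with i h hi y hy hy'
        exact ⟨r, hi, h y hy hy'⟩).exists
    refine h2 (ψ i) fun p hp hp' => ?_
    obtain ⟨r, a, L, b, c⟩ := hi _ (mem_closedBall_zero_iff.2 hp') (cv hp)
    have h3 : (S.sc (l (ψ i) • e) 1).n (p - l (ψ i) • e) = S.n p := by simp [Srf.sc]
    rw [h3] at b c
    exact ⟨r, a, L, b, (reg_sc _ one_pos).1 (by rwa [one_smul, one_mul])⟩
  obtain ⟨ψ, T, hψ, hT, hw, h⟩ := key l hl
  have hl' := hl.comp hψ.tendsto_atTop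
  have := hT.ar.fin
  refine ⟨ψ, T, hψ, hT, hw, fun x t hx => ?_, fun R η h0 => Eventually.and ?_ ?_⟩
  · have ht := tendsto_atTop_add_const_right _ t hl'
    have := (hT.ar.sc (t • e) one_pos).fin
    have h1 : T.μ = (T.sc (t • e) 1).μ := by
      refine P218.weakTendsto_unique ((nn S e ht).1 (sl.weakTendsto_shift
        (Real.tendsto_log_atTop.comp hl') one_pos ?_ ((nn S e hl').2 hw))) ?_
      · have : Tendsto (fun i => Real.log (1 + t / l (ψ i))) atTop (𝓝 (Real.log (1 + 0))) :=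
          ((tendsto_const_nhds.div_atTop hl').const_add 1).log (by simp)
        rw [add_zero, Real.log_one] at this
        filter_upwards [this.abs.eventually_le_const (by simp : |(0 : ℝ)| < 1),
          hl'.eventually_gt_atTop 0, ht.eventually_gt_atTop 0] with i a b c
        simp only [Function.comp_apply] at b c ⊢
        rwa [← Real.log_div c.ne' b.ne', add_div, div_self b.ne']
      · have := zm_weak (.of_forall fun i => ar _) hw (tendsto_const_nhds (x := t • e))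
          tendsto_const_nhds one_pos
        simp only [← sc_zm _ _ one_pos] at this
        simpa [Srf.sc, add_smul, add_assoc] using this
    have h2 := (hT.ok.sc (t • e) one_pos).closed.closure_subset (mem_closure_iff.2 fun δ d0 =>
      (meets (hT.ok.sc (t • e) one_pos) (h1 ▸ pos low hT.ok hx d0)).imp fun y a =>
        ⟨a.2, mem_ball'.1 a.1⟩)
    simpa [Srf.sc, Srf.G, add_comm] using h2
  · refine (unif (f := atTop) (isCompact_closedBall (0 : E3) R) (P := fun i y =>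
      (S.sc (l (ψ i) • e) 1).w y = 0 → ∃ q ∈ T.G, ‖y - q‖ ≤ η) fun x _ => ?_).mono
      fun i hi p hp hp' => hi _ (mem_closedBall_zero_iff.2 hp') (cv hp)
    by_cases hx : x ∈ T.G
    · exact ⟨η, h0, .of_forall fun i y hy _ => ⟨x, hx, (mem_ball_iff_norm.1 hy).le⟩⟩
    obtain ⟨d, d0, hd⟩ := Metric.isOpen_iff.1 hT.ok.closed.isOpen_compl x hx
    obtain ⟨δ, d1, r, r0, h⟩ := h x
    have m0 : 0 < min r (d / 6) := by positivity
    have m1 := min_le_right r (d / 6)
    refine ⟨min δ (d / 6), by positivity, ?_⟩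
    filter_upwards [h, ev_le_of_weak (.of_forall fun i => (ar _).fin) hw
      (isCompact_closedBall x (d / 2)) isOpen_ball (closedBall_subset_ball (half_lt_self d0))
      (m := min r (d / 6) ^ 2) (by
        rw [pos_iff_ne_zero.not_left.1 (mt (meets hT.ok) fun ⟨y, a, b⟩ => hd a b)]
        exact ENNReal.ofReal_pos.2 (by positivity))] with i h hi y hy hy'
    obtain ⟨L, a, b⟩ := h y (ball_subset_ball (min_le_left _ _) hy) hy'
    have := (ENNReal.ofReal_le_ofReal_iff (by positivity)).1 ((area sml hy' a b c1 m0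
      (min_le_left _ _)).trans ((measure_mono (closedBall_subset_closedBall' (by
        linarith [(mem_ball.1 hy).trans_le (min_le_right _ _)]))).trans hi))
    nlinarith [Real.pi_gt_three, pow_pos m0 2]
  · refine (unif (f := atTop) ((isCompact_closedBall (0 : E3) R).inter_left hT.ok.closed)
      (P := fun i q => ∃ p ∈ S.G, ‖p - l (ψ i) • e - q‖ ≤ η) fun x hx => ?_).mono
      fun i hi q hq hq' => hi _ ⟨hq, mem_closedBall_zero_iff.2 hq'⟩
    refine ⟨η / 2, half_pos h0, (ev_lt_of_weak hw isOpen_ball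
      (pos low hT.ok hx.1 (half_pos h0))).mono fun i hi q hq => ?_⟩
    obtain ⟨y, a, b⟩ := meets (ok _) hi
    refine ⟨l (ψ i) • e + y, by simpa [Srf.sc] using! b, ?_⟩
    rw [add_sub_cancel_left, ← dist_eq_norm]
    linarith [dist_triangle_right y q x, mem_ball.1 a, mem_ball.1 hq]

end Vale.Agent.P218E
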