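import Vale.Agent.P218E.Defs

/-!
# P218E: the statements of the rows
-/

open MeasureTheory Metric Filter Topology Set
open scoped ContDiff ENNReal RealInnerProductSpace
open Vale.Agent.P366.Stmt (E)
open Vale.Agent.P366W (trc dvg Fr)
open Vale.Agent.P218 (limitSet WeakTendsto)
open Vale.Agent.P218.H552 (NN)
open Vale.Agent.P218.H63 (IsTubeShrinker)
open Vale.Agent.P218R
open Vale.Agent.P218T (Decays cylPt axis IsLink conePt IsEndedShrinker)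

noncomputable section

namespace Vale.Agent.P218E

/-! ### DEN -/

/-- **Q8**: the pair estimate -/
def Q8 : Prop := ∃ C > (0 : ℝ), ∀ (S : Srf) (Λ : ℝ) (η : E3 → ℝ), S.Ok → 0 ≤ Λ → AR Λ S.μ →
  ContDiff ℝ 1 η → HasCompactSupport η → (∀ x, 0 ≤ η x ∧ η x ≤ 1) →
  ∫⁻ x, ∫⁻ y, ENNReal.ofReal
      (η x ^ 2 * η y ^ 2 * (1 - ⟪S.n x, S.n y⟫ ^ 2) ^ 4 / ‖x - y‖ ^ 4) ∂S.μ ∂S.μ ≤
    ENNReal.ofReal (C * Λ * ∫ x, (η x ^ 2 * S.A2 x + ‖gradient η x‖ ^ 2) ∂S.μ)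

/-- **NEAR**: along a subsequence of scales the normal line is almost constant -/
def NEAR : Prop := ∀ (S : ℕ → Srf) (Λ : ℝ) (κ : Measure E3) (p : E3) (l : ℕ → ℝ), GSeq S Λ κ →
  Tendsto l atTop atTop → ∃ ψ : ℕ → ℕ, StrictMono ψ ∧ ∀ R₀ c : ℝ, 0 < c →
    (∀ᶠ k in atTop, ENNReal.ofReal c < zm κ p (l (ψ k)) (ball 0 R₀)) →
    ∃ ν : ℕ → E3, (∀ k, ‖ν k‖ = 1) ∧ ∀ R : ℝ, ∀ ε > (0 : ℝ), ∀ᶠ k in atTop, ∃ᶠ i in atTop,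
      ∫⁻ x in ball (0 : E3) R, ENNReal.ofReal
        ((1 - ⟪((S i).sc p (l (ψ k))).n x, ν k⟫ ^ 2) ^ 4) ∂((S i).sc p (l (ψ k))).μ ≤
        ENNReal.ofReal ε

/-- **BLOW**: tangent measures are invariant under the translations of a plane -/
def BLOW : Prop := ∀ (S : ℕ → Srf) (Λ : ℝ) (κ : Measure E3) (p : E3) (l : ℕ → ℝ), GSeq S Λ κ →
  Tendsto l atTop atTop → ∃ (ψ : ℕ → ℕ) (κ' : Measure E3) (ν : E3), StrictMono ψ ∧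
    IsLocallyFiniteMeasure κ' ∧ ‖ν‖ = 1 ∧ WeakTendsto (fun k => zm κ p (l (ψ k))) κ' ∧
    ∀ v, ⟪ν, v⟫ = 0 → κ'.map (fun x => x + v) = κ'

/-- **FLAT**: a lower bound for the mass of balls centred on the plane -/
def FLAT : Prop := ∀ (κ : Measure E3) (Λ θ : ℝ) (ν : E3), IsLocallyFiniteMeasure κ → 0 ≤ Λ →
  AR Λ κ → ‖ν‖ = 1 → (∀ v, ⟪ν, v⟫ = 0 → κ.map (fun x => x + v) = κ) →
  (∀ ρ ∈ Ioc (0 : ℝ) 1, θ ≤ gs κ 0 ρ) →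
  ∀ z r, ⟪ν, z⟫ = 0 → 0 < r → ENNReal.ofReal (θ * Real.pi * r ^ 2) ≤ κ (ball z r)

/-- **BALL**: area ratios at points of high density -/
def BALL : Prop := ∀ (S : ℕ → Srf) (Λ ε : ℝ) (κ : Measure E3) (p : E3), GSeq S Λ κ → 0 < ε →
  p ∈ Hi κ ε →
  (∀ᶠ r in 𝓝[>] (0 : ℝ), ENNReal.ofReal ((1 + ε / 2) * Real.pi * r ^ 2) < κ (ball p r)) ∧
  ∀ (l : ℝ → ℝ) (q : ℝ → E3), Tendsto l atTop atTop →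
    Tendsto (fun b => l b * ‖q b - p‖) atTop (𝓝 0) → ∀ r > (0 : ℝ), ∀ᶠ b in atTop,
      ManyS (zm κ (q b) (l b)) 1 (ε / 2) (1 / 8) r

/-- **NOP**: no pairs at regular points; openness of `ManyS`; coverings; good sequences -/
def NOP : Prop := (∀ (S : Srf) (y : E3) (L : E 2 →ₗᵢ[ℝ] E3) (r e : ℝ) (C : ℕ → ℝ), C 1 ≤ 1 / 10 →
    S.w y = 0 → Fr (S.n y) L → S.Reg y (S.n y) L r C → 2 * e < r → ¬ Pair S y e) ∧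
  (∀ (S : Srf) (R : ℝ), S.Ok → ∃ e₀ > (0 : ℝ), ∀ e ≤ e₀,
    S.μ {x ∈ ball (0 : E3) R | Pair S x e} = 0) ∧
  (∀ (μ : ℕ → Measure E3) (κ : Measure E3) (R₀ k m₀ r : ℝ), IsLocallyFiniteMeasure κ →
    (∀ᶠ i in atTop, IsLocallyFiniteMeasure (μ i)) → WeakTendsto μ κ → ManyS κ R₀ k m₀ r →
    ∀ᶠ i in atTop, Many (μ i) R₀ k m₀ r) ∧
  (∀ (κ : Measure E3) (K : Set E3) (Λ R₀ k m r : ℝ), 0 < Λ → AR Λ κ → 0 < r →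
    (∀ z ∈ K, ‖z‖ ≤ R₀) → ENNReal.ofReal m ≤ κ K →
    (∀ z ∈ K, ENNReal.ofReal ((1 + k) * Real.pi * r ^ 2) < κ (ball z r)) →
    ManyS κ R₀ k (m / (4 * Λ)) r) ∧
  ∀ (F : Flw) (a b Λ G : ℝ) (x₀ : E3) (κ : Measure E3) (σ : ℕ → ℝ), a < b → F.Good a b Λ G →
    IsLocallyFiniteMeasure κ → Tendsto σ atTop atTop →
    WeakTendsto (fun i => (F.rsl x₀ b (σ i)).μ) κ →
    (∀ R, Tendsto (fun i => ∫ x in closedBall 0 R, (F.rsl x₀ b (σ i)).φ x ^ 2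
      ∂(F.rsl x₀ b (σ i)).μ) atTop (𝓝 0)) → GSeq (fun i => F.rsl x₀ b (σ i)) (max Λ 1) κ

/-- **DIS**: the dissipation in a ball is controlled by the drop of the Gaussian ratio -/
def DIS : Prop := ∀ R : ℝ, ∃ C > (0 : ℝ), ∀ (F : Flw) (a b Λ t₀ τ₁ τ₂ : ℝ) (x₀ : E3), F.OkA a b Λ →
  τ₁ ≤ τ₂ → a < t₀ - Real.exp (-2 * τ₁) → t₀ ≤ b →
  gs (F.rsl x₀ t₀ τ₂).μ 0 1 ≤ gs (F.rsl x₀ t₀ τ₁).μ 0 1 ∧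
  ∫⁻ τ in Icc τ₁ τ₂, dsb (F.rsl x₀ t₀ τ) R ≤
    ENNReal.ofReal (C * (gs (F.rsl x₀ t₀ τ₁).μ 0 1 - gs (F.rsl x₀ t₀ τ₂).μ 0 1)) ∧
  (τ₁ + 1 ≤ τ₂ → C * (gs (F.rsl x₀ t₀ τ₁).μ 0 1 - gs (F.rsl x₀ t₀ τ₂).μ 0 1) ≤ 1 →
    ∃ τ ∈ Icc (τ₂ - 1) τ₂, dsb (F.rsl x₀ t₀ τ) R ≤ 1)

/-- **DA**: multiplicity one almost everywhere -/
def DA : Prop := ∀ (F : Flw) (a b Λ G : ℝ) (x₀ : E3) (κ : Measure E3), a < b → F.Good a b Λ G →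
  κ ∈ limitSet (NN 2 F.μ x₀ b) → ∀ ε > (0 : ℝ), κ (Hi κ ε) = 0

/-! ### ENDS: calculus -/

/-- **CB**: bounds for the derivatives of a composition -/
def CB : Prop := ∀ B₁ B₂ : ℕ → ℝ, ∃ B : ℕ → ℝ, ∀ (f : E3 → ℝ) (g : P3 → E3) (O' : Set E3)
  (O : Set P3), IsOpen O' → IsOpen O → ContDiffOn ℝ ∞ f O' → ContDiffOn ℝ ∞ g O → MapsTo g O O' →
  (∀ k, ∀ x ∈ O', ‖iteratedFDeriv ℝ k f x‖ ≤ B₁ k) →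
  (∀ k, 1 ≤ k → ∀ q ∈ O, ‖iteratedFDeriv ℝ k g q‖ ≤ B₂ k) →
  ∀ k, ∀ q ∈ O, ‖iteratedFDeriv ℝ k (f ∘ g) q‖ ≤ B k

/-- **IFB**: bounds for the derivatives of an implicit function -/
def IFB : Prop := ∀ a > (0 : ℝ), ∀ B : ℕ → ℝ, ∃ B' : ℕ → ℝ, ∀ (F : P3 → ℝ) (O : Set P3)
  (g : ℝ × ℝ → ℝ) (V : Set (ℝ × ℝ)), IsOpen O → IsOpen V → ContDiffOn ℝ ∞ F O →
  ContDiffOn ℝ ∞ g V → (∀ y ∈ V, (y, g y) ∈ O ∧ F (y, g y) = 0) →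
  (∀ q ∈ O, a ≤ |fderiv ℝ F q (0, 1)|) → (∀ k, ∀ q ∈ O, ‖iteratedFDeriv ℝ k F q‖ ≤ B k) →
  ∀ k, 1 ≤ k → ∀ y ∈ V, ‖iteratedFDeriv ℝ k g y‖ ≤ B' k

/-- **ROOT**: the graph function of an end -/
def ROOT : Prop := ∀ (f : P3 → ℝ) (ρ τ a : ℝ) (B : ℕ → ℝ), 0 < ρ → 0 < τ → 0 < a →
  (∀ z θ t, f ((z, θ + 2 * Real.pi), t) = f ((z, θ), t)) →
  (∀ η > (0 : ℝ), ∃ s : ℝ, ∀ y : ℝ × ℝ, s ≤ y.1 → ∃ F : P3 → ℝ, ContDiffOn ℝ ∞ F (box y ρ τ) ∧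
    (∀ q ∈ box y ρ τ, (f q = 0 ↔ F q = 0) ∧ a ≤ |fderiv ℝ F q (0, 1)| ∧
      ∀ k, ‖iteratedFDeriv ℝ k F q‖ ≤ B k) ∧ |F (y, 0)| ≤ η) →
  ∃ (φ : ℝ × ℝ → ℝ) (R : ℝ), Decays φ ∧ ∀ y : ℝ × ℝ, R ≤ y.1 → |φ y| < τ ∧
    ∀ t, |t| < τ → (f (y, t) = 0 ↔ t = φ y)

/-- **ULIM**: smooth limits along an ultrafilter -/
def ULIM : Prop := ∀ (U : Ultrafilter ℝ) (F : ℝ → E3 → ℝ) (p : E3) (r : ℝ) (B : ℕ → ℝ),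
  (∀ᶠ i in (U : Filter ℝ), ContDiffOn ℝ ∞ (F i) (ball p r) ∧
    ∀ k, ∀ x ∈ ball p r, ‖iteratedFDeriv ℝ k (F i) x‖ ≤ B k) →
  ∃ om : E3 → ℝ, ContDiffOn ℝ ∞ om (ball p r) ∧ ∀ x ∈ ball p r,
    Tendsto (fun i => F i x) U (𝓝 (om x)) ∧
      Tendsto (fun i => fderiv ℝ (F i) x) U (𝓝 (fderiv ℝ om x))

/-- **ODEG**: global integral curves in an invariant closed set -/
def ODEG : Prop := ∀ (X : E3 → E3) (K : Set E3) (g : E3 → ℝ × ℝ), ContDiff ℝ ∞ X → IsClosed K →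
  Differentiable ℝ g → (∀ x ∈ K, ‖X x‖ ≤ 1) →
  (∀ x ∈ K, ∀ᶠ y in 𝓝 x, fderiv ℝ g y (X y) = 0 ∧ (g y = g x → y ∈ K)) →
  (∀ x ∈ K, ∃ c : ℝ → E3, c 0 = x ∧ ContDiff ℝ ∞ c ∧ ∀ t, HasDerivAt c (X (c t)) t ∧ c t ∈ K) ∧
  ∀ c c' : ℝ → E3, (∀ t, HasDerivAt c (X (c t)) t) → (∀ t, HasDerivAt c' (X (c' t)) t) →
    ∀ t t', c t = c' t' → ∀ s, c (t + s) = c' (t' + s)

/-- **LDF**: local defining functions from graphs; alignment of normals; roots; scaling -/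
def LDF : Prop := (∀ c > (0 : ℝ), ∀ C : ℕ → ℝ, C 1 ≤ 1 / 100 → ∃ B : ℕ → ℝ, ∀ (S : Srf) (μ : ℝ)
    (p : E3), 0 < μ → wm S μ p = 0 → RG S (μ • p) (c * μ) C → HasL (wm S μ) p c B) ∧
  (∀ (w F : E3 → ℝ) (p e N : E3) (c c' : ℝ) (B : ℕ → ℝ), Ldf w p e c B F → w p = 0 → ‖N‖ = 1 →
    0 < c' → 2 * c' < c → (∀ x, ‖x - p‖ ≤ 2 * c' → w x = 0 → |⟪x - p, N⟫| ≤ c' / 50) →
    9 / 10 ≤ |⟪e, N⟫|) ∧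
  (∀ (w F : E3 → ℝ) (p e : E3) (c : ℝ) (B : ℕ → ℝ), Ldf w p e c B F →
    (∀ x ∈ ball p c, ∀ y ∈ ball p c, |F x - F y - ⟪e, x - y⟫| ≤ ‖x - y‖ / 100) ∧
    ∀ x, ‖x - p‖ + 2 * |F x| < c → ∃ s, |s| ≤ 2 * |F x| ∧ w (x + s • e) = 0) ∧
  ∀ (S : Srf) (b p e : E3) (L : E 2 →ₗᵢ[ℝ] E3) (l r : ℝ) (C : ℕ → ℝ), 0 < l →
    (S.sc b l).Reg p e L r C → S.Reg (b + l⁻¹ • p) e L (r / l) C

/-! ### ENDS: translation invariant shrinkers -/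

/-- **CURVE**: embedded self-shrinking curves -/
def CURVE : Prop := ∀ c N : ℝ → ℂ, (∀ s, HasDerivAt c (Complex.I * N s) s) →
  (∀ s, HasDerivAt N
    ((((c s * (starRingEnd ℂ) (N s)).re / 2 : ℝ) : ℂ) * (Complex.I * N s)) s) →
  (∀ s, ‖N s‖ = 1) → (∀ s s', c s = c s' → N s = N s') →
  ((∀ s, N s = N 0) ∧ range c = {z | (z * (starRingEnd ℂ) (N 0)).re = 0}) ∨
    ((∀ s, c s = ((√2 : ℝ) : ℂ) * N s) ∨ ∀ s, c s = -((√2 : ℝ) : ℂ) * N s) ∧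
      range c = sphere 0 √2

/-- **INV**: shrinkers which are invariant under the translations of a line -/
def INV : Prop := ∀ (S : Srf) (e : E3), S.Ok → (∀ x, S.w x = 0 → S.φ x = 0) → ‖e‖ = 1 →
  (∀ x (t : ℝ), S.w x = 0 → S.w (x + t • e) = 0) →
  S.G = ∅ ∨ (∃ ν : E3, ‖ν‖ = 1 ∧ S.G = {x | ⟪ν, x⟫ = 0}) ∨ S.G = {x | rad e x = √2}

/-! ### ENDS: directions -/

/-- **RAY**: limits of translates along a ray -/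
def RAY : Prop := ∀ Λ : ℝ, ∃ C : ℕ → ℝ, C 1 ≤ 1 / 100 ∧ ∀ (S : Srf) (G : ℝ) (e : E3), Shr S Λ G →
  (∀ R : ℝ, ∃ r > (0 : ℝ), ∀ᶠ l : ℝ in atTop, ∀ p ∈ S.G, ‖p - l • e‖ ≤ R → RG S p r C) ∧
  ∀ l : ℕ → ℝ, Tendsto l atTop atTop → ∃ (ψ : ℕ → ℕ) (T : Srf), StrictMono ψ ∧ Shr T Λ G ∧
    WeakTendsto (fun i => (S.sc (l (ψ i) • e) 1).μ) T.μ ∧
    (∀ x (t : ℝ), T.w x = 0 → T.w (x + t • e) = 0) ∧ ∀ R : ℝ, ∀ η > (0 : ℝ), ∀ᶠ i in atTop,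
      (∀ p ∈ S.G, ‖p - l (ψ i) • e‖ ≤ R → ∃ q ∈ T.G, ‖p - l (ψ i) • e - q‖ ≤ η) ∧
        ∀ q ∈ T.G, ‖q‖ ≤ R → ∃ p ∈ S.G, ‖p - l (ψ i) • e - q‖ ≤ η

/-- **FAR**: Gaussian ratios far from the support -/
def FAR : Prop := ∀ Λ : ℝ, ∃ D > (0 : ℝ), ∀ (μ : Measure E3) (y : E3) (ρ : ℝ), AR Λ μ → 0 < ρ →
  ρ ≤ 1 → μ (ball y D) = 0 → gs μ y ρ ≤ 1

/-- **TRI**: the three types of directions -/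
def TRI : Prop := ∀ (S : Srf) (Λ G : ℝ) (e : E3), Shr S Λ G → ‖e‖ = 1 →
  CyD S e ∨ (FlD S e ∧ (PlD S e ∨ EmD S e))

/-- **NCY**: directions which are not cylindrical -/
def NCY : Prop := ∀ Λ : ℝ, ∃ C : ℕ → ℝ, C 1 ≤ 1 / 100 ∧ ∀ (S : Srf) (G : ℝ) (e : E3), Shr S Λ G →
  ‖e‖ = 1 → FlD S e →
  (∃ δ > (0 : ℝ), ∃ r > (0 : ℝ), ∀ᶠ μ : ℝ in atTop, ∀ p, ‖p - e‖ < δ → wm S μ p = 0 →
    RG S (μ • p) (r * μ) C) ∧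
  (∃ δ > (0 : ℝ), ∀ e', ‖e'‖ = 1 → ‖e' - e‖ < δ → ¬ CyD S e') ∧
  (EmD S e → ∃ δ > (0 : ℝ), ∃ R : ℝ, ∀ x ∈ S.G, R ≤ ‖x‖ → δ ≤ ‖‖x‖⁻¹ • x - e‖)

/-- **ISO**: near a cylindrical direction there is only the cylindrical end -/
def ISO : Prop := ∀ (S : Srf) (Λ G : ℝ) (e : E3), Shr S Λ G → ‖e‖ = 1 → CyD S e →
  ∃ δ > (0 : ℝ), ∃ R : ℝ, ∀ x ∈ S.G, R ≤ ‖x‖ → ‖‖x‖⁻¹ • x - e‖ < δ → rad e x ≤ 3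

/-- **DIR**: the geometry at infinity -/
def DIR : Prop := ∀ (S : Srf) (Λ G : ℝ), Shr S Λ G → ∃ A Γ c δ B, Geo S A Γ c δ B

/-! ### ENDS: the model -/

/-- **TUBE**: the signed distance function -/
def TUBE : Prop := ∀ (S : Srf) (c : ℝ) (B : ℕ → ℝ), S.Ok → (∀ x, S.w x = 0 → S.φ x = 0) → 0 < c →
  (∀ p ∈ S.G, HasL S.w p c B) → ∃ w δ C, IsTubeShrinker S.G w δ C ∧ ContDiff ℝ ∞ w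

/-- **CYLE**: cylindrical ends -/
def CYLE : Prop := ∀ (S : Srf) (A : Finset E3) (Γ : Set E3) (c δ : ℝ) (B : ℕ → ℝ),
  Geo S A Γ c δ B → ∀ Q : E3 ≃ₗᵢ[ℝ] E3, axis Q ∈ A → ∃ (f : ℝ × ℝ → ℝ) (R : ℝ), Decays f ∧
    (∀ y : ℝ × ℝ, R ≤ y.1 → cylPt Q f y ∈ S.G) ∧ ∀ p ∈ S.G, R ≤ ⟪axis Q, p⟫ →
      rad (axis Q) p ≤ 3 → ∃ θ, p = cylPt Q f (⟪axis Q, p⟫, θ)

/-- **OMEGA**: a defining function of the cone -/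
def OMEGA : Prop := ∀ (S : Srf) (A : Finset E3) (Γ : Set E3) (c δ : ℝ) (B : ℕ → ℝ),
  Geo S A Γ c δ B → ∃ (om : E3 → ℝ) (U : Set E3), ContDiff ℝ ∞ om ∧ IsOpen U ∧ Γ ⊆ U ∧
    (∀ x ∈ U, ‖x‖ = 1 → (om x = 0 ↔ x ∈ Γ)) ∧
    ∀ g ∈ Γ, gradient om g ≠ 0 ∧ ⟪g, gradient om g⟫ = 0

/-- **LINK**: the link is a finite union of closed curves -/
def LINK : Prop := ∀ (Γ U : Set E3) (om : E3 → ℝ), IsCompact Γ → (∀ g ∈ Γ, ‖g‖ = 1) →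
  ContDiff ℝ ∞ om → IsOpen U → Γ ⊆ U → (∀ x ∈ U, ‖x‖ = 1 → (om x = 0 ↔ x ∈ Γ)) →
  (∀ g ∈ Γ, gradient om g ≠ 0 ∧ ⟪g, gradient om g⟫ = 0) →
  ∃ (n₂ : ℕ) (γ n : Fin n₂ → ℝ → E3), (∀ j, IsLink (γ j) (n j) ∧ Flt Γ (γ j) (n j)) ∧
    (∀ j j' θ θ', γ j θ = γ j' θ' → j = j') ∧ Γ = ⋃ j, range (γ j)

/-- **CONE**: conical ends -/
def CONE : Prop := ∀ (S : Srf) (A : Finset E3) (Γ : Set E3) (c δ : ℝ) (B : ℕ → ℝ),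
  Geo S A Γ c δ B → ∀ γ n : ℝ → E3, IsLink γ n → Flt Γ γ n → range γ ⊆ Γ →
  ∃ (g : ℝ × ℝ → ℝ) (R : ℝ), ∃ η > (0 : ℝ), Decays g ∧
    (∀ y : ℝ × ℝ, R ≤ y.1 → conePt γ n g y ∈ S.G) ∧ ∀ p ∈ S.G, ∀ θ R', R ≤ R' →
      2 * Real.exp R' ≤ ‖p‖ → ‖‖p‖⁻¹ • p - γ θ‖ ≤ η → ∃ y : ℝ × ℝ, R' ≤ y.1 ∧ p = conePt γ n g y

/-- **ENDS**: the ends of a shrinker -/
def ENDS : Prop := ∀ (S : Srf) (Λ G : ℝ), Shr S Λ G → IsEndedShrinker S.G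

end Vale.Agent.P218E
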