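import Vale.Agent.P218E.All
import Vale.Agent.P218E.Clo2

/-!
# P218E: tangent flows at the end of a time interval on which the flow is smooth
-/

open MeasureTheory Metric Filter Topology Set
open scoped ContDiff ENNReal RealInnerProductSpace NNReal
open Vale.Agent.P218 (limitSet WeakTendsto IsTangentFlow rescaled)
open Vale.Agent.P218.H552 (NN)
open Vale.Agent.P218R
open Vale.Agent.P218T (IsEndedShrinker)

noncomputable section

namespace Vale.Agent.P218E

theorem slice2 (hb : GBX) (hT : TF) {M : ℝ → Set E3} {a T : ℝ} (ha : a < T)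
    (hM : IsSmoothFlow M a T) {μ : ℝ → Measure E3}
    (hμ : ∀ t ∈ Ioo a T, μ t = (μH[2] : Measure E3).restrict (M t)) {x₀ : E3}
    {ν : ℝ → Measure E3} (hν : IsTangentFlow 2 μ x₀ T ν) :
    ∃ S, IsEndedShrinker S ∧ ν (-1) = (μH[2] : Measure E3).restrict S := by
  obtain ⟨c, hc, hcH⟩ := exists_cH
  obtain ⟨e, e0, rfl⟩ : ∃ e > 0, a = T - 2 * e := ⟨(T - a) / 2, by linarith, by ring⟩
  obtain ⟨F, Λ, G, hF, hFM⟩ := clo2 hb hM (c := T - e) ⟨by linarith, by linarith⟩
  obtain ⟨hfin, lam, hlam, hw⟩ := hν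
  have hlf := hfin (-1) (by norm_num)
  have hFμ : ∀ t ∈ Ioo (T - e) T, F.μ t = c • μ t := by
    intro t ht
    rw [hμ t ⟨by linarith [ht.1], ht.2⟩, Flw.μ, Srf.μ, hFM t ht, hcH, Measure.restrict_smul]
  have hκ : c • ν (-1) ∈ limitSet (NN 2 F.μ x₀ T) := by
    refine ⟨inferInstance, fun i => Real.log (lam i), Real.tendsto_log_atTop.comp hlam, ?_⟩
    intro φ hφ hφc
    have h1 := (hw (-1) (by norm_num) φ hφ hφc).const_mul (c : ℝ)
    rw [integral_smul_nnreal_measure, NNReal.smul_def, smul_eq_mul]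
    refine h1.congr' ?_
    have h2 : Tendsto (fun i => lam i ^ 2) atTop atTop :=
      (tendsto_pow_atTop two_ne_zero).comp hlam
    filter_upwards [hlam.eventually_gt_atTop 0, h2.eventually_gt_atTop (1 / e)] with i hi hi2
    have h3 : T + -1 / lam i ^ 2 ∈ Ioo (T - e) T := by
      have h4 : 0 < 1 / lam i ^ 2 := by positivity
      have h5 : 1 / lam i ^ 2 < e := by
        rw [div_lt_iff₀ (by positivity)]
        rw [div_lt_iff₀ e0] at hi2
        linarith
      rw [neg_div]
      exact ⟨by linarith, by linarith⟩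
    unfold NN rescaled
    rw [Real.exp_log hi, hFμ _ h3, Measure.map_smul, smul_comm, integral_smul_nnreal_measure,
      NNReal.smul_def, smul_eq_mul]
  obtain ⟨S, hS, hκS⟩ := hT F (T - e) T Λ G x₀ _ (by linarith) hF hκ
  refine ⟨S.G, ends' hT S Λ G hS, ?_⟩
  rw [Srf.μ, hcH, Measure.restrict_smul] at hκS
  have h := congrArg (fun m : Measure E3 => c⁻¹ • m) hκS
  simpa [smul_smul, inv_mul_cancel₀ hc] using h

end Vale.Agent.P218E
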