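import Vale.Agent.P218E.Spec
import Vale.Agent.P218R.Base
import Vale.Agent.P218R.Rsc
import Vale.Agent.P218R.Gsl

/-!
# P218E: magnified measures, weak convergence
-/

open MeasureTheory Metric Filter Topology Set
open scoped ContDiff ENNReal RealInnerProductSpace NNReal
open Vale.Agent.P218 (limitSet WeakTendsto)
open Vale.Agent.P218R

noncomputable section

namespace Vale.Agent.P218E

variable {κ : Measure E3} {p : E3} {l Λ : ℝ}

theorem sc_zm (S : Srf) (p : E3) (hl : 0 < l) : (S.sc p l).μ = zm S.μ p l := mu_sc S p hl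

theorem zm_apply (κ : Measure E3) (p : E3) (hl : 0 < l) (s : Set E3) :
    zm κ p l s = ENNReal.ofReal (l ^ 2) * κ ((fun x => l • (x - p)) ⁻¹' s) := by
  rw [zm, Measure.smul_apply, (sc_emb p hl).map_apply, smul_eq_mul]

theorem zm_ball (κ : Measure E3) (p : E3) (hl : 0 < l) (z : E3) (r : ℝ) :
    zm κ p l (ball z r) = ENNReal.ofReal (l ^ 2) * κ (ball (p + l⁻¹ • z) (r / l)) := by
  rw [zm_apply κ p hl, sc_ball p hl]

theorem integral_zm (κ : Measure E3) (p : E3) (hl : 0 < l) (f : E3 → ℝ) :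
    ∫ y, f y ∂zm κ p l = l ^ 2 * ∫ x, f (l • (x - p)) ∂κ := by
  rw [zm, integral_smul_measure, (sc_emb p hl).integral_map, ENNReal.toReal_ofReal (sq_nonneg l),
    smul_eq_mul]

theorem zm_ar (h : AR Λ κ) (p : E3) (hl : 0 < l) : AR Λ (zm κ p l) := fun y r hr => by
  rw [zm_apply κ p hl, sc_closedBall p hl]
  refine (mul_le_mul_right (h _ _ (div_pos hr hl)) _).trans_eq ?_
  rw [← ENNReal.ofReal_mul (sq_nonneg l)]
  congr 1
  field_simp

theorem gs_zm (κ : Measure E3) (p : E3) (hl : 0 < l) (y : E3) (ρ : ℝ) :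
    gs (zm κ p l) y ρ = gs κ (p + l⁻¹ • y) (ρ / l) := by
  have e : ∀ a : ℝ, -(l * a) ^ 2 / (4 * ρ ^ 2) = -a ^ 2 / (4 * (ρ / l) ^ 2) := fun a => by
    field_simp
  simp only [gs, integral_zm κ p hl, sc_dist p hl, e]
  rw [← mul_assoc]
  congr 1
  by_cases hρ : ρ = 0
  · simp [hρ]
  · field_simp

/-- weak convergence under converging magnifications -/
theorem zm_weak {μ : ℕ → Measure E3} {q : ℕ → E3} {m : ℕ → ℝ} (hA : ∀ᶠ i in atTop, AR Λ (μ i))
    (hw : WeakTendsto μ κ) (hq : Tendsto q atTop (𝓝 p)) (hm : Tendsto m atTop (𝓝 l))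
    (hl : 0 < l) : WeakTendsto (fun i => zm (μ i) (q i) (m i)) (zm κ p l) := by
  intro f hf hfc
  have hpos : ∀ᶠ i in atTop, l / 2 < m i := hm.eventually_const_lt (by linarith)
  rw [integral_zm κ p hl]
  refine Tendsto.congr' (f₁ := fun i => m i ^ 2 * ∫ x, f (m i • (x - q i)) ∂μ i)
    (hpos.mono fun i hi => (integral_zm _ _ (by linarith) f).symm) ((hm.pow 2).mul ?_)
  obtain ⟨R₀, hR₀⟩ := hfc.isCompact.isBounded.subset_closedBall (0 : E3)
  have hz : ∀ y, |R₀| < ‖y‖ → f y = 0 := fun y hy => image_eq_zero_of_notMem_tsupport fun h => by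
    have := mem_closedBall_zero_iff.1 (hR₀ h)
    linarith [le_abs_self R₀]
  set R := ‖p‖ + 1 + 2 * |R₀| / l with hR
  have hR0 : 0 < R := by positivity
  have hv : ∀ (a : ℝ) (b x : E3), l / 2 < a → ‖b‖ ≤ ‖p‖ + 1 → R < ‖x‖ → f (a • (x - b)) = 0 := by
    intro a b x ha hb hx
    refine hz _ ?_
    have h1 : 2 * |R₀| / l < ‖x - b‖ := by linarith [norm_sub_norm_le x b]
    rw [div_lt_iff₀ hl] at h1
    rw [norm_smul, Real.norm_of_nonneg (by linarith)]
    nlinarith [norm_nonneg (x - b)]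
  have hg : Continuous fun x : E3 => f (l • (x - p)) := by fun_prop
  have hgc : HasCompactSupport fun x : E3 => f (l • (x - p)) :=
    HasCompactSupport.intro (isCompact_closedBall (0 : E3) R) fun x hx =>
      hv l p x (by linarith) (by linarith) (by simpa using hx)
  refine Vale.Agent.P218.tendsto_of_approx fun ε hε => ⟨_, _, hw _ hg hgc, ?_, by simp [hε.le]⟩
  set C : ℝ≥0 := (Λ * R ^ 2).toNNReal with hC
  obtain ⟨δ, hδ, hu⟩ := Metric.uniformContinuous_iff.1 (hfc.uniformContinuous_of_continuous hf)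
    (ε / (C + 1)) (by positivity)
  have ht : Tendsto (fun i => |m i - l| * R + ‖m i • q i - l • p‖) atTop (𝓝 0) := by
    have h1 : Tendsto (fun i => |m i - l|) atTop (𝓝 0) := tendsto_iff_norm_sub_tendsto_zero.1 hm
    simpa using (h1.mul_const R).add (tendsto_iff_norm_sub_tendsto_zero.1 (hm.smul hq))
  filter_upwards [hA, hpos, ht.eventually_lt_const hδ,
    hq.norm.eventually_lt_const (lt_add_one ‖p‖)] with i h1 h2 h3 h4
  have := h1.fin
  refine (Vale.Agent.P218.abs_integral_sub_le (R := R) (M := ε / (C + 1)) (C := C) (by fun_prop) hg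
    (fun x => hv _ _ x h2 h4.le) (fun x => hv l p x (by linarith) (by linarith))
    (fun x hx => ?_) (by positivity) (h1 0 R hR0)).trans ?_
  · refine (hu (lt_of_le_of_lt ?_ h3)).le
    rw [dist_eq_norm, show m i • (x - q i) - l • (x - p) = (m i - l) • x - (m i • q i - l • p) by
      simp only [smul_sub, sub_smul]; abel]
    refine (norm_sub_le _ _).trans ?_
    rw [norm_smul, Real.norm_eq_abs]
    gcongr
  · rw [div_mul_eq_mul_div, div_le_iff₀ (by positivity)]
    nlinarith [C.2]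

/-- upper semicontinuity of the mass of compact sets -/
theorem ev_le_of_weak {μ : ℕ → Measure E3} [IsLocallyFiniteMeasure κ]
    (hA : ∀ᶠ i in atTop, IsLocallyFiniteMeasure (μ i)) (hw : WeakTendsto μ κ) {K V : Set E3}
    (hK : IsCompact K) (hV : IsOpen V) (hKV : K ⊆ V) {m : ℝ} (hm : κ V < ENNReal.ofReal m) :
    ∀ᶠ i in atTop, μ i K ≤ ENNReal.ofReal m := by
  obtain ⟨f, f1, f0, fc, fb⟩ := exists_continuous_one_zero_of_isCompact hK hV.isClosed_compl
    (disjoint_compl_right_iff_subset.2 hKV)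
  have h1 : ENNReal.ofReal (∫ x, f x ∂κ) ≤ κ V := by
    refine (Real.ofReal_le_enorm _).trans ((enorm_integral_le_lintegral_enorm _).trans ?_)
    rw [← lintegral_indicator_one hV.measurableSet]
    refine lintegral_mono fun y => ?_
    by_cases hy : y ∈ V
    · rw [indicator_of_mem hy, Real.enorm_eq_ofReal (fb y).1]
      exact ENNReal.ofReal_le_one.2 (fb y).2
    · simp [f0 hy]
  filter_upwards [hA, (ENNReal.tendsto_ofReal (hw f f.continuous fc)).eventually_lt_const
    (h1.trans_lt hm)] with i h2 h3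
  refine le_trans ?_ h3.le
  rw [ofReal_integral_eq_lintegral_ofReal (f.continuous.integrable_of_hasCompactSupport fc)
    (Eventually.of_forall fun y => (fb y).1), ← lintegral_indicator_one hK.measurableSet]
  refine lintegral_mono (indicator_le fun y hy => ?_)
  simp [f1 hy]

/-- lower semicontinuity of the mass of open sets -/
theorem ev_lt_of_weak {μ : ℕ → Measure E3} [IsLocallyFiniteMeasure κ]
    (hw : WeakTendsto μ κ) {V : Set E3} (hV : IsOpen V) {m : ℝ≥0∞} (hm : m < κ V) :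
    ∀ᶠ i in atTop, m < μ i V := by
  obtain ⟨K, hKV, hK, hmK⟩ := hV.exists_lt_isCompact hm
  obtain ⟨f, f1, f0, fc, fb⟩ := exists_continuous_one_zero_of_isCompact hK hV.isClosed_compl
    (disjoint_compl_right_iff_subset.2 hKV)
  have h1 : κ K ≤ ENNReal.ofReal (∫ x, f x ∂κ) := by
    rw [ofReal_integral_eq_lintegral_ofReal (f.continuous.integrable_of_hasCompactSupport fc)
      (Eventually.of_forall fun y => (fb y).1), ← lintegral_indicator_one hK.measurableSet]
    refine lintegral_mono (indicator_le fun y hy => ?_)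
    simp [f1 hy]
  filter_upwards [(ENNReal.tendsto_ofReal (hw f f.continuous fc)).eventually_const_lt
    (hmK.trans_le h1)] with i h3
  refine h3.trans_le ?_
  refine (Real.ofReal_le_enorm _).trans ((enorm_integral_le_lintegral_enorm _).trans ?_)
  rw [← lintegral_indicator_one hV.measurableSet]
  refine lintegral_mono fun y => ?_
  by_cases hy : y ∈ V
  · rw [indicator_of_mem hy, Real.enorm_eq_ofReal (fb y).1]
    exact ENNReal.ofReal_le_one.2 (fb y).2
  · simp [f0 hy]

/-- the rescaled slices are slices of the flow -/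
theorem rsl_ok {F : Flw} {a b t₀ τ : ℝ} (h : F.OkA a b Λ) (x₀ : E3)
    (h1 : a < t₀ - Real.exp (-2 * τ)) (h2 : t₀ ≤ b) :
    (F.rsl x₀ t₀ τ).Ok ∧ AR Λ (F.rsl x₀ t₀ τ).μ := by
  have h3 := h.rs x₀ t₀ (Real.exp_pos τ)
  have h4 : (-1 : ℝ) ∈ Ioo (Real.exp τ ^ 2 * (a - t₀)) (Real.exp τ ^ 2 * (b - t₀)) := by
    rw [rs_mem (Real.exp_pos τ)]
    have e : -1 / Real.exp τ ^ 2 = -Real.exp (-2 * τ) := by
      rw [← Real.exp_nat_mul, neg_div, one_div, ← Real.exp_neg]; norm_num
    rw [e]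
    exact ⟨by linarith, by linarith [Real.exp_pos (-2 * τ)]⟩
  exact ⟨h3.toOk.sl h4, h3.ar _ h4⟩

theorem ev_time {a b : ℝ} (hab : a < b) {τ : ℕ → ℝ} (hτ : Tendsto τ atTop atTop) :
    ∀ᶠ i in atTop, a < b - Real.exp (-2 * τ i) := by
  have h : Tendsto (fun i => Real.exp (-2 * τ i)) atTop (𝓝 0) :=
    Real.tendsto_exp_atBot.comp (hτ.const_mul_atTop_of_neg (by norm_num))
  filter_upwards [h.eventually_lt_const (sub_pos.2 hab)] with i hi
  linarith

end Vale.Agent.P218E
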